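import Vale.Agent.P092.H242.RowPair
import Vale.Agent.P092.H944.Geo
import Vale.Agent.P092.H761.Chain

/-!
P092 (helper242): the commuting rank theorem in the row model.
-/

set_option linter.all false

open scoped InnerProductSpace
open Filter Topology ContinuousLinearMap

namespace Vale.Agent.P092.H242

open Vale.Agent.P092.H160 Vale.Agent.P092.H553 Vale.Agent.P092.H200 Vale.Agent.P092.H432
open Vale.Agent.P092.H944 (Emb gap)

/-- A group with finite balls is countable. -/
theorem Emb.countable {n : ℕ} {Γ : Type} [Group Γ] {m : Γ → Matrix (Fin n) (Fin n) ℝ}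
    (h : Emb m) : Countable Γ := by
  rw [← Set.countable_univ_iff]
  refine (Set.countable_iUnion fun k : ℕ => (h.fin k).countable).mono fun g _ => ?_
  obtain ⟨k, hk⟩ := exists_nat_ge (H944.hs (m g))
  exact Set.mem_iUnion.mpr ⟨k, hk⟩

/-- **Commuting rank theorem, row model**: if `Γ` is a discrete group of real `n × n` matrices (up
to signs) and `Λ` contains `n - 1` commuting subgroups without invariant mean and an infinite
subgroup commuting with them, then `Λ` has no trace preserving representation in an amplification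
of `L(Γ)`. -/
theorem rank_row {n : ℕ} (hn : 0 < n) {Γ Λ ι : Type} [Group Γ] [Group Λ] [Fintype ι]
    {m : Γ → Matrix (Fin n) (Fin n) ℝ} (h : Emb m) (hL : Multi (n - 1) Λ) {t : ℝ}
    {R : Λ → (Ell2 (Γ × ι) →L[ℂ] Ell2 (Γ × ι))} (hR : ARep t R) : False := by
  classical
  haveI := Emb.countable h
  exact H761.rankAbs Γ Λ (Fin (n - 1)) t (H761.massR R) (rowMass Γ Λ ι t R hR) (n - 1) _ id
    (H944.gaps h) (fun θ _ _ => H944.geo hn h θ) hL

/-- The same with a set `J` of gaps outside of which the gaps are bounded, and with classes of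
comparable gaps. -/
theorem rank_row' {n : ℕ} (hn : 0 < n) {Γ Λ ι J : Type} [Group Γ] [Group Λ] [Fintype ι]
    [Fintype J] [DecidableEq J] {m : Γ → Matrix (Fin n) (Fin n) ℝ} (h : Emb m) (e : J ↪ ℕ)
    {R0 : ℝ} (h0 : ∀ l, l + 1 < n → (∀ j, e j ≠ l) → ∀ g, gap l (m g) ≤ R0) {r : ℕ}
    (cl : J → Fin r)
    (hcl : ∀ R : ℝ, ∃ R' : ℝ, ∀ i j, cl i = cl j → ∀ g, gap (e i) (m g) ≤ R →
      gap (e j) (m g) ≤ R') (hL : Multi r Λ) {t : ℝ}
    {R : Λ → (Ell2 (Γ × ι) →L[ℂ] Ell2 (Γ × ι))} (hR : ARep t R) : False := by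
  classical
  haveI := Emb.countable h
  exact H761.rankAbs Γ Λ J t (H761.massR R) (rowMass Γ Λ ι t R hR) r _ cl
    (H944.gaps' h e h0 cl hcl) (fun θ _ _ => H944.geo' hn h e h0 θ) hL

end Vale.Agent.P092.H242
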