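import Vale.Agent.P092.H242.ThCK

/-!
P092, Theorem C (#3269) step (1): density of products, Schur orthogonality (K) (helper242).
-/

set_option linter.all false

open MeasureTheory Filter Topology
open scoped InnerProductSpace ENNReal

namespace Vale.Agent.P092.H242.ThC

variable {A L : Type*} [NonUnitalRing A] [StarRing A] [Module ℂ A] [SMulCommClass ℂ A A]
  [IsScalarTower ℂ A A]
  [NormedAddCommGroup L] [InnerProductSpace ℂ L] [CompleteSpace L] {j : A →ₗ[ℂ] L}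

section dense

variable {H : Type*} [Group H] [TopologicalSpace H] [MeasurableSpace H] {α : H → A → A}
  {U : H →* (L →L[ℂ] L)} {μ : Measure H} [OpensMeasurableSpace H]

/-- nondegeneracy: a vector orthogonal to all products is zero -/
theorem eq_zero_of_orth (hj : HA j) (hα : Act j α U) (hI : Itg j α μ) {ξ : L}
    (h : ∀ a b, ⟪j (a * b), ξ⟫_ℂ = 0) : ξ = 0 := by
  choose T hT using hj.exists_left
  -- `T a` is the left multiplication
  have hTadj : ∀ a (η : L) b, ⟪T (star a) η, j b⟫_ℂ = ⟪η, j (a * b)⟫_ℂ := by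
    intro a η b
    induction η using hj.dense.induction_on with
    | hp =>
      exact isClosed_eq (Continuous.inner (𝕜 := ℂ) (T (star a)).continuous continuous_const)
        (Continuous.inner (𝕜 := ℂ) continuous_id continuous_const)
    | ih x => rw [hT, hj.left, star_star]
  have hTξ : ∀ a, T a ξ = 0 := by
    intro a
    have h1 : ∀ b, ⟪T a ξ, j b⟫_ℂ = 0 := by
      intro b
      have := hTadj (star a) ξ b
      rw [star_star] at this
      rw [this, ← inner_conj_symm, h, map_zero]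
    have h2 : ∀ η : L, ⟪T a ξ, η⟫_ℂ = 0 := by
      intro η
      induction η using hj.dense.induction_on with
      | hp =>
        exact isClosed_eq (Continuous.inner (𝕜 := ℂ) continuous_const continuous_id)
          continuous_const
      | ih x => exact h1 x
    have := h2 (T a ξ)
    rwa [inner_self_eq_zero] at this
  -- covariance
  have hcov : ∀ h a η, T (α h a) η = U h (T a (U h⁻¹ η)) := by
    intro h a η
    induction η using hj.dense.induction_on with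
    | hp =>
      exact isClosed_eq (T _).continuous
        ((U h).continuous.comp ((T a).continuous.comp (U h⁻¹).continuous))
    | ih x => rw [hT, hα.coe, hT, hα.coe, hα.mul, hα.act_inv]
  have hcont : ∀ a η, Continuous fun h => T (α h a) η := by
    intro a η
    simp only [hcov]
    -- h ↦ U h⁻¹ η is weakly..., use approximation by elements of the algebra
    rw [continuous_iff_continuousAt]
    intro h₀
    rw [Metric.continuousAt_iff']
    intro ε hε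
    obtain ⟨C, hC0, hC⟩ := hj.bdd0 a
    have hTa : ∀ ζ, ‖T a ζ‖ ≤ C * ‖ζ‖ := by
      intro ζ
      induction ζ using hj.dense.induction_on with
      | hp => exact isClosed_le (T a).continuous.norm (continuous_const.mul continuous_norm)
      | ih x => rw [hT]; exact hC x
    obtain ⟨b, hb⟩ := hj.dense.exists_dist_lt η (show (0 : ℝ) < ε / (4 * (C + 1)) by positivity)
    have hc := hj.cont_mulR b (hα.contj a)
    have h1 := (Metric.continuousAt_iff'.1 (hc.continuousAt (x := h₀))) (ε / 4) (by positivity)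
    filter_upwards [h1] with h hh
    have d1 : ∀ k, dist (U k (T a (U k⁻¹ η))) (j (α k a * b)) ≤ ε / 4 := by
      intro k
      have e : j (α k a * b) = U k (T a (U k⁻¹ (j b))) := by rw [← hcov, hT]
      rw [e, dist_eq_norm, ← map_sub, hα.iso, ← map_sub, ← map_sub]
      refine (hTa _).trans ?_
      rw [hα.iso, ← dist_eq_norm]
      calc C * dist η (j b) ≤ (C + 1) * (ε / (4 * (C + 1))) := by
            refine mul_le_mul (by linarith) hb.le dist_nonneg (by positivity)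
        _ = ε / 4 := by field_simp
    have d2 := d1 h
    have d3 := d1 h₀
    have t1 := dist_triangle (U h (T a (U h⁻¹ η))) (j (α h a * b)) (U h₀ (T a (U h₀⁻¹ η)))
    have t2 := dist_triangle (j (α h a * b)) (j (α h₀ a * b)) (U h₀ (T a (U h₀⁻¹ η)))
    have t3 := dist_comm (j (α h₀ a * b)) (U h₀ (T a (U h₀⁻¹ η)))
    linarith
  -- the upper bound for arbitrary vectors
  have hbd : ∀ a η, ∫⁻ h, ‖T (α h a) η‖ₑ ^ 2 ∂μ ≤ ENNReal.ofReal (‖j a‖ ^ 2 * ‖η‖ ^ 2) := by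
    intro a η
    refine fatou_bound hj.dense (fun h => T (α h a)) (μ := μ)
      (fun ζ => (hcont a ζ).enorm.measurable.aemeasurable) (fun x => ?_) η
    simp only [hT]
    rw [lint_sq (hI.int _ _), hI.norm_eq]
  -- conclusion
  by_contra hξ
  have hpos : 0 < ‖ξ‖ := norm_pos_iff.2 hξ
  have hle : ∀ a x, ‖j a‖ * ‖j x‖ ≤ ‖j a‖ * ‖ξ - j x‖ := by
    intro a x
    have h1 := hbd a (ξ - j x)
    have h2 : (fun h => ‖T (α h a) (ξ - j x)‖ₑ ^ 2) = fun h => ‖j (α h a * x)‖ₑ ^ 2 := by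
      funext h
      rw [map_sub, hTξ, zero_sub, enorm_neg, hT]
    rw [h2, lint_sq (hI.int _ _), hI.norm_eq,
      ENNReal.ofReal_le_ofReal_iff (by positivity), ← mul_pow, ← mul_pow] at h1
    exact (pow_le_pow_iff_left₀ (by positivity) (by positivity) (by norm_num)).1 h1
  obtain ⟨a, ha⟩ := hj.dense.exists_dist_lt ξ (show (0 : ℝ) < ‖ξ‖ / 3 by positivity)
  rw [dist_eq_norm] at ha
  have h3 : ‖ξ‖ - ‖j a‖ ≤ ‖ξ - j a‖ := norm_sub_norm_le ξ (j a)
  have h4 : 0 < ‖j a‖ := by linarith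
  have h5 := le_of_mul_le_mul_left (hle a a) h4
  linarith

/-- the span of the products is dense -/
theorem dense2 (hj : HA j) (hα : Act j α U) (hI : Itg j α μ) :
    Dense ((Submodule.span ℂ {ξ : L | ∃ a b, ξ = j (a * b)} : Submodule ℂ L) : Set L) := by
  rw [Submodule.dense_iff_topologicalClosure_eq_top, Submodule.topologicalClosure_eq_top_iff,
    Submodule.eq_bot_iff]
  intro ξ hξ
  refine eq_zero_of_orth hj hα hI fun a b => ?_
  exact (Submodule.mem_orthogonal _ _).1 hξ _ (Submodule.subset_span ⟨a, b, rfl⟩)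

/-- two continuous functionals agreeing on products are equal -/
theorem ext2 (hj : HA j) (hα : Act j α U) (hI : Itg j α μ) {φ ψ : L →L[ℂ] ℂ}
    (h : ∀ a b, φ (j (a * b)) = ψ (j (a * b))) (ξ : L) : φ ξ = ψ ξ := by
  have : φ = ψ := ContinuousLinearMap.ext_on (dense2 hj hα hI) fun x hx => by
    obtain ⟨a, b, rfl⟩ := hx
    exact h a b
  rw [this]

end dense

section K

variable {H Y : Type*} [Group H] [TopologicalSpace H] [MeasurableSpace H] [OpensMeasurableSpace H]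
  [SecondCountableTopology H] [Group Y] [TopologicalSpace Y] [MeasurableSpace Y]
  [OpensMeasurableSpace Y] [SecondCountableTopology Y]
  {α : H → A → A} {U : H →* (L →L[ℂ] L)} {μ : Measure H}
  {r : Y → A → A} {R : Y →* (L →L[ℂ] L)} {ν : Measure Y}

/-- the double integrand of (K) -/
noncomputable def kT (j : A →ₗ[ℂ] L) (α : H → A → A) (r : Y → A → A) (b₁ b₂ x₁ x₂ c z : A)
    (h : H) (y : Y) : ℂ :=
  ⟪j (α h (star x₁) * (z * r y (star b₂))), j (α h (x₂ * r y (star c)) * r y b₁)⟫_ℂ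

theorem kT_eq (P : Pk j α U μ r R ν) (b₁ b₂ x₁ x₂ c z : A) (h : H) (y : Y) :
    kT j α r b₁ b₂ x₁ x₂ c z h y =
      ⟪j z, j (α h (x₁ * x₂ * r y (star c)) * r y (b₁ * b₂))⟫_ℂ := by
  have hj := P.ha
  have e : α h (x₁ * x₂ * r y (star c)) * r y (b₁ * b₂) =
      (α h x₁ * (α h (x₂ * r y (star c)) * r y b₁)) * r y b₂ := by
    rw [mul_assoc x₁, P.actH.mul, P.actY.mul]
    simp only [mul_assoc]
  rw [e, hj.r', hj.l', kT, P.actY.st, P.actH.st]

theorem kT_h (P : Pk j α U μ r R ν) (b₁ b₂ x₁ x₂ c z : A) (y : Y) :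
    ∫ h, kT j α r b₁ b₂ x₁ x₂ c z h y ∂μ =
      ⟪j (r y c), j (x₁ * x₂)⟫_ℂ * ⟪j z, j (r y (b₁ * b₂))⟫_ℂ := by
  have hj := P.ha
  have e : ∀ h, kT j α r b₁ b₂ x₁ x₂ c z h y =
      ⟪j (α h (star (x₁ * x₂)) * z), j (α h (r y (star c)) * r y (b₁ * b₂))⟫_ℂ := by
    intro h
    rw [kT_eq P, P.actH.mul, mul_assoc, hj.l', P.actH.st]
  simp only [e]
  rw [P.itgH.eq, P.actY.st, hj.tr]

theorem kT_y (P : Pk j α U μ r R ν) (b₁ b₂ x₁ x₂ c z : A) (h : H) :
    ∫ y, kT j α r b₁ b₂ x₁ x₂ c z h y ∂ν =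
      ⟪j (α h c), j (b₁ * b₂)⟫_ℂ * ⟪j z, j (α h (x₁ * x₂))⟫_ℂ := by
  have hj := P.ha
  have e : ∀ y, kT j α r b₁ b₂ x₁ x₂ c z h y =
      ⟪j (r y (α h c) * star (α h (x₁ * x₂))), j (r y (b₁ * b₂) * star z)⟫_ℂ := by
    intro y
    have e1 : α h (x₁ * x₂ * r y (star c)) * r y (b₁ * b₂) =
      α h (x₁ * x₂) * (star (r y (α h c)) * r y (b₁ * b₂)) := by
      rw [P.actH.mul (a := x₁ * x₂), P.comm, P.actH.st, P.actY.st, mul_assoc]
    rw [kT_eq P, e1, hj.l', hj.l', star_star, ← mul_assoc, hj.right]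
  simp only [e]
  rw [P.itgY.eq, hj.tr]

theorem kT_cont (P : Pk j α U μ r R ν) (b₁ b₂ x₁ x₂ c z : A) :
    Continuous fun p : H × Y => kT j α r b₁ b₂ x₁ x₂ c z p.1 p.2 := by
  have hj := P.ha
  obtain ⟨C1, hC10, hC1⟩ := hj.bdd0 (star x₁)
  obtain ⟨C2, hC20, hC2⟩ := hj.bdd0 x₂
  obtain ⟨C3, hC30, hC3⟩ := hj.bdd0 (star c)
  refine Continuous.inner ?_ ?_
  · refine hj.cont_mul (f := fun p : H × Y => α p.1 (star x₁)) (C := C1)
      ((P.actH.contj _).comp continuous_fst) ?_ fun p b => P.actH.bound hC1 _ _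
    exact hj.cont_mulL z ((P.actY.contj _).comp continuous_snd)
  · refine hj.cont_mul (f := fun p : H × Y => α p.1 (x₂ * r p.2 (star c))) (C := C2 * C3)
      ?_ ((P.actY.contj _).comp continuous_snd) fun p b => ?_
    · simp only [← P.actH.coe]
      exact P.actH.cont_joint continuous_fst
        (hj.cont_mulL x₂ ((P.actY.contj _).comp continuous_snd))
    · refine P.actH.bound (fun b => ?_) _ _
      rw [mul_assoc, mul_assoc C2]
      refine (hC2 _).trans (mul_le_mul_of_nonneg_left ?_ hC20)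
      exact P.actY.bound hC3 _ _

theorem kT_int (P : Pk j α U μ r R ν) [SFinite μ] [SFinite ν] (b₁ b₂ x₁ x₂ c z : A) :
    Integrable (Function.uncurry (kT j α r b₁ b₂ x₁ x₂ c z)) (μ.prod ν) := by
  have hj := P.ha
  have hm : AEStronglyMeasurable (Function.uncurry (kT j α r b₁ b₂ x₁ x₂ c z)) (μ.prod ν) :=
    (kT_cont P b₁ b₂ x₁ x₂ c z).aestronglyMeasurable
  -- L² facts in `h` for fixed `y`
  have hI1 : ∀ y, Integrable (fun h => ‖j (α h (star x₁) * (z * r y (star b₂)))‖ ^ 2) μ :=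
    fun y => P.itgH.int _ _
  have hI2 : ∀ y, Integrable (fun h => ‖j (α h (x₂ * r y (star c)) * r y b₁)‖ ^ 2) μ :=
    fun y => P.itgH.int _ _
  have hc1 : ∀ y, Continuous fun h => j (α h (star x₁) * (z * r y (star b₂))) := fun y =>
    hj.cont_mulR _ (P.actH.contj _)
  have hc2 : ∀ y, Continuous fun h => j (α h (x₂ * r y (star c)) * r y b₁) := fun y =>
    hj.cont_mulR _ (P.actH.contj _)
  have hL1 : ∀ y, MemLp (fun h => ‖j (α h (star x₁) * (z * r y (star b₂)))‖) 2 μ := fun y =>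
    (memLp_two_iff_integrable_sq (hc1 y).norm.aestronglyMeasurable).2 (hI1 y)
  have hL2 : ∀ y, MemLp (fun h => ‖j (α h (x₂ * r y (star c)) * r y b₁)‖) 2 μ := fun y =>
    (memLp_two_iff_integrable_sq (hc2 y).norm.aestronglyMeasurable).2 (hI2 y)
  have hprod : ∀ y, Integrable (fun h => ‖j (α h (star x₁) * (z * r y (star b₂)))‖ *
      ‖j (α h (x₂ * r y (star c)) * r y b₁)‖) μ := fun y => (hL1 y).integrable_mul (hL2 y)
  have hsec : ∀ y, Integrable (fun h => kT j α r b₁ b₂ x₁ x₂ c z h y) μ := by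
    intro y
    refine (hprod y).mono' ?_ (Eventually.of_forall fun h => norm_inner_le_norm _ _)
    exact ((kT_cont P b₁ b₂ x₁ x₂ c z).comp
      (continuous_id.prodMk continuous_const)).aestronglyMeasurable
  rw [integrable_prod_iff' hm]
  refine ⟨Eventually.of_forall fun y => hsec y, ?_⟩
  -- the bound
  have hb : ∀ y, ∫ h, ‖kT j α r b₁ b₂ x₁ x₂ c z h y‖ ∂μ ≤
      (‖j x₁‖ * ‖j b₁‖) * (‖j (z * r y (star b₂))‖ * ‖j (x₂ * r y (star c))‖) := by
    intro y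
    calc ∫ h, ‖kT j α r b₁ b₂ x₁ x₂ c z h y‖ ∂μ ≤ ∫ h, ‖j (α h (star x₁) * (z * r y (star b₂)))‖ *
          ‖j (α h (x₂ * r y (star c)) * r y b₁)‖ ∂μ :=
          integral_mono (hsec y).norm (hprod y) fun h => norm_inner_le_norm _ _
      _ ≤ (∫ h, ‖j (α h (star x₁) * (z * r y (star b₂)))‖ ^ (2 : ℝ) ∂μ) ^ (1 / (2 : ℝ)) *
          (∫ h, ‖j (α h (x₂ * r y (star c)) * r y b₁)‖ ^ (2 : ℝ) ∂μ) ^ (1 / (2 : ℝ)) := by
          refine integral_mul_le_Lp_mul_Lq_of_nonneg Real.HolderConjugate.two_two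
            (Eventually.of_forall fun h => norm_nonneg _)
            (Eventually.of_forall fun h => norm_nonneg _) ?_ ?_
          · simpa using hL1 y
          · simpa using hL2 y
      _ = (‖j x₁‖ * ‖j b₁‖) * (‖j (z * r y (star b₂))‖ * ‖j (x₂ * r y (star c))‖) := by
          have hs : ∀ x y : ℝ, 0 ≤ x → 0 ≤ y → (x ^ 2 * y ^ 2) ^ (1 / (2 : ℝ)) = x * y := by
            intro x y hx hy
            rw [← Real.sqrt_eq_rpow, ← mul_pow, Real.sqrt_sq (by positivity)]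
          simp only [Real.rpow_two]
          rw [P.itgH.norm_eq, P.itgH.norm_eq, hs _ _ (norm_nonneg _) (norm_nonneg _),
            hs _ _ (norm_nonneg _) (norm_nonneg _), hj.norm_star, P.actY.norm]
          ring
  have hd1 : Continuous fun y => j (z * r y (star b₂)) := hj.cont_mulL _ (P.actY.contj _)
  have hd2 : Continuous fun y => j (x₂ * r y (star c)) := hj.cont_mulL _ (P.actY.contj _)
  have hM1 : MemLp (fun y => ‖j (z * r y (star b₂))‖) 2 ν :=
    (memLp_two_iff_integrable_sq hd1.norm.aestronglyMeasurable).2 (P.itgY.intR hj P.actY _ _)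
  have hM2 : MemLp (fun y => ‖j (x₂ * r y (star c))‖) 2 ν :=
    (memLp_two_iff_integrable_sq hd2.norm.aestronglyMeasurable).2 (P.itgY.intR hj P.actY _ _)
  have hMM : Integrable (fun y => ‖j (z * r y (star b₂))‖ * ‖j (x₂ * r y (star c))‖) ν :=
    hM1.integrable_mul hM2
  refine (hMM.const_mul (‖j x₁‖ * ‖j b₁‖)).mono' ?_ (Eventually.of_forall fun y => ?_)
  · exact hm.norm.prod_swap.integral_prod_right'
  · rw [Real.norm_of_nonneg (integral_nonneg fun _ => norm_nonneg _)]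
    exact hb y

/-- (K) for elements of the algebra -/
theorem K_base (P : Pk j α U μ r R ν) [SFinite μ] [SFinite ν] (b₁ b₂ x₁ x₂ c z : A) :
    ∫ y, ⟪R y (j c), j (x₁ * x₂)⟫_ℂ * ⟪j z, R y (j (b₁ * b₂))⟫_ℂ ∂ν =
      ∫ h, ⟪U h (j c), j (b₁ * b₂)⟫_ℂ * ⟪j z, U h (j (x₁ * x₂))⟫_ℂ ∂μ := by
  have h := integral_integral_swap (kT_int P b₁ b₂ x₁ x₂ c z)
  simp only [kT_h P, kT_y P] at h
  simp only [P.actH.coe, P.actY.coe]
  exact h.symm

/-- (K), first form: `b, x` arbitrary vectors, `c, z` products -/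
theorem K1 (P : Pk j α U μ r R ν) [SFinite μ] [SFinite ν] (b x : L) (c₁ c₂ z₁ z₂ : A) :
    ∫ y, ⟪R y (j (c₁ * c₂)), x⟫_ℂ * ⟪j (z₁ * z₂), R y b⟫_ℂ ∂ν =
      ∫ h, ⟪U h (j (c₁ * c₂)), b⟫_ℂ * ⟪j (z₁ * z₂), U h x⟫_ℂ ∂μ := by
  have hj := P.ha
  have step1 : ∀ (b : L) (x₁ x₂ : A),
      ∫ y, ⟪R y (j (c₁ * c₂)), j (x₁ * x₂)⟫_ℂ * ⟪j (z₁ * z₂), R y b⟫_ℂ ∂ν =
      ∫ h, ⟪U h (j (c₁ * c₂)), b⟫_ℂ * ⟪j (z₁ * z₂), U h (j (x₁ * x₂))⟫_ℂ ∂μ := by
    intro b x₁ x₂
    obtain ⟨φ, hφ⟩ := pair2 hj P.actY P.itgY z₁ z₂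
      (memLp1 hj P.actY P.itgY c₁ c₂ (j (x₁ * x₂)))
    obtain ⟨ψ, hψ⟩ := pair1 hj P.actH P.itgH c₁ c₂
      (memLp2 hj P.actH P.itgH z₁ z₂ (j (x₁ * x₂)))
    rw [← hφ]
    have e : ∫ h, ⟪U h (j (c₁ * c₂)), b⟫_ℂ * ⟪j (z₁ * z₂), U h (j (x₁ * x₂))⟫_ℂ ∂μ = ψ b := by
      rw [hψ]
      congr 1
      funext h
      ring
    rw [e]
    refine ext2 hj P.actH P.itgH (fun b₁ b₂ => ?_) b
    rw [hφ, hψ, K_base P]
    congr 1
    funext h
    ring
  obtain ⟨φ, hφ⟩ := pair1 hj P.actY P.itgY c₁ c₂ (memLp2 hj P.actY P.itgY z₁ z₂ b)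
  obtain ⟨ψ, hψ⟩ := pair2 hj P.actH P.itgH z₁ z₂ (memLp1 hj P.actH P.itgH c₁ c₂ b)
  rw [← hψ]
  have e : ∫ y, ⟪R y (j (c₁ * c₂)), x⟫_ℂ * ⟪j (z₁ * z₂), R y b⟫_ℂ ∂ν = φ x := by
    rw [hφ]
    congr 1
    funext h
    ring
  rw [e]
  refine ext2 hj P.actH P.itgH (fun x₁ x₂ => ?_) x
  rw [hφ, hψ, ← step1]
  congr 1
  funext h
  ring

/-- (K), second form: `z` an arbitrary vector, `b, c, x` products -/
theorem K2 (P : Pk j α U μ r R ν) [SFinite μ] [SFinite ν] (z : L) (b₁ b₂ x₁ x₂ c₁ c₂ : A) :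
    ∫ y, ⟪R y (j (c₁ * c₂)), j (x₁ * x₂)⟫_ℂ * ⟪z, R y (j (b₁ * b₂))⟫_ℂ ∂ν =
      ∫ h, ⟪U h (j (c₁ * c₂)), j (b₁ * b₂)⟫_ℂ * ⟪z, U h (j (x₁ * x₂))⟫_ℂ ∂μ := by
  have hj := P.ha
  obtain ⟨φ, hφ⟩ := pair1 hj P.actY P.itgY b₁ b₂
    (memLp1 hj P.actY P.itgY c₁ c₂ (j (x₁ * x₂))).star
  obtain ⟨ψ, hψ⟩ := pair1 hj P.actH P.itgH x₁ x₂
    (memLp1 hj P.actH P.itgH c₁ c₂ (j (b₁ * b₂))).star
  have e1 : ∀ z : L, φ z = (starRingEnd ℂ)
      (∫ y, ⟪R y (j (c₁ * c₂)), j (x₁ * x₂)⟫_ℂ * ⟪z, R y (j (b₁ * b₂))⟫_ℂ ∂ν) := by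
    intro z
    rw [hφ, ← integral_conj]
    congr 1
    funext y
    rw [map_mul (starRingEnd ℂ), inner_conj_symm (R y (j (b₁ * b₂))) z]
    rfl
  have e2 : ∀ z : L, ψ z = (starRingEnd ℂ)
      (∫ h, ⟪U h (j (c₁ * c₂)), j (b₁ * b₂)⟫_ℂ * ⟪z, U h (j (x₁ * x₂))⟫_ℂ ∂μ) := by
    intro z
    rw [hψ, ← integral_conj]
    congr 1
    funext y
    rw [map_mul (starRingEnd ℂ), inner_conj_symm (U y (j (x₁ * x₂))) z]
    rfl
  have h1 : φ z = ψ z := by
    induction z using hj.dense.induction_on with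
    | hp => exact isClosed_eq φ.continuous ψ.continuous
    | ih a => rw [e1, e2, K_base P]
  rw [e1, e2] at h1
  exact (starRingEnd ℂ).injective h1

end K

end Vale.Agent.P092.H242.ThC
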