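import Mathlib

/-!
P092, Theorem C (helper565 #3269), interface and basics (helper242).

`A` = tracial Hilbert algebra (concretely a `NonUnitalStarSubalgebra` of `G → (K →L[ℂ] K)`),
`j : A → L` the map to its completion, `α : H → A → A`, `r : Y → A → A` commuting integrable
actions with unitary extensions `U`, `R` on `L`.
-/

set_option linter.all false

open MeasureTheory Filter Topology
open scoped InnerProductSpace ENNReal

namespace Vale.Agent.P092.H242.ThC

section defs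

variable {A L : Type*} [NonUnitalRing A] [StarRing A] [Module ℂ A]
  [NormedAddCommGroup L] [InnerProductSpace ℂ L]

/-- tracial Hilbert algebra -/
structure HA (j : A →ₗ[ℂ] L) : Prop where
  dense : DenseRange j
  left : ∀ a b c, ⟪j (a * b), j c⟫_ℂ = ⟪j b, j (star a * c)⟫_ℂ
  right : ∀ a b c, ⟪j (a * b), j c⟫_ℂ = ⟪j a, j (c * star b)⟫_ℂ
  tr : ∀ a b, ⟪j (star a), j (star b)⟫_ℂ = ⟪j b, j a⟫_ℂ
  bdd : ∀ a, ∃ C : ℝ, ∀ b, ‖j (a * b)‖ ≤ C * ‖j b‖

/-- `α` acts on `A` by star automorphisms, `U` is its unitary extension to `L`. -/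
structure Act {H : Type*} [Group H] [TopologicalSpace H] (j : A →ₗ[ℂ] L) (α : H → A → A)
    (U : H →* (L →L[ℂ] L)) : Prop where
  mul : ∀ h a b, α h (a * b) = α h a * α h b
  st : ∀ h a, α h (star a) = star (α h a)
  one : ∀ a, α 1 a = a
  act : ∀ g h a, α g (α h a) = α (g * h) a
  coe : ∀ h a, U h (j a) = j (α h a)
  iso : ∀ h ξ, ‖U h ξ‖ = ‖ξ‖
  cont : ∀ ξ, Continuous fun h => U h ξ

/-- integrability: `∫ α_h(b* a) dh = Tr(b* a) 1`. -/
structure Itg {H : Type*} [MeasurableSpace H] (j : A →ₗ[ℂ] L) (α : H → A → A)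
    (μ : Measure H) : Prop where
  int : ∀ a x, Integrable (fun h => ‖j (α h a * x)‖ ^ 2) μ
  eq : ∀ a b x y, ∫ h, ⟪j (α h a * x), j (α h b * y)⟫_ℂ ∂μ = ⟪j a, j b⟫_ℂ * ⟪j x, j y⟫_ℂ

/-- the whole package: two commuting integrable actions. -/
structure Pk {H Y : Type*} [Group H] [TopologicalSpace H] [MeasurableSpace H] [Group Y]
    [TopologicalSpace Y] [MeasurableSpace Y] (j : A →ₗ[ℂ] L) (α : H → A → A)
    (U : H →* (L →L[ℂ] L)) (μ : Measure H) (r : Y → A → A) (R : Y →* (L →L[ℂ] L))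
    (ν : Measure Y) : Prop where
  ha : HA j
  actH : Act j α U
  itgH : Itg j α μ
  actY : Act j r R
  itgY : Itg j r ν
  comm : ∀ h y a, α h (r y a) = r y (α h a)

end defs

section basic

variable {A L : Type*} [NonUnitalRing A] [StarRing A] [Module ℂ A]
  [NormedAddCommGroup L] [InnerProductSpace ℂ L] {j : A →ₗ[ℂ] L}

theorem HA.norm_star (hj : HA j) (a : A) : ‖j (star a)‖ = ‖j a‖ := by
  have h := hj.tr a a
  rw [inner_self_eq_norm_sq_to_K, inner_self_eq_norm_sq_to_K] at h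
  have h2 : ‖j (star a)‖ ^ 2 = ‖j a‖ ^ 2 := by exact_mod_cast h
  exact (sq_eq_sq₀ (norm_nonneg _) (norm_nonneg _)).1 h2

theorem HA.bdd0 (hj : HA j) (a : A) : ∃ C : ℝ, 0 ≤ C ∧ ∀ b, ‖j (a * b)‖ ≤ C * ‖j b‖ := by
  obtain ⟨C, hC⟩ := hj.bdd a
  exact ⟨max C 0, le_max_right _ _, fun b => (hC b).trans
    (mul_le_mul_of_nonneg_right (le_max_left _ _) (norm_nonneg _))⟩

theorem HA.norm_star_mul (hj : HA j) (a b : A) : ‖j (a * b)‖ = ‖j (star b * star a)‖ := by
  rw [← hj.norm_star (a * b), star_mul]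

theorem HA.bddR (hj : HA j) (x : A) : ∃ C : ℝ, 0 ≤ C ∧ ∀ a, ‖j (a * x)‖ ≤ C * ‖j a‖ := by
  obtain ⟨C, hC0, hC⟩ := hj.bdd0 (star x)
  refine ⟨C, hC0, fun a => ?_⟩
  rw [hj.norm_star_mul, ← hj.norm_star a]
  exact hC _

/-- continuity of products -/
theorem HA.cont_mul (hj : HA j) {X : Type*} [TopologicalSpace X] {f g : X → A}
    (hf : Continuous fun x => j (f x)) (hg : Continuous fun x => j (g x)) {C : ℝ}
    (hC : ∀ x b, ‖j (f x * b)‖ ≤ C * ‖j b‖) : Continuous fun x => j (f x * g x) := by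
  rw [continuous_iff_continuousAt]
  intro x₀
  obtain ⟨D, hD0, hD⟩ := hj.bddR (g x₀)
  have h1 : Tendsto (fun x => C * ‖j (g x) - j (g x₀)‖ + D * ‖j (f x) - j (f x₀)‖) (𝓝 x₀)
      (𝓝 0) := by
    have e1 : Tendsto (fun x => ‖j (g x) - j (g x₀)‖) (𝓝 x₀) (𝓝 0) := by
      rw [← tendsto_iff_norm_sub_tendsto_zero]
      exact hg.continuousAt
    have e2 : Tendsto (fun x => ‖j (f x) - j (f x₀)‖) (𝓝 x₀) (𝓝 0) := by
      rw [← tendsto_iff_norm_sub_tendsto_zero]
      exact hf.continuousAt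
    have := (e1.const_mul C).add (e2.const_mul D)
    simpa using this
  rw [ContinuousAt, tendsto_iff_norm_sub_tendsto_zero]
  refine squeeze_zero (fun _ => norm_nonneg _) (fun x => ?_) h1
  have e : j (f x * g x) - j (f x₀ * g x₀) = j (f x * (g x - g x₀)) + j ((f x - f x₀) * g x₀) := by
    rw [← map_sub, ← map_add]
    congr 1
    noncomm_ring
  rw [e]
  refine (norm_add_le _ _).trans (add_le_add ?_ ?_)
  · refine (hC x _).trans (le_of_eq ?_)
    rw [map_sub]
  · refine (hD _).trans (le_of_eq ?_)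
    rw [map_sub]

theorem HA.cont_mulL (hj : HA j) {X : Type*} [TopologicalSpace X] {g : X → A} (a : A)
    (hg : Continuous fun x => j (g x)) : Continuous fun x => j (a * g x) := by
  obtain ⟨C, hC0, hC⟩ := hj.bdd0 a
  exact hj.cont_mul (f := fun _ => a) continuous_const hg (fun _ b => hC b)

theorem HA.cont_star (hj : HA j) {X : Type*} [TopologicalSpace X] {g : X → A}
    (hg : Continuous fun x => j (g x)) : Continuous fun x => j (star (g x)) := by
  rw [continuous_iff_continuousAt]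
  intro x₀
  rw [ContinuousAt, tendsto_iff_norm_sub_tendsto_zero]
  have e2 : Tendsto (fun x => ‖j (g x) - j (g x₀)‖) (𝓝 x₀) (𝓝 0) := by
    rw [← tendsto_iff_norm_sub_tendsto_zero]
    exact hg.continuousAt
  refine e2.congr fun x => ?_
  rw [← map_sub, ← map_sub, ← star_sub, hj.norm_star]

theorem HA.cont_mulR (hj : HA j) {X : Type*} [TopologicalSpace X] {g : X → A} (a : A)
    (hg : Continuous fun x => j (g x)) : Continuous fun x => j (g x * a) := by
  have h := hj.cont_star (hj.cont_mulL (star a) (hj.cont_star hg))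
  simpa [star_mul] using h

section actbasic

variable {H : Type*} [Group H] [TopologicalSpace H] {α : H → A → A} {U : H →* (L →L[ℂ] L)}

theorem Act.norm (hα : Act j α U) (h : H) (a : A) : ‖j (α h a)‖ = ‖j a‖ := by
  rw [← hα.coe, hα.iso]

theorem Act.inner (hα : Act j α U) (h : H) (ξ η : L) : ⟪U h ξ, U h η⟫_ℂ = ⟪ξ, η⟫_ℂ := by
  have := LinearIsometry.inner_map_map (⟨(U h).toLinearMap, hα.iso h⟩ : L →ₗᵢ[ℂ] L) ξ η
  exact this

theorem Act.innerj (hα : Act j α U) (h : H) (a b : A) :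
    ⟪j (α h a), j (α h b)⟫_ℂ = ⟪j a, j b⟫_ℂ := by
  rw [← hα.coe, ← hα.coe, hα.inner]

theorem Act.contj (hα : Act j α U) (a : A) : Continuous fun h => j (α h a) := by
  have := hα.cont (j a)
  simpa only [hα.coe] using this

theorem Act.inv_app (hα : Act j α U) (h : H) (ξ : L) : U h⁻¹ (U h ξ) = ξ := by
  rw [← ContinuousLinearMap.mul_apply, ← map_mul, inv_mul_cancel, map_one]
  rfl

theorem Act.app_inv (hα : Act j α U) (h : H) (ξ : L) : U h (U h⁻¹ ξ) = ξ := by
  rw [← ContinuousLinearMap.mul_apply, ← map_mul, mul_inv_cancel, map_one]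
  rfl

theorem Act.inner_inv (hα : Act j α U) (h : H) (ξ η : L) : ⟪U h⁻¹ ξ, η⟫_ℂ = ⟪ξ, U h η⟫_ℂ := by
  rw [← hα.inner h, hα.app_inv]

theorem Act.inv_act (hα : Act j α U) (h : H) (a : A) : α h⁻¹ (α h a) = a := by
  rw [hα.act, inv_mul_cancel, hα.one]

theorem Act.act_inv (hα : Act j α U) (h : H) (a : A) : α h (α h⁻¹ a) = a := by
  rw [hα.act, mul_inv_cancel, hα.one]

/-- operator norm bounds are invariant -/
theorem Act.bound (hα : Act j α U) {a : A} {C : ℝ} (hC : ∀ b, ‖j (a * b)‖ ≤ C * ‖j b‖) (h : H)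
    (b : A) : ‖j (α h a * b)‖ ≤ C * ‖j b‖ := by
  have e : α h a * b = α h (a * α h⁻¹ b) := by
    rw [hα.mul, hα.act_inv]
  rw [e, hα.norm, ← hα.norm h⁻¹ b]
  exact hC _

/-- strong continuity is only needed on the algebra -/
theorem exists_act [CompleteSpace L] (hd : DenseRange j) {α : H → A → A}
    (mul : ∀ h a b, α h (a * b) = α h a * α h b) (st : ∀ h a, α h (star a) = star (α h a))
    (one : ∀ a, α 1 a = a) (act : ∀ g h a, α g (α h a) = α (g * h) a)
    (add : ∀ h a b, j (α h (a + b)) = j (α h a) + j (α h b))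
    (smul : ∀ h (c : ℂ) a, j (α h (c • a)) = c • j (α h a))
    (iso : ∀ h a, ‖j (α h a)‖ = ‖j a‖) (cont : ∀ a, Continuous fun h => j (α h a)) :
    ∃ U : H →* (L →L[ℂ] L), Act j α U := by
  let f : H → A →ₗ[ℂ] L := fun h =>
    { toFun := fun a => j (α h a), map_add' := add h, map_smul' := smul h }
  have hf : ∀ h, ∃ C, ∀ a, ‖f h a‖ ≤ C * ‖j a‖ := fun h => ⟨1, fun a => by
    rw [one_mul]; exact (iso h a).le⟩
  let V : H → L →L[ℂ] L := fun h => (f h).extendOfNorm j
  have hV : ∀ h a, V h (j a) = j (α h a) := fun h a => LinearMap.extendOfNorm_eq hd (hf h) a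
  have hiso : ∀ h ξ, ‖V h ξ‖ = ‖ξ‖ := by
    intro h ξ
    induction ξ using hd.induction_on with
    | hp => exact isClosed_eq (V h).continuous.norm continuous_norm
    | ih a => rw [hV, iso]
  have hmul : ∀ g h, V (g * h) = V g * V h := by
    intro g h
    have h1 : (⇑(V (g * h)) : L → L) = ⇑(V g * V h) := by
      refine hd.equalizer (V (g * h)).continuous (V g * V h).continuous ?_
      funext a
      simp only [Function.comp_apply, ContinuousLinearMap.mul_apply, hV, act]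
    exact ContinuousLinearMap.coeFn_injective h1
  have hone : V 1 = 1 := by
    have h1 : (⇑(V 1) : L → L) = ⇑(1 : L →L[ℂ] L) := by
      refine hd.equalizer (V 1).continuous (1 : L →L[ℂ] L).continuous ?_
      funext a
      simp only [Function.comp_apply, ContinuousLinearMap.one_apply, hV, one]
    exact ContinuousLinearMap.coeFn_injective h1
  refine ⟨{ toFun := V, map_one' := hone, map_mul' := hmul }, mul, st, one, act,
    fun h a => hV h a, fun h ξ => hiso h ξ, fun ξ => ?_⟩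
  change Continuous fun h => V h ξ
  rw [continuous_iff_continuousAt]
  intro h₀
  rw [Metric.continuousAt_iff']
  intro ε hε
  obtain ⟨a, ha⟩ := hd.exists_dist_lt ξ (show (0 : ℝ) < ε / 4 by positivity)
  have h1 : ∀ᶠ h in 𝓝 h₀, dist (j (α h a)) (j (α h₀ a)) < ε / 4 :=
    (Metric.continuousAt_iff'.1 (cont a).continuousAt) _ (by positivity)
  filter_upwards [h1] with h hh
  have d1 : ∀ k, dist (V k ξ) (V k (j a)) < ε / 4 := by
    intro k
    rw [dist_eq_norm, ← map_sub, hiso, ← dist_eq_norm]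
    exact ha
  have d2 := d1 h
  have d3 := d1 h₀
  rw [hV] at d2 d3
  have t1 := dist_triangle (V h ξ) (j (α h a)) (V h₀ ξ)
  have t2 := dist_triangle (j (α h a)) (j (α h₀ a)) (V h₀ ξ)
  have t3 := dist_comm (j (α h₀ a)) (V h₀ ξ)
  linarith

end actbasic

/-- left multiplication operator -/
theorem HA.exists_left [CompleteSpace L] (hj : HA j) [SMulCommClass ℂ A A] (a : A) :
    ∃ T : L →L[ℂ] L, ∀ b, T (j b) = j (a * b) := by
  let f : A →ₗ[ℂ] L :=
    { toFun := fun b => j (a * b)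
      map_add' := fun x y => by rw [mul_add, map_add]
      map_smul' := fun c x => by rw [mul_smul_comm, map_smul]; rfl }
  obtain ⟨C, hC⟩ := hj.bdd a
  exact ⟨f.extendOfNorm j, fun b => LinearMap.extendOfNorm_eq hj.dense ⟨C, hC⟩ b⟩

end basic

end Vale.Agent.P092.H242.ThC
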