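import Vale.Agent.P092.H242.HatD
import Vale.Agent.P092.H978.HalfC

/-!
P092 (helper242), Team C: `RC.Half` from the output of the engine on the row model, `m = 2`.
-/

set_option linter.all false

open scoped InnerProductSpace ENNReal Pointwise
open Filter Topology ContinuousLinearMap MeasureTheory TopologicalSpace

namespace Vale.Agent.P092.H242C

open Vale.Agent.P092.SR Vale.Agent.P092.H160 Vale.Agent.P092.RC
open Vale.Agent.P092.H859.CL hiding cfc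
open Vale.Agent.P092.H978.LimC Vale.Agent.P092.H978.HalfC
open Vale.Agent.P092.H575 (g1 g2)

/-- the inverse of the wall element -/
theorem inv_bw {k : Type} [NontriviallyNormedField k] (w : kˣ) {w0 : k} (hw : w0 ≠ 0)
    (e : (w : k) = w0) : ((SD.bw w)⁻¹ : GG k 2) = H701.tor 2 hw 0 := by
  rw [inv_eq_iff_mul_eq_one]
  apply Subtype.ext
  change Matrix.diagonal _ * Matrix.diagonal _ = (1 : Matrix (Fin 3) (Fin 3) k)
  rw [Matrix.diagonal_mul_diagonal, ← Matrix.diagonal_one]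
  congr 1
  have h1 : ((w⁻¹ : kˣ) : k) * w0 = 1 := by rw [← e, ← Units.val_mul, inv_mul_cancel, Units.val_one]
  have h2 : (w : k) * w0⁻¹ = 1 := by rw [e, mul_inv_cancel₀ hw]
  funext i
  fin_cases i
  · simp only [H701.dg]
    calc _ = (((w⁻¹ : kˣ) : k) * w0) ^ 2 := by simp; ring
      _ = 1 := by rw [h1, one_pow]
  · simp only [H701.dg]
    simpa using h2
  · simp only [H701.dg]
    simpa using h2

variable {k : Type} [NontriviallyNormedField k] [ProperSpace k] [IsUltrametricDist k]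
  [LocallyCompactSpace (GG k 2)]
  [SecondCountableTopology (GG k 2)] [MeasurableSpace (GG k 2)] [BorelSpace (GG k 2)]
  {Γ : Subgroup (GG k 2)} [DiscreteTopology Γ] [Countable Γ] [MeasurableSpace (GG k 2 ⧸ Γ)]
  [BorelSpace (GG k 2 ⧸ Γ)] {ν : Measure (GG k 2 ⧸ Γ)} [IsProbabilityMeasure ν]
  (hν : ∀ g : GG k 2, ν.map (fun x => g • x) = ν)
  {Λ : Type} [Group Λ] {α : Γ →* (Ell2 Λ →L[ℂ] Ell2 Λ)} (hα : Frame α)

theorem norm_pi {g : GG k 2} (hp : Pic (piC hν hα) (lamC hν (RR₁ α))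
    (XC hν Λ ∪ Set.range (lamC hν (RR₂ α))) (OmC hν Λ)) (ζ : KC hν Λ) :
    ‖piC hν hα g ζ‖ = ‖ζ‖ := by
  have h3 : ⟪piC hν hα g ζ, piC hν hα g ζ⟫_ℂ = ⟪ζ, ζ⟫_ℂ := by
    rw [← adjoint_inner_right, hp.adjP]
    have h5 := congrArg (fun T : KC hν Λ →L[ℂ] KC hν Λ => T ζ)
      (H242.Hat.pi_inv (π := piC hν hα) g)
    exact congrArg (fun v => ⟪ζ, v⟫_ℂ) h5
  rw [inner_self_eq_norm_sq_to_K, inner_self_eq_norm_sq_to_K] at h3
  have h6 : ‖piC hν hα g ζ‖ ^ 2 = ‖ζ‖ ^ 2 := by exact_mod_cast h3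
  exact (pow_left_inj₀ (norm_nonneg _) (norm_nonneg _) two_ne_zero).mp h6

theorem mass_compl (S : Set Γ) (ζ : KC hν Λ) :
    ‖ζ‖ ^ 2 = ‖mC hν hα S ζ‖ ^ 2 + ‖mC hν hα Sᶜ ζ‖ ^ 2 := by
  have hm := msC hν hα
  rw [← H448.Trb.msq_union hm disjoint_compl_right, Set.union_compl_self]
  have h7 : mC hν hα (Set.univ : Set Γ) = 1 := by
    rw [← Set.compl_empty, hm.compl, H448.Trb.mempty hm, sub_zero]
  rw [h7]
  rfl

theorem mass_ge {S : Set Γ} {ζ : KC hν Λ} (h1 : ‖ζ‖ = 1) (h2 : ‖mC hν hα S ζ‖ ≤ 1 / 2) :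
    3 / 4 ≤ ‖mC hν hα Sᶜ ζ‖ ^ 2 := by
  have h3 := mass_compl hν hα S ζ
  rw [h1] at h3
  have h4 := norm_nonneg (mC hν hα S ζ)
  have h5 : ‖mC hν hα S ζ‖ ^ 2 ≤ (1 / 2) ^ 2 := pow_le_pow_left₀ h4 h2 2
  linarith

/-- **`RC.Half`** from the output of the engine and the escape on the row model. -/
theorem half_of {q : Γ →* GG k 2} (hq : Emb q) {w : kˣ} (hw1 : ‖(w : k)‖ < 1)
    (hun : ∀ s : k, s ≠ 0 → ∃ j : ℤ, ‖s‖ = ‖(w : k)‖ ^ j)
    (hp : Pic2 (piC hν hα) (lamC hν (RR₁ α)) (lamC hν (RR₂ α)) (XC hν Λ) (OmC hν Λ))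
    (hf : Fn (mpR hν)) {β : C(YY k 2, ℂ) →⋆ₐ[ℂ] (KR hν →L[ℂ] KR hν)}
    (h : @EngOut Γ (GG k 2) (KR hν) (YY k 2) _ _ _ _ _ _ _ _
      (MulAction.compHom (YY k 2) q).toSMul (mpR hν) (H790.Ri (H85.cdat ν hν) (VR hα))
      (fun γ : Γ => H790.lxt (H85.cdat ν hν).μ (γ, (1 : Γ)))
      (H776.Leg1.WL (H85.cdat ν hν) Γ Γ Unit) (SD.bw w)⁻¹ (fun γ => g1 (q γ).1)
      (fun γ => g2 (q γ).1) (fun γ => H575.bp (by omega) (H575.tg q γ)) β)
    (hesc : ∀ (γ : Γ) ξ, Tendsto (fun n : ℕ => ‖st (mpR hν) {γ}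
      (H790.Ri (H85.cdat ν hν) (VR hα) (((SD.bw w)⁻¹ : GG k 2) ^ n) ξ)‖) atTop (𝓝 0)) :
    Half hν hα q (SD.bw w)⁻¹ (fun C => bj (JC hν hα) β (ci C)) := by
  letI sa : SMul Γ (YY k 2) := (MulAction.compHom (YY k 2) q).toSMul
  obtain ⟨hlim, happ⟩ := half_lim_app (sa := sa) hν hα hw1 hf (q := q) (fun γ y => rfl) h
  have h' := engC (sa := sa) hν hα h
  have hw : (w : k) ≠ 0 := w.ne_zero
  have eb := inv_bw w hw rfl
  have emc : ∀ S : Set Γ, st (mpC hν hα) S = mC hν hα S := fun S =>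
    mpC_eq hν hα (abs_ind S)
  refine ⟨hq, hlim, happ, ?_⟩
  refine hat_fin hν hα le_rfl hq hw hw1 hun hp hlim (fun C ξ => ?_) (fun γ ξ => ?_) ?_
  · have h1 := app_eng h' (fn_mpC hν hα hf) C ξ
    rw [eb] at h1
    refine h1.congr fun n => ?_
    rw [emc]
    rfl
  · rw [tendsto_zero_iff_norm_tendsto_zero]
    obtain ⟨η, rfl⟩ := (JC hν hα).surjective ξ
    have h1 := hesc γ η
    rw [eb] at h1
    refine h1.congr fun n => ?_
    rw [← emc, ← cj_JC_pi hν hα, cj_ap]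
    change _ = ‖cj (JC hν hα) (st (mpR hν) {γ}) _‖
    rw [cj_ap, (JC hν hα).norm_map]
  · obtain ⟨r, hr⟩ := h'.tail (OmC hν Λ) (1 / 2) (by norm_num)
    rw [eb] at hr
    refine ⟨OmC hν Λ, r, 3 / 4, by norm_num, hr.mono fun n hn => ?_⟩
    have e1 : ({γ : Γ | g2 (q γ).1 ≤ r} : Set Γ) = {γ : Γ | r < g2 (q γ).1}ᶜ := by
      refine Set.ext fun γ => ?_
      rw [Set.mem_compl_iff]
      exact (not_lt (a := r) (b := g2 (q γ).1)).symm
    rw [e1]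
    refine mass_ge hν hα ?_ ?_
    · rw [norm_pi hν hα hp.leg₁, hp.leg₁.nΩ]
    · rw [← emc]
      exact hn

end Vale.Agent.P092.H242C
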