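import Vale.Agent.P092.H242.Hat2
import Vale.Agent.P092.RC.Defs

/-!
P092 (helper242), Team C, block C-HAT in the letters of RC/Defs: the averaged element
`a h = |F|⁻¹ ∑_{f ∈ F} π f Ê(CN h) (π f)⁻¹` satisfies all fields of `RC.Hat` except the trace bound.
-/

set_option linter.all false

open scoped InnerProductSpace Pointwise
open Filter Topology ContinuousLinearMap TopologicalSpace

namespace Vale.Agent.P092.H242.Hat

open Vale.Agent.P092.H242.Ces Vale.Agent.P092.H820 Vale.Agent.P092.RC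

variable {G Γ Y G₀ K : Type} [Group G] [TopologicalSpace G] [Group Γ] [TopologicalSpace Y]
  [MulAction G Y] [ContinuousConstSMul G Y] [Group G₀] [TopologicalSpace G₀]
  [NormedAddCommGroup K] [InnerProductSpace ℂ K] [CompleteSpace K]
  {π : G →* (K →L[ℂ] K)} {lam : Γ →* (K →L[ℂ] K)} {W W' : Set (K →L[ℂ] K)} {Ω : K}
  {q : Γ →* G} {c : G → Y → G₀} {y₀ : Y} {E : Clopens Y → (K →L[ℂ] K)} {U : Subgroup G₀}
  {m : Set Γ → (K →L[ℂ] K)} {𝒰 : Ultrafilter ℕ} {b : G} {Bs : Clopens Y → Set Γ}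
  {CN : G₀ → Set Γ} {F : Finset G}

/-- The multiplication operators on the target leg. -/
structure MS (lam : Γ →* (K →L[ℂ] K)) (m : Set Γ → (K →L[ℂ] K)) : Prop where
  adj : ∀ S, adjoint (m S) = m S
  inter : ∀ S T, m (S ∩ T) = m S * m T
  compl : ∀ S, m Sᶜ = 1 - m S
  lam : ∀ γ S, lam γ * m S * lam γ⁻¹ = m (γ • S)

theorem pic_of (hP : RC.Pic π lam W Ω) (hm : MS lam m) :
    Pic (fun γ => lam γ) m (fun g => π g) where
  m_adj := hm.adj
  m_inter := hm.inter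
  m_compl := hm.compl
  R_mul := fun v w => map_mul π v w
  R_adj := hP.adjP
  lx_mul := fun s t => map_mul lam s t
  lx_one := map_one lam
  lx_adj := hP.adjL
  lx_R := fun s v => (hP.comm v s).symm
  lx_m := hm.lam

/-- The geometry of the cones, modulo null sets. -/
structure CG (m : Set Γ → (K →L[ℂ] K)) (π : G →* (K →L[ℂ] K)) (b : G) (q : Γ →* G)
    (c : G → Y → G₀) (U : Subgroup G₀) (Bs : Clopens Y → Set Γ) (CN : G₀ → Set Γ) : Prop where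
  inv : ∀ h, ∀ u ∈ U, Eqn m (fun g => π g) b (CN (h * u)) (CN h)
  disj : ∀ h h', h⁻¹ * h' ∉ U → Nul m (fun g => π g) b (CN h ∩ CN h')
  eqv : ∀ γ h h' (C : Clopens Y), (∀ y ∈ C, (c (q γ) y * h)⁻¹ * h' ∈ U) →
    Eqn m (fun g => π g) b (γ • (CN h ∩ Bs C)) (CN h' ∩ Bs (sm (q γ) C))

/-- The averaged element. -/
noncomputable def ahat (m : Set Γ → (K →L[ℂ] K)) (π : G →* (K →L[ℂ] K)) (𝒰 : Ultrafilter ℕ)
    (b : G) (CN : G₀ → Set Γ) (F : Finset G) (h : G₀) : K →L[ℂ] K :=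
  ((F.card : ℝ) : ℂ)⁻¹ • ∑ f ∈ F, π f * hat m (fun g => π g) 𝒰 b CN h * π f⁻¹

theorem pi_inv (g : G) : π g⁻¹ * π g = 1 := by rw [← map_mul, inv_mul_cancel, map_one]

theorem pi_inv' (g : G) : π g * π g⁻¹ = 1 := by rw [← map_mul, mul_inv_cancel, map_one]

/-- an operator `X` commutes with the average if all the conjugates of `X` commute with `Ê` -/
theorem ahat_comm {X : K →L[ℂ] K} {h : G₀}
    (hX : ∀ f ∈ F, (π f⁻¹ * X * π f) * hat m (fun g => π g) 𝒰 b CN h =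
      hat m (fun g => π g) 𝒰 b CN h * (π f⁻¹ * X * π f)) :
    X * ahat m π 𝒰 b CN F h = ahat m π 𝒰 b CN F h * X := by
  rw [ahat, mul_smul_comm, smul_mul_assoc, Finset.mul_sum, Finset.sum_mul]
  congr 1
  refine Finset.sum_congr rfl fun f hf => ?_
  obtain ⟨A, hA⟩ : ∃ A, A = hat m (fun g => π g) 𝒰 b CN h := ⟨_, rfl⟩
  have h1 := hX f hf
  rw [← hA] at h1 ⊢
  calc X * (π f * A * π f⁻¹) = 1 * X * π f * A * π f⁻¹ := by simp only [mul_assoc, one_mul]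
    _ = (π f * π f⁻¹) * X * π f * A * π f⁻¹ := by rw [pi_inv']
    _ = π f * ((π f⁻¹ * X * π f) * A) * π f⁻¹ := by simp only [mul_assoc]
    _ = π f * (A * (π f⁻¹ * X * π f)) * π f⁻¹ := by rw [h1]
    _ = π f * A * π f⁻¹ * X * (π f * π f⁻¹) := by simp only [mul_assoc]
    _ = _ := by rw [pi_inv', mul_one]

/-- the average is a contraction -/
theorem norm_ahat_le (hP : RC.Pic π lam W Ω) (hm : MS lam m) (h : G₀) :
    ‖ahat m π 𝒰 b CN F h‖ ≤ 1 := by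
  have hn := fun g => (pic_of hP hm).norm_R g
  have h1 : ∀ f, ‖π f * hat m (fun g => π g) 𝒰 b CN h * π f⁻¹‖ ≤ 1 := by
    intro f
    refine (norm_mul_le _ _).trans (mul_le_one₀ ?_ (norm_nonneg _) (hn f⁻¹))
    exact (norm_mul_le _ _).trans (mul_le_one₀ (hn f) (norm_nonneg _) ((pic_of hP hm).norm_Eh _))
  rw [ahat, norm_smul, norm_inv, Complex.norm_real, Real.norm_of_nonneg (Nat.cast_nonneg _)]
  rcases F.eq_empty_or_nonempty with rfl | hF
  · simp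
  · have hc : (0 : ℝ) < F.card := by exact_mod_cast hF.card_pos
    rw [inv_mul_le_iff₀ hc, mul_one]
    refine (norm_sum_le _ _).trans ((Finset.sum_le_sum fun f _ => h1 f).trans ?_)
    rw [Finset.sum_const, nsmul_eq_mul, mul_one]

section main

variable (hP : RC.Pic π lam W Ω) (hm : MS lam m) (hU : (𝒰 : Filter ℕ) ≤ atTop)
  (hG : CG m π b q c U Bs CN)
  (hlim : ∀ A ξ, Tendsto (fun t : ℕ => Pt m (fun g => π g) (b ^ t) (Bs A) ξ) atTop (𝓝 (E A ξ)))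

include hP in
theorem hp_one (A : Clopens Y) (ξ : K) : Tendsto (fun t : ℕ =>
    ((fun g => π g) 1 * m (Bs A) - m (Bs A) * (fun g => π g) 1) ((fun g => π g) (b ^ t) ξ))
    atTop (𝓝 0) := by
  have : (fun g => π g) 1 = (1 : K →L[ℂ] K) := map_one π
  rw [this, one_mul, mul_one, sub_self]
  simp

include hP hm hU hG hlim

theorem ahat_res (hE : RC.Lim π lam W q y₀ E) (hx : RC.Ext π lam W W' y₀ E)
    (hFy : ∀ f ∈ F, f • y₀ = y₀)
    (hW' : ∀ w ∈ W', ∀ S, w * Eh m (fun g => π g) 𝒰 b S = Eh m (fun g => π g) 𝒰 b S * w)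
    {M : Set G} (hM : ∀ μ ∈ M, ∀ S, π μ * Eh m (fun g => π g) 𝒰 b S =
      Eh m (fun g => π g) 𝒰 b S * π μ)
    (hrad : ∀ r : G, r • y₀ = y₀ → c r y₀ = 1 → ∃ σ : G → G, Set.BijOn σ F F ∧
      ∀ f ∈ F, (σ f)⁻¹ * r * f ∈ M) :
    RC.Res π lam W' q c y₀ E U (ahat m π 𝒰 b CN F) where
  bdd := ⟨1, fun h => norm_ahat_le hP hm h⟩
  rinv h u hu := by
    have h1 : hat m (fun g => π g) 𝒰 b CN (h * u) = hat m (fun g => π g) 𝒰 b CN h :=
      (pic_of hP hm).Eh_congr hU (hG.inv h u hu).1 (hG.inv h u hu).2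
    rw [ahat, ahat, h1]
  cm h w hw := by
    symm
    refine ahat_comm fun f hf => ?_
    have h2 : f⁻¹ • y₀ = y₀ := inv_smul_eq_iff.mpr (hFy f hf).symm
    have h3 := hx.par w hw f⁻¹ h2
    rw [inv_inv] at h3
    exact hW' _ h3 _
  rad r hr hc h := by
    obtain ⟨σ, hσ, hσM⟩ := hrad r hr hc
    have key : π r * ahat m π 𝒰 b CN F h * π r⁻¹ = ahat m π 𝒰 b CN F h := by
      rw [ahat, mul_smul_comm, smul_mul_assoc, Finset.mul_sum, Finset.sum_mul]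
      congr 1
      have h1 : ∀ f ∈ F, π r * (π f * hat m (fun g => π g) 𝒰 b CN h * π f⁻¹) * π r⁻¹ =
          π (σ f) * hat m (fun g => π g) 𝒰 b CN h * π (σ f)⁻¹ := by
        intro f hf
        obtain ⟨A, hA⟩ : ∃ A, A = hat m (fun g => π g) 𝒰 b CN h := ⟨_, rfl⟩
        have h2 : π ((σ f)⁻¹ * r * f) * A = A * π ((σ f)⁻¹ * r * f) := by
          rw [hA]; exact hM _ (hσM f hf) _
        rw [← hA]
        have e1 : π r * π f = π (σ f) * π ((σ f)⁻¹ * r * f) := by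
          rw [← map_mul, ← map_mul]; congr 1; group
        have e2 : π f⁻¹ * π r⁻¹ = π ((σ f)⁻¹ * r * f)⁻¹ * π (σ f)⁻¹ := by
          rw [← map_mul, ← map_mul]; congr 1; group
        calc π r * (π f * A * π f⁻¹) * π r⁻¹ = (π r * π f) * A * (π f⁻¹ * π r⁻¹) := by
              simp only [mul_assoc]
          _ = π (σ f) * (π ((σ f)⁻¹ * r * f) * A) * (π ((σ f)⁻¹ * r * f)⁻¹ * π (σ f)⁻¹) := by
              rw [e1, e2]; simp only [mul_assoc]
          _ = π (σ f) * A * (π ((σ f)⁻¹ * r * f) * π ((σ f)⁻¹ * r * f)⁻¹) * π (σ f)⁻¹ := by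
              rw [h2]; simp only [mul_assoc]
          _ = _ := by rw [pi_inv', mul_one]
      rw [Finset.sum_congr rfl h1]
      exact Finset.sum_bij (fun f _ => σ f) (fun f hf => by exact_mod_cast hσ.mapsTo hf)
        (fun f hf g hg e => hσ.injOn hf hg e) (fun f hf => by
          obtain ⟨g, hg, e⟩ := hσ.surjOn hf
          exact ⟨g, hg, e⟩) fun f hf => rfl
    calc π r * ahat m π 𝒰 b CN F h = π r * ahat m π 𝒰 b CN F h * (π r⁻¹ * π r) := by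
          rw [pi_inv, mul_one]
      _ = (π r * ahat m π 𝒰 b CN F h * π r⁻¹) * π r := by simp only [mul_assoc]
      _ = _ := by rw [key]
  cE h C := by
    symm
    refine ahat_comm fun f hf => ?_
    have h2 : π f⁻¹ * E C * π f = E C := by
      rw [mul_assoc, ← hE.par f (hFy f hf), ← mul_assoc, pi_inv, one_mul]
    rw [h2]
    have h3 := (pic_of hP hm).Eh_mul (U := 𝒰) (S := CN h) hU (hlim C) (hp_one hP C)
    have h4 := (pic_of hP hm).Eh_mul' (U := 𝒰) (S := CN h) hU (hlim C) (hp_one hP C)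
    exact h4.trans h3.symm
  eqv γ h h' C hC := by
    have h0 : ∀ h (C : Clopens Y), ahat m π 𝒰 b CN F h * E C =
        ((F.card : ℝ) : ℂ)⁻¹ • ∑ f ∈ F, π f * Eh m (fun g => π g) 𝒰 b (CN h ∩ Bs C) * π f⁻¹ := by
      intro h C
      rw [ahat, smul_mul_assoc, Finset.sum_mul]
      congr 1
      refine Finset.sum_congr rfl fun f hf => ?_
      have hf' : f⁻¹ • y₀ = y₀ := inv_smul_eq_iff.mpr (hFy f hf).symm
      have h3 := (pic_of hP hm).Eh_mul (U := 𝒰) (S := CN h) hU (hlim C) (hp_one hP C)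
      rw [← h3, mul_assoc, hE.par f⁻¹ hf', ← mul_assoc, mul_assoc (π f)]
      rfl
    rw [h0, h0, mul_smul_comm, smul_mul_assoc, Finset.mul_sum, Finset.sum_mul]
    congr 1
    refine Finset.sum_congr rfl fun f hf => ?_
    have h5 := (pic_of hP hm).Eh_congr hU (hG.eqv γ h h' C hC).1 (hG.eqv γ h h' C hC).2
    have h6 := (pic_of hP hm).Eh_lx (U := 𝒰) (b := b) γ (CN h ∩ Bs C)
    rw [← h5, ← h6]
    obtain ⟨A, hA⟩ : ∃ A, A = Eh m (fun g => π g) 𝒰 b (CN h ∩ Bs C) := ⟨_, rfl⟩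
    rw [← hA]
    calc lam γ * (π f * A * π f⁻¹) * lam γ⁻¹ = (lam γ * π f) * A * (π f⁻¹ * lam γ⁻¹) := by
          simp only [mul_assoc]
      _ = (π f * lam γ) * A * (lam γ⁻¹ * π f⁻¹) := by rw [hP.comm, hP.comm]
      _ = _ := by simp only [mul_assoc]

theorem ahat_pos (h : G₀) : 0 ≤ ahat m π 𝒰 b CN F h := by
  rw [ahat]
  have h1 : 0 ≤ ∑ f ∈ F, π f * hat m (fun g => π g) 𝒰 b CN h * π f⁻¹ := by
    refine Finset.sum_nonneg fun f _ => ?_
    have h2 := hat_pos (CN := CN) (b := b) (pic_of hP hm) hU h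
    have h3 := star_right_conjugate_nonneg h2 (π f)
    rwa [star_eq_adjoint, hP.adjP] at h3
  have h2 : ((F.card : ℝ) : ℂ)⁻¹ = (((F.card : ℝ)⁻¹ : ℝ) : ℂ) := by push_cast; rfl
  rw [h2]
  have h3 : (0 : ℝ) ≤ (F.card : ℝ)⁻¹ := by positivity
  have h4 := smul_nonneg h3 h1
  rwa [← Complex.coe_smul] at h4

theorem ahat_ne (hF : F.Nonempty) {T : Set Γ} {H : Finset G₀}
    (hT : Nul m (fun g => π g) b (T \ ⋃ h ∈ H, CN h)) {ξ : K} {δ : ℝ} (hδ : 0 < δ)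
    (hmass : ∀ᶠ t : ℕ in atTop, δ ≤ ‖m T (π (b ^ t) ξ)‖ ^ 2) :
    ahat m π 𝒰 b CN F ≠ 0 := by
  intro h0
  obtain ⟨h, hh, hne⟩ := hat_ne (CN := CN) (pic_of hP hm) hU hT hδ hmass
  apply hne
  have h1 := congrFun h0 h
  rw [ahat, Pi.zero_apply, smul_eq_zero] at h1
  have hc : ((F.card : ℝ) : ℂ)⁻¹ ≠ 0 := by
    rw [ne_eq, inv_eq_zero]
    have := hF.card_pos.ne'
    exact_mod_cast this
  have h2 := h1.resolve_left hc
  have h3 : ∀ f ∈ F, 0 ≤ π f * hat m (fun g => π g) 𝒰 b CN h * π f⁻¹ := fun f _ => by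
    have h2 := hat_pos (CN := CN) (b := b) (pic_of hP hm) hU h
    have h3 := star_right_conjugate_nonneg h2 (π f)
    rwa [star_eq_adjoint, hP.adjP] at h3
  obtain ⟨f, hf⟩ := hF
  have h4 := (Finset.sum_eq_zero_iff_of_nonneg h3).mp h2 f hf
  calc hat m (fun g => π g) 𝒰 b CN h
      = (π f⁻¹ * π f) * hat m (fun g => π g) 𝒰 b CN h * (π f⁻¹ * π f) := by
        rw [pi_inv, one_mul, mul_one]
    _ = π f⁻¹ * (π f * hat m (fun g => π g) 𝒰 b CN h * π f⁻¹) * π f := by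
        simp only [mul_assoc]
    _ = 0 := by rw [h4, mul_zero, zero_mul]

theorem ahat_sum (hF : F.Nonempty) (H : Finset G₀)
    (hH : ∀ h ∈ H, ∀ h' ∈ H, h ≠ h' → h⁻¹ * h' ∉ U) : ∑ h ∈ H, ahat m π 𝒰 b CN F h ≤ 1 := by
  have h1 : ∑ h ∈ H, hat m (fun g => π g) 𝒰 b CN h ≤ 1 := by
    have := (pic_of hP hm)
    rw [← sub_nonneg, ContinuousLinearMap.nonneg_iff_isPositive,
      ContinuousLinearMap.isPositive_def']
    refine ⟨?_, fun ξ => ?_⟩
    · rw [IsSelfAdjoint, star_sub, star_one, star_sum]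
      congr 1
      refine Finset.sum_congr rfl fun g _ => ?_
      rw [star_eq_adjoint, hat_adj (pic_of hP hm) hU]
    · rw [ContinuousLinearMap.reApplyInnerSelf_apply]
      have h1 := (pic_of hP hm).Eh_sum_le (b := b) hU H (S := CN)
        (fun g hg g' hg' hne => hG.disj g g' (hH g hg g' hg' hne)) ξ
      have h2 : (⟪ξ, (1 - ∑ g ∈ H, hat m (fun g => π g) 𝒰 b CN g) ξ⟫_ℂ).re =
          ‖ξ‖ ^ 2 - ∑ g ∈ H, (⟪ξ, hat m (fun g => π g) 𝒰 b CN g ξ⟫_ℂ).re := by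
        rw [ContinuousLinearMap.sub_apply, inner_sub_right, Complex.sub_re,
          ContinuousLinearMap.sum_apply, inner_sum, Complex.re_sum]
        congr 1
        rw [ContinuousLinearMap.one_apply, inner_self_eq_norm_sq_to_K]
        norm_cast
      have h3 : 0 ≤ (⟪ξ, (1 - ∑ g ∈ H, hat m (fun g => π g) 𝒰 b CN g) ξ⟫_ℂ).re := by
        rw [h2]
        exact sub_nonneg.mpr h1
      rw [re_symm] at h3
      exact h3
  have hc0 : (0 : ℝ) < F.card := by exact_mod_cast hF.card_pos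
  have h2 : ∑ h ∈ H, ahat m π 𝒰 b CN F h = ((F.card : ℝ) : ℂ)⁻¹ •
      ∑ f ∈ F, π f * (∑ h ∈ H, hat m (fun g => π g) 𝒰 b CN h) * π f⁻¹ := by
    simp only [ahat]
    rw [← Finset.smul_sum, Finset.sum_comm]
    congr 1
    refine Finset.sum_congr rfl fun f _ => ?_
    rw [Finset.mul_sum, Finset.sum_mul]
  have h3 : (1 : K →L[ℂ] K) = ((F.card : ℝ) : ℂ)⁻¹ • ∑ f ∈ F, π f * 1 * π f⁻¹ := by
    have : ∀ f ∈ F, π f * 1 * π f⁻¹ = (1 : K →L[ℂ] K) := fun f _ => by rw [mul_one, pi_inv']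
    rw [Finset.sum_congr rfl this, Finset.sum_const]
    rw [← Nat.cast_smul_eq_nsmul ℂ, smul_smul]
    have : ((F.card : ℝ) : ℂ)⁻¹ * (F.card : ℂ) = 1 := by
      push_cast
      exact inv_mul_cancel₀ (by exact_mod_cast hF.card_pos.ne')
    rw [this, one_smul]
  rw [h2, h3, ← sub_nonneg, ← smul_sub, ← Finset.sum_sub_distrib]
  have h4 : 0 ≤ ∑ f ∈ F, (π f * 1 * π f⁻¹ -
      π f * (∑ h ∈ H, hat m (fun g => π g) 𝒰 b CN h) * π f⁻¹) := by
    refine Finset.sum_nonneg fun f _ => ?_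
    rw [← sub_mul, ← mul_sub]
    have h5 := star_right_conjugate_nonneg (sub_nonneg.mpr h1) (π f)
    rwa [star_eq_adjoint, hP.adjP] at h5
  have h5 : ((F.card : ℝ) : ℂ)⁻¹ = (((F.card : ℝ)⁻¹ : ℝ) : ℂ) := by push_cast; rfl
  rw [h5]
  have h6 := smul_nonneg (inv_nonneg.mpr hc0.le) h4
  rwa [← Complex.coe_smul] at h6

/-- smoothness on the source side -/
theorem ahat_smooth {V : Subgroup G} (hV : IsOpen (V : Set G)) {M : Set G}
    (hM : ∀ μ ∈ M, ∀ S, π μ * Eh m (fun g => π g) 𝒰 b S = Eh m (fun g => π g) 𝒰 b S * π μ)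
    (hVM : ∀ p ∈ V, p • y₀ = y₀ → ∀ f ∈ F, f⁻¹ * p * f ∈ M) :
    ∃ V : Subgroup G, IsOpen (V : Set G) ∧ ∀ p ∈ V, p • y₀ = y₀ →
      ∀ h, π p * ahat m π 𝒰 b CN F h = ahat m π 𝒰 b CN F h * π p := by
  refine ⟨V, hV, fun p hp hpy h => ahat_comm fun f hf => ?_⟩
  rw [← map_mul, ← map_mul]
  exact hM _ (hVM p hp hpy f hf) _

/-- **C-HAT**: all fields of `RC.Hat`, the trace bound being a hypothesis. -/
theorem hat_of (hco : SR.COS U) (hE : RC.Lim π lam W q y₀ E) (hx : RC.Ext π lam W W' y₀ E)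
    (hF : F.Nonempty) (hFy : ∀ f ∈ F, f • y₀ = y₀)
    (hW' : ∀ w ∈ W', ∀ S, w * Eh m (fun g => π g) 𝒰 b S = Eh m (fun g => π g) 𝒰 b S * w)
    {M : Set G} (hM : ∀ μ ∈ M, ∀ S, π μ * Eh m (fun g => π g) 𝒰 b S =
      Eh m (fun g => π g) 𝒰 b S * π μ)
    (hrad : ∀ r : G, r • y₀ = y₀ → c r y₀ = 1 → ∃ σ : G → G, Set.BijOn σ F F ∧
      ∀ f ∈ F, (σ f)⁻¹ * r * f ∈ M)
    {V : Subgroup G} (hV : IsOpen (V : Set G))
    (hVM : ∀ p ∈ V, p • y₀ = y₀ → ∀ f ∈ F, f⁻¹ * p * f ∈ M)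
    {T : Set Γ} {H : Finset G₀} (hT : Nul m (fun g => π g) b (T \ ⋃ h ∈ H, CN h)) {ξ : K} {δ : ℝ}
    (hδ : 0 < δ) (hmass : ∀ᶠ t : ℕ in atTop, δ ≤ ‖m T (π (b ^ t) ξ)‖ ^ 2)
    (htb : ∀ g : G, g • y₀ ≠ y₀ → ∀ C C' : Clopens Y, Disjoint C C' → ∀ h h' : G₀,
      TRN lam Ω (π g * (ahat m π 𝒰 b CN F h' * E C') * π g⁻¹ * (ahat m π 𝒰 b CN F h * E C)) <
        ⊤) :
    RC.Hat π lam W' Ω q c y₀ E U (ahat m π 𝒰 b CN F) where
  cos := hco
  res := ahat_res hP hm hU hG hlim hE hx hFy hW' hM hrad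
  pos := ahat_pos hP hm hU hG hlim
  ne := ahat_ne hP hm hU hG hlim hF hT hδ hmass
  sum := ahat_sum hP hm hU hG hlim hF
  smooth := ahat_smooth hP hm hU hG hlim hV hM hVM
  tb := htb

end main

/-- The set `M` of the elements commuting with all `Ê(S)`: `b`, its inverse, and everything that is
contracted by `b` into the stabiliser `U₀` of `m`. -/
theorem comm_M (hP : RC.Pic π lam W Ω) (hm : MS lam m) (hU : (𝒰 : Filter ℕ) ≤ atTop)
    {U₀ : Set G} (hU₀ : ∀ u ∈ U₀, ∀ S, π u * m S = m S * π u) (j : ℤ) {v : G}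
    (hv : ∀ᶠ t : ℕ in atTop, b ^ t * v * (b ^ t)⁻¹ ∈ U₀) (S : Set Γ) :
    π (b ^ j * v) * Eh m (fun g => π g) 𝒰 b S = Eh m (fun g => π g) 𝒰 b S * π (b ^ j * v) := by
  have h1 : π v * Eh m (fun g => π g) 𝒰 b S = Eh m (fun g => π g) 𝒰 b S * π v :=
    (pic_of hP hm).Eh_R hU (hv.mono fun t ht => hU₀ _ ht S)
  have h2 : π b * Eh m (fun g => π g) 𝒰 b S = Eh m (fun g => π g) 𝒰 b S * π b :=
    (pic_of hP hm).Eh_b hU S
  have h3 : π b⁻¹ * Eh m (fun g => π g) 𝒰 b S = Eh m (fun g => π g) 𝒰 b S * π b⁻¹ :=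
    (pic_of hP hm).Eh_binv hU S
  have h4 : ∀ n : ℕ, π (b ^ n) * Eh m (fun g => π g) 𝒰 b S =
      Eh m (fun g => π g) 𝒰 b S * π (b ^ n) := by
    intro n
    induction n with
    | zero => rw [pow_zero, map_one, one_mul, mul_one]
    | succ n ih => rw [pow_succ, map_mul, mul_assoc, h2, ← mul_assoc, ih, mul_assoc]
  have h5 : ∀ n : ℕ, π (b⁻¹ ^ n) * Eh m (fun g => π g) 𝒰 b S =
      Eh m (fun g => π g) 𝒰 b S * π (b⁻¹ ^ n) := by
    intro n
    induction n with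
    | zero => rw [pow_zero, map_one, one_mul, mul_one]
    | succ n ih => rw [pow_succ, map_mul, mul_assoc, h3, ← mul_assoc, ih, mul_assoc]
  have h6 : π (b ^ j) * Eh m (fun g => π g) 𝒰 b S = Eh m (fun g => π g) 𝒰 b S * π (b ^ j) := by
    obtain ⟨n, hn | hn⟩ := j.eq_nat_or_neg
    · rw [hn, zpow_natCast]; exact h4 n
    · rw [hn, zpow_neg, zpow_natCast, ← inv_pow]; exact h5 n
  rw [map_mul, mul_assoc, h1, ← mul_assoc, h6, mul_assoc]

end Vale.Agent.P092.H242.Hat
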