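import Mathlib

/-!
P092 (helper242), Team C, block C-HAT: averages of operators over a compact group.
-/

set_option linter.all false

open scoped InnerProductSpace
open Filter Topology ContinuousLinearMap MeasureTheory

namespace Vale.Agent.P092.H242.Avg

/-- strongly continuous unitary representations -/
structure Ur {L K : Type} [Group L] [TopologicalSpace L] [NormedAddCommGroup K]
    [InnerProductSpace ℂ K] [CompleteSpace K] (u : L →* (K →L[ℂ] K)) : Prop where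
  adj : ∀ l, adjoint (u l) = u l⁻¹
  cont : ∀ ξ, Continuous fun l => u l ξ

section alg

variable {L K : Type} [Group L] [TopologicalSpace L] [NormedAddCommGroup K]
  [InnerProductSpace ℂ K] [CompleteSpace K] {u : L →* (K →L[ℂ] K)}

theorem Ur.inv_ap (hu : Ur u) (l : L) (ξ : K) : u l⁻¹ (u l ξ) = ξ := by
  have : (u l⁻¹ * u l) ξ = ξ := by rw [← map_mul, inv_mul_cancel, map_one]; rfl
  exact this

theorem Ur.ap_inv (hu : Ur u) (l : L) (ξ : K) : u l (u l⁻¹ ξ) = ξ := by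
  have : (u l * u l⁻¹) ξ = ξ := by rw [← map_mul, mul_inv_cancel, map_one]; rfl
  exact this

theorem Ur.norm (hu : Ur u) (l : L) (ξ : K) : ‖u l ξ‖ = ‖ξ‖ := by
  have h1 : ⟪u l ξ, u l ξ⟫_ℂ = ⟪ξ, ξ⟫_ℂ := by
    rw [← adjoint_inner_right, hu.adj, hu.inv_ap]
  rw [inner_self_eq_norm_sq_to_K, inner_self_eq_norm_sq_to_K] at h1
  have h2 : ‖u l ξ‖ ^ 2 = ‖ξ‖ ^ 2 := by exact_mod_cast h1
  exact (pow_left_inj₀ (norm_nonneg _) (norm_nonneg _) two_ne_zero).mp h2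

theorem Ur.inner_left (hu : Ur u) (l : L) (η ξ : K) : ⟪η, u l ξ⟫_ℂ = ⟪u l⁻¹ η, ξ⟫_ℂ := by
  rw [← hu.adj, adjoint_inner_left]

theorem Ur.cont_ap (hu : Ur u) {f : L → K} (hf : Continuous f) :
    Continuous fun l => u l (f l) := by
  rw [continuous_iff_continuousAt]
  intro l₀
  have h1 : Tendsto (fun l => u l (f l - f l₀)) (𝓝 l₀) (𝓝 0) := by
    have h2 : Tendsto (fun l => f l - f l₀) (𝓝 l₀) (𝓝 0) := by
      have := (hf.tendsto l₀).sub_const (f l₀)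
      rwa [sub_self] at this
    rw [tendsto_zero_iff_norm_tendsto_zero] at h2 ⊢
    exact h2.congr fun l => (hu.norm l _).symm
  have h2 := h1.add ((hu.cont (f l₀)).tendsto l₀)
  rw [zero_add] at h2
  refine h2.congr fun l => ?_
  rw [map_sub, sub_add_cancel]

variable [IsTopologicalGroup L]

theorem Ur.cont_conj (hu : Ur u) (A : K →L[ℂ] K) (ξ : K) :
    Continuous fun l => u l (A (u l⁻¹ ξ)) :=
  hu.cont_ap (A.continuous.comp ((hu.cont ξ).comp continuous_inv))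

end alg

section iav

variable {L K : Type} [Group L] [TopologicalSpace L] [IsTopologicalGroup L] [CompactSpace L]
  [MeasurableSpace L] [BorelSpace L] [NormedAddCommGroup K] [InnerProductSpace ℂ K]
  [CompleteSpace K] {u : L →* (K →L[ℂ] K)} {μ : Measure L} [IsProbabilityMeasure μ]

theorem int_of {f : L → K} (hf : Continuous f) : Integrable f μ :=
  hf.integrable_of_hasCompactSupport (HasCompactSupport.of_compactSpace f)

theorem Ur.int (hu : Ur u) (A : K →L[ℂ] K) (ξ : K) :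
    Integrable (fun l => u l (A (u l⁻¹ ξ))) μ := int_of (hu.cont_conj A ξ)

theorem Ur.bd (hu : Ur u) (A : K →L[ℂ] K) (ξ : K) :
    ‖∫ l, u l (A (u l⁻¹ ξ)) ∂μ‖ ≤ ‖A‖ * ‖ξ‖ := by
  have h1 : ∀ l, ‖u l (A (u l⁻¹ ξ))‖ ≤ ‖A‖ * ‖ξ‖ := by
    intro l
    rw [hu.norm]
    have := A.le_opNorm (u l⁻¹ ξ)
    rwa [hu.norm] at this
  have h2 := norm_integral_le_of_norm_le_const (μ := μ) (Eventually.of_forall h1)
  simpa using h2

/-- the average of the conjugates of `A` -/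
noncomputable def iav (hu : Ur u) (μ : Measure L) [IsProbabilityMeasure μ] (A : K →L[ℂ] K) :
    K →L[ℂ] K :=
  LinearMap.mkContinuous
    { toFun := fun ξ => ∫ l, u l (A (u l⁻¹ ξ)) ∂μ
      map_add' := fun x y => by
        rw [← integral_add (hu.int A x) (hu.int A y)]
        simp only [map_add]
      map_smul' := fun c x => by
        rw [RingHom.id_apply, ← integral_smul]
        simp only [map_smul] } ‖A‖ fun ξ => hu.bd A ξ

variable (hu : Ur u)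

theorem iav_ap (A : K →L[ℂ] K) (ξ : K) : iav hu μ A ξ = ∫ l, u l (A (u l⁻¹ ξ)) ∂μ := rfl

theorem norm_iav_le (A : K →L[ℂ] K) : ‖iav hu μ A‖ ≤ ‖A‖ :=
  LinearMap.mkContinuous_norm_le _ (norm_nonneg _) _

theorem inner_iav (A : K →L[ℂ] K) (η ξ : K) :
    ⟪η, iav hu μ A ξ⟫_ℂ = ∫ l, ⟪u l⁻¹ η, A (u l⁻¹ ξ)⟫_ℂ ∂μ := by
  rw [iav_ap, ← integral_inner (hu.int A ξ) η]
  refine integral_congr_ae (Eventually.of_forall fun l => ?_)
  exact hu.inner_left l _ _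

/-- an operator commuting with all the conjugates -/
theorem iav_comm {A X : K →L[ℂ] K} (hX : ∀ l, X * (u l * A * u l⁻¹) = u l * A * u l⁻¹ * X) :
    X * iav hu μ A = iav hu μ A * X := by
  ext1 ξ
  show X (iav hu μ A ξ) = iav hu μ A (X ξ)
  rw [iav_ap, iav_ap, ← X.integral_comp_comm (hu.int A ξ)]
  refine integral_congr_ae (Eventually.of_forall fun l => ?_)
  exact congrArg (fun T : K →L[ℂ] K => T ξ) (hX l)

theorem iav_mul {A B : K →L[ℂ] K} (hB : ∀ l, u l * B = B * u l) :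
    iav hu μ A * B = iav hu μ (A * B) := by
  ext1 ξ
  show iav hu μ A (B ξ) = iav hu μ (A * B) ξ
  rw [iav_ap, iav_ap]
  refine integral_congr_ae (Eventually.of_forall fun l => ?_)
  have h1 : u l⁻¹ (B ξ) = B (u l⁻¹ ξ) := congrArg (fun T : K →L[ℂ] K => T ξ) (hB l⁻¹)
  show u l (A (u l⁻¹ (B ξ))) = u l (A (B (u l⁻¹ ξ)))
  rw [h1]

theorem iav_mul' {A B : K →L[ℂ] K} (hB : ∀ l, u l * B = B * u l) :
    B * iav hu μ A = iav hu μ (B * A) := by
  ext1 ξ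
  show B (iav hu μ A ξ) = iav hu μ (B * A) ξ
  rw [iav_ap, iav_ap, ← B.integral_comp_comm (hu.int A ξ)]
  refine integral_congr_ae (Eventually.of_forall fun l => ?_)
  exact (congrArg (fun T : K →L[ℂ] K => T (A (u l⁻¹ ξ))) (hB l)).symm

theorem iav_add (A B : K →L[ℂ] K) : iav hu μ (A + B) = iav hu μ A + iav hu μ B := by
  ext1 ξ
  rw [ContinuousLinearMap.add_apply, iav_ap, iav_ap, iav_ap,
    ← integral_add (hu.int A ξ) (hu.int B ξ)]
  refine integral_congr_ae (Eventually.of_forall fun l => ?_)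
  show u l ((A + B) (u l⁻¹ ξ)) = _
  rw [ContinuousLinearMap.add_apply, map_add]

theorem iav_zero : iav hu μ (0 : K →L[ℂ] K) = 0 := by
  ext1 ξ
  rw [iav_ap]
  simp

theorem iav_sum {ι : Type*} (s : Finset ι) (A : ι → (K →L[ℂ] K)) :
    iav hu μ (∑ i ∈ s, A i) = ∑ i ∈ s, iav hu μ (A i) := by
  classical
  induction s using Finset.induction_on with
  | empty => simp only [Finset.sum_empty]; exact iav_zero hu
  | insert i s hi ih => rw [Finset.sum_insert hi, Finset.sum_insert hi, iav_add, ih]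

theorem iav_one : iav hu μ (1 : K →L[ℂ] K) = 1 := by
  ext1 ξ
  rw [iav_ap]
  have : ∀ l, u l ((1 : K →L[ℂ] K) (u l⁻¹ ξ)) = ξ := fun l => hu.ap_inv l ξ
  simp only [this, integral_const, probReal_univ, one_smul]
  rfl

theorem iav_neg (A : K →L[ℂ] K) : iav hu μ (-A) = -iav hu μ A := by
  have h1 := iav_add (μ := μ) hu A (-A)
  rw [add_neg_cancel, iav_zero] at h1
  exact (neg_eq_of_add_eq_zero_right h1.symm).symm

theorem adj_iav (A : K →L[ℂ] K) : adjoint (iav hu μ A) = iav hu μ (adjoint A) := by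
  ext1 ξ
  refine ext_inner_left ℂ fun η => ?_
  rw [adjoint_inner_right, ← inner_conj_symm, inner_iav, inner_iav, ← integral_conj]
  refine integral_congr_ae (Eventually.of_forall fun l => ?_)
  show (starRingEnd ℂ) ⟪u l⁻¹ ξ, A (u l⁻¹ η)⟫_ℂ = ⟪u l⁻¹ η, adjoint A (u l⁻¹ ξ)⟫_ℂ
  rw [inner_conj_symm, adjoint_inner_right]

theorem re_int (A : K →L[ℂ] K) (ξ : K) :
    (⟪ξ, iav hu μ A ξ⟫_ℂ).re = ∫ l, (⟪u l⁻¹ ξ, A (u l⁻¹ ξ)⟫_ℂ).re ∂μ := by
  have h1 : Continuous fun l => ⟪u l⁻¹ ξ, A (u l⁻¹ ξ)⟫_ℂ :=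
    ((hu.cont ξ).comp continuous_inv).inner (A.continuous.comp ((hu.cont ξ).comp continuous_inv))
  have h2 : Integrable (fun l => ⟪u l⁻¹ ξ, A (u l⁻¹ ξ)⟫_ℂ) μ :=
    h1.integrable_of_hasCompactSupport (HasCompactSupport.of_compactSpace _)
  rw [inner_iav]
  exact (Complex.reCLM.integral_comp_comm h2).symm

theorem re_symm (x y : K) : (⟪x, y⟫_ℂ).re = (⟪y, x⟫_ℂ).re := by
  rw [← inner_conj_symm, Complex.conj_re]

theorem pos_iff {A : K →L[ℂ] K} : 0 ≤ A ↔ adjoint A = A ∧ ∀ ξ, 0 ≤ (⟪ξ, A ξ⟫_ℂ).re := by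
  rw [ContinuousLinearMap.nonneg_iff_isPositive, ContinuousLinearMap.isPositive_def']
  constructor
  · rintro ⟨h1, h2⟩
    refine ⟨h1, fun ξ => ?_⟩
    have h3 := h2 ξ
    rw [ContinuousLinearMap.reApplyInnerSelf_apply] at h3
    rw [re_symm]
    exact h3
  · rintro ⟨h1, h2⟩
    refine ⟨h1, fun ξ => ?_⟩
    rw [ContinuousLinearMap.reApplyInnerSelf_apply]
    have h3 := h2 ξ
    rw [re_symm] at h3
    exact h3

theorem iav_nonneg {A : K →L[ℂ] K} (hA : 0 ≤ A) : 0 ≤ iav hu μ A := by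
  rw [pos_iff] at hA ⊢
  refine ⟨by rw [adj_iav, hA.1], fun ξ => ?_⟩
  rw [re_int]
  exact integral_nonneg fun l => hA.2 _

theorem iav_le_one {A : K →L[ℂ] K} (hA : A ≤ 1) : iav hu μ A ≤ 1 := by
  rw [← sub_nonneg] at hA ⊢
  have h1 := iav_nonneg (μ := μ) hu hA
  rwa [sub_eq_add_neg, iav_add, iav_one, iav_neg, ← sub_eq_add_neg] at h1

theorem eq_zero_of_re {A : K →L[ℂ] K} (hA : adjoint A = A) (h : ∀ ξ, (⟪ξ, A ξ⟫_ℂ).re = 0) :
    A = 0 := by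
  have h1 : ∀ ξ, ⟪A ξ, ξ⟫_ℂ = 0 := by
    intro ξ
    have h2 : (starRingEnd ℂ) ⟪ξ, A ξ⟫_ℂ = ⟪ξ, A ξ⟫_ℂ := by
      rw [inner_conj_symm, ← adjoint_inner_right, hA]
    have h3 : (⟪ξ, A ξ⟫_ℂ).im = 0 := Complex.conj_eq_iff_im.1 h2
    have h4 : ⟪ξ, A ξ⟫_ℂ = 0 := Complex.ext (h ξ) h3
    rw [← inner_conj_symm, h4, map_zero]
  have h2 : (A : K →ₗ[ℂ] K) = 0 := (inner_map_self_eq_zero (A : K →ₗ[ℂ] K)).1 h1
  ext1 ξ
  exact congrArg (fun T : K →ₗ[ℂ] K => T ξ) h2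

theorem iav_ne [μ.IsOpenPosMeasure] {A : K →L[ℂ] K} (hA : 0 ≤ A) (h0 : A ≠ 0) :
    iav hu μ A ≠ 0 := by
  intro h
  rw [pos_iff] at hA
  apply h0
  refine eq_zero_of_re hA.1 fun ξ => ?_
  have h1 := re_int (μ := μ) hu A ξ
  rw [h, ContinuousLinearMap.zero_apply, inner_zero_right, Complex.zero_re] at h1
  have hc : Continuous fun l => (⟪u l⁻¹ ξ, A (u l⁻¹ ξ)⟫_ℂ).re :=
    Complex.continuous_re.comp (((hu.cont ξ).comp continuous_inv).inner
      (A.continuous.comp ((hu.cont ξ).comp continuous_inv)))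
  have hi : Integrable (fun l => (⟪u l⁻¹ ξ, A (u l⁻¹ ξ)⟫_ℂ).re) μ :=
    hc.integrable_of_hasCompactSupport (HasCompactSupport.of_compactSpace _)
  have h2 := (integral_eq_zero_iff_of_nonneg (fun l => hA.2 (u l⁻¹ ξ)) hi).1 h1.symm
  have h3 := (hc.ae_eq_iff_eq μ continuous_const).1 h2
  have h4 : (⟪u 1⁻¹ ξ, A (u 1⁻¹ ξ)⟫_ℂ).re = (0 : ℝ) := congrFun h3 1
  rw [inv_one, map_one] at h4
  exact h4

/-- invariance -/
theorem iav_inv [μ.IsMulLeftInvariant] (A : K →L[ℂ] K) (l₀ : L) :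
    u l₀ * iav hu μ A = iav hu μ A * u l₀ := by
  ext1 ξ
  show u l₀ (iav hu μ A ξ) = iav hu μ A (u l₀ ξ)
  rw [iav_ap, iav_ap, ← (u l₀).integral_comp_comm (hu.int A ξ),
    ← integral_mul_left_eq_self (μ := μ) (fun l => u l (A (u l⁻¹ (u l₀ ξ)))) l₀]
  refine integral_congr_ae (Eventually.of_forall fun l => ?_)
  show u l₀ (u l (A (u l⁻¹ ξ))) = u (l₀ * l) (A (u (l₀ * l)⁻¹ (u l₀ ξ)))
  have e1 : u (l₀ * l)⁻¹ (u l₀ ξ) = u l⁻¹ ξ := by
    have h1 : u (l₀ * l)⁻¹ * u l₀ = u l⁻¹ := by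
      rw [← map_mul]
      congr 1
      group
    exact congrArg (fun T : K →L[ℂ] K => T ξ) h1
  rw [e1, map_mul]
  rfl

/-- the norms: for one vector -/
theorem norm_sq_iav (A : K →L[ℂ] K) (ξ : K) :
    ‖iav hu μ A ξ‖ ^ 2 ≤ ∫ l, ‖A (u l⁻¹ ξ)‖ ^ 2 ∂μ := by
  have hc : Continuous fun l => ‖A (u l⁻¹ ξ)‖ :=
    (A.continuous.comp ((hu.cont ξ).comp continuous_inv)).norm
  have h1 : ‖iav hu μ A ξ‖ ≤ ∫ l, ‖A (u l⁻¹ ξ)‖ ∂μ := by
    rw [iav_ap]
    refine (norm_integral_le_integral_norm _).trans (le_of_eq ?_)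
    refine integral_congr_ae (Eventually.of_forall fun l => ?_)
    exact hu.norm l _
  have h2 : (∫ l, ‖A (u l⁻¹ ξ)‖ ∂μ) ^ 2 ≤ ∫ l, ‖A (u l⁻¹ ξ)‖ ^ 2 ∂μ := by
    obtain ⟨c, hcd⟩ : ∃ c, c = ∫ l, ‖A (u l⁻¹ ξ)‖ ∂μ := ⟨_, rfl⟩
    have hi1 : Integrable (fun l => ‖A (u l⁻¹ ξ)‖) μ :=
      hc.integrable_of_hasCompactSupport (HasCompactSupport.of_compactSpace _)
    have hi2 : Integrable (fun l => ‖A (u l⁻¹ ξ)‖ ^ 2) μ :=
      (hc.pow 2).integrable_of_hasCompactSupport (HasCompactSupport.of_compactSpace _)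
    have h3 : 0 ≤ ∫ l, (‖A (u l⁻¹ ξ)‖ - c) ^ 2 ∂μ := integral_nonneg fun l => by positivity
    have h4 : ∫ l, (‖A (u l⁻¹ ξ)‖ - c) ^ 2 ∂μ =
        ∫ l, ‖A (u l⁻¹ ξ)‖ ^ 2 ∂μ - 2 * c * c + c ^ 2 := by
      have h5 : (fun l => (‖A (u l⁻¹ ξ)‖ - c) ^ 2) = fun l =>
          (‖A (u l⁻¹ ξ)‖ ^ 2 - 2 * c * ‖A (u l⁻¹ ξ)‖) + c ^ 2 := by
        funext l; ring
      have i3 : Integrable (fun l => ‖A (u l⁻¹ ξ)‖ ^ 2 - 2 * c * ‖A (u l⁻¹ ξ)‖) μ :=
        hi2.sub (hi1.const_mul (2 * c))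
      rw [h5, integral_add i3 (integrable_const _),
        integral_sub hi2 (hi1.const_mul (2 * c)), integral_const_mul, ← hcd]
      simp
    rw [h4] at h3
    rw [← hcd]
    nlinarith
  calc ‖iav hu μ A ξ‖ ^ 2 ≤ (∫ l, ‖A (u l⁻¹ ξ)‖ ∂μ) ^ 2 :=
        pow_le_pow_left₀ (norm_nonneg _) h1 2
    _ ≤ _ := h2

end iav

end Vale.Agent.P092.H242.Avg
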