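import Vale.Agent.P092.H108.Base

/-!
P092 (helper242): block operators on finite direct sums of a Hilbert space, square roots of
positive block operators.
-/

set_option linter.all false

open scoped InnerProductSpace
open ContinuousLinearMap

namespace Vale.Agent.P092.H242

variable {H : Type} [NormedAddCommGroup H] [InnerProductSpace ℂ H] [CompleteSpace H]
  {X : Type}

/-- The direct sum of copies of `H` indexed by `B`. -/
abbrev HB (H : Type) [NormedAddCommGroup H] (B : Finset X) : Type := PiLp 2 (fun _ : ↥B => H)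

open Classical in
/-- inclusion of the coordinate `b` (zero if `b ∉ B`) -/
noncomputable def sg (B : Finset X) (b : X) : H →L[ℂ] HB H B :=
  if h : b ∈ B then
    ((PiLp.continuousLinearEquiv 2 ℂ (fun _ : ↥B => H)).symm : ((_ : ↥B) → H) →L[ℂ] HB H B).comp
      (@ContinuousLinearMap.single ℂ _ ↥B (fun _ : ↥B => H) _ _ _ (Classical.decEq ↥B) ⟨b, h⟩)
  else 0

open Classical in
/-- projection to the coordinate `b` (zero if `b ∉ B`) -/
noncomputable def pr (B : Finset X) (b : X) : HB H B →L[ℂ] H :=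
  if h : b ∈ B then PiLp.proj 2 (fun _ : ↥B => H) ⟨b, h⟩ else 0

variable {B : Finset X}

theorem pr_mem {b : X} (h : b ∈ B) (x : HB H B) : pr B b x = x ⟨b, h⟩ := by
  classical
  rw [pr, dif_pos h]
  rfl

theorem pr_not_mem {b : X} (h : b ∉ B) (x : HB H B) : pr B b x = 0 := by
  classical
  rw [pr, dif_neg h]
  rfl

theorem sg_not_mem {b : X} (h : b ∉ B) (ξ : H) : sg B b ξ = 0 := by
  classical
  rw [sg, dif_neg h]
  rfl

theorem sum_pr (x y : HB H B) : ∑ j ∈ B, ⟪pr B j x, pr B j y⟫_ℂ = ⟪x, y⟫_ℂ := by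
  classical
  rw [PiLp.inner_apply, ← Finset.sum_coe_sort B]
  refine Finset.sum_congr rfl fun j _ => ?_
  rw [pr_mem j.2, pr_mem j.2]

theorem sum_pr_norm (x : HB H B) : ∑ j ∈ B, ‖pr B j x‖ ^ 2 = ‖x‖ ^ 2 := by
  classical
  rw [PiLp.norm_sq_eq_of_L2, ← Finset.sum_coe_sort B]
  refine Finset.sum_congr rfl fun j _ => ?_
  rw [pr_mem j.2]

theorem HB_ext {x y : HB H B} (h : ∀ b ∈ B, pr B b x = pr B b y) : x = y := by
  ext j
  have := h j.1 j.2
  rwa [pr_mem j.2, pr_mem j.2] at this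

theorem pr_sg [DecidableEq X] {b b' : X} (hb : b ∈ B) (ξ : H) :
    pr B b (sg B b' ξ) = if b = b' then ξ else 0 := by
  classical
  by_cases hb' : b' ∈ B
  · rw [pr_mem hb, sg, dif_pos hb']
    change (@Pi.single ↥B (fun _ => H) _ (Classical.decEq ↥B) ⟨b', hb'⟩ ξ) ⟨b, hb⟩ = _
    rw [@Pi.single_apply ↥B (Classical.decEq ↥B)]
    by_cases h : b = b'
    · rw [if_pos h, if_pos (Subtype.ext h)]
    · rw [if_neg h, if_neg (fun h' => h (congrArg Subtype.val h'))]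
  · rw [sg_not_mem hb', map_zero, if_neg]
    rintro rfl
    exact hb' hb

theorem inner_sg_left (b : X) (ξ : H) (y : HB H B) : ⟪sg B b ξ, y⟫_ℂ = ⟪ξ, pr B b y⟫_ℂ := by
  classical
  by_cases hb : b ∈ B
  · rw [← sum_pr, Finset.sum_eq_single b]
    · rw [pr_sg hb, if_pos rfl]
    · intro j hj hjb
      rw [pr_sg hj, if_neg hjb, inner_zero_left]
    · intro h; exact absurd hb h
  · rw [sg_not_mem hb, pr_not_mem hb, inner_zero_left, inner_zero_right]

theorem inner_sg_right (b : X) (ξ : H) (y : HB H B) : ⟪y, sg B b ξ⟫_ℂ = ⟪pr B b y, ξ⟫_ℂ := by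
  rw [← inner_conj_symm, inner_sg_left, inner_conj_symm]

theorem norm_sg_le (b : X) (ξ : H) : ‖sg B b ξ‖ ≤ ‖ξ‖ := by
  classical
  by_cases hb : b ∈ B
  · refine (pow_le_pow_iff_left₀ (norm_nonneg _) (norm_nonneg _) two_ne_zero).mp ?_
    rw [← sum_pr_norm, Finset.sum_eq_single b]
    · rw [pr_sg hb, if_pos rfl]
    · intro j hj hjb
      rw [pr_sg hj, if_neg hjb, norm_zero]; norm_num
    · intro h; exact absurd hb h
  · rw [sg_not_mem hb, norm_zero]; exact norm_nonneg _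

/-- block operators -/
noncomputable def blk (B : Finset X) (G : X → X → (H →L[ℂ] H)) : HB H B →L[ℂ] HB H B :=
  ∑ b' ∈ B, ∑ b ∈ B, (sg B b').comp ((G b' b).comp (pr B b))

theorem pr_blk (G : X → X → (H →L[ℂ] H)) {b' : X} (hb' : b' ∈ B) (x : HB H B) :
    pr B b' (blk B G x) = ∑ b ∈ B, G b' b (pr B b x) := by
  classical
  rw [blk]
  simp only [ContinuousLinearMap.sum_apply, map_sum, comp_apply]
  rw [Finset.sum_eq_single b']
  · refine Finset.sum_congr rfl fun b _ => ?_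
    rw [pr_sg hb', if_pos rfl]
  · intro c _ hc
    refine Finset.sum_eq_zero fun b _ => ?_
    rw [pr_sg hb', if_neg (Ne.symm hc)]
  · intro h; exact absurd hb' h

theorem inner_blk (G : X → X → (H →L[ℂ] H)) (x y : HB H B) :
    ⟪x, blk B G y⟫_ℂ = ∑ b' ∈ B, ∑ b ∈ B, ⟪pr B b' x, G b' b (pr B b y)⟫_ℂ := by
  rw [← sum_pr]
  refine Finset.sum_congr rfl fun b' hb' => ?_
  rw [pr_blk G hb', inner_sum]

/-- diagonal operators -/
noncomputable def dg (B : Finset X) (T : H →L[ℂ] H) : HB H B →L[ℂ] HB H B :=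
  ∑ b ∈ B, (sg B b).comp (T.comp (pr B b))

theorem pr_dg (T : H →L[ℂ] H) (b : X) (x : HB H B) : pr B b (dg B T x) = T (pr B b x) := by
  classical
  by_cases hb : b ∈ B
  · rw [dg]
    simp only [ContinuousLinearMap.sum_apply, map_sum, comp_apply]
    rw [Finset.sum_eq_single b]
    · rw [pr_sg hb, if_pos rfl]
    · intro c _ hc
      rw [pr_sg hb, if_neg (Ne.symm hc)]
    · intro h; exact absurd hb h
  · rw [pr_not_mem hb, pr_not_mem hb, map_zero]

theorem dg_sg (T : H →L[ℂ] H) (b : X) (ξ : H) : dg B T (sg B b ξ) = sg B b (T ξ) := by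
  classical
  refine HB_ext fun c hc => ?_
  rw [pr_dg, pr_sg hc, pr_sg hc]
  split_ifs
  · rfl
  · rw [map_zero]

theorem dg_blk (G : X → X → (H →L[ℂ] H)) (T : H →L[ℂ] H)
    (h : ∀ b' ∈ B, ∀ b ∈ B, G b' b * T = T * G b' b) : blk B G * dg B T = dg B T * blk B G := by
  ext1 x
  refine HB_ext fun b' hb' => ?_
  change pr B b' (blk B G (dg B T x)) = pr B b' (dg B T (blk B G x))
  rw [pr_blk G hb', pr_dg, pr_blk G hb', map_sum]
  refine Finset.sum_congr rfl fun b hb => ?_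
  rw [pr_dg]
  exact congrArg (fun A : H →L[ℂ] H => A (pr B b x)) (h b' hb' b hb)

/-- Square roots of positive operators plus `η`, with their inverses. -/
theorem root_gen {H' : Type} [NormedAddCommGroup H'] [InnerProductSpace ℂ H'] [CompleteSpace H']
    {T : H' →L[ℂ] H'} (h0 : 0 ≤ T) {η : ℝ} (hη : 0 < η) :
    ∃ S Q : H' →L[ℂ] H', S * S = T + (η : ℂ) • 1 ∧ S * Q = 1 ∧ Q * S = 1 ∧
      (∀ x y, ⟪S x, y⟫_ℂ = ⟪x, S y⟫_ℂ) ∧ (∀ x y, ⟪Q x, y⟫_ℂ = ⟪x, Q y⟫_ℂ) ∧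
      ∀ y : H' →L[ℂ] H', T * y = y * T → S * y = y * S ∧ Q * y = y * Q := by
  obtain ⟨Z, hZ⟩ : ∃ Z, Z = T + (η : ℂ) • (1 : H' →L[ℂ] H') := ⟨_, rfl⟩
  have hη1 : (0 : H' →L[ℂ] H') ≤ (η : ℂ) • 1 := by
    refine H108.nonneg_of_inner ?_ fun x => ?_
    · rw [IsSelfAdjoint, star_smul, star_one]
      congr 1
      exact Complex.conj_ofReal η
    · have e1 : ⟪x, ((η : ℂ) • (1 : H' →L[ℂ] H')) x⟫_ℂ = ((η * ‖x‖ ^ 2 : ℝ) : ℂ) := by
        change ⟪x, (η : ℂ) • x⟫_ℂ = _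
        rw [inner_smul_right, inner_self_eq_norm_sq_to_K]
        push_cast
        rfl
      rw [e1, Complex.ofReal_re]
      positivity
  have hZ0 : 0 ≤ Z := by rw [hZ]; exact add_nonneg h0 hη1
  have hZu : IsUnit Z := by
    have hu : IsUnit ((η : ℂ) • (1 : H' →L[ℂ] H')) := by
      have hne : (η : ℂ) ≠ 0 := by exact_mod_cast hη.ne'
      refine ⟨⟨(η : ℂ) • 1, (η : ℂ)⁻¹ • 1, ?_, ?_⟩, rfl⟩
      · rw [smul_mul_smul_comm, mul_one, mul_inv_cancel₀ hne, one_smul]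
      · rw [smul_mul_smul_comm, mul_one, inv_mul_cancel₀ hne, one_smul]
    refine CStarAlgebra.isUnit_of_le ((η : ℂ) • (1 : H' →L[ℂ] H')) ?_
      (IsStrictlyPositive.iff_of_unital.mpr ⟨hη1, hu⟩)
    rw [hZ]
    exact le_add_of_nonneg_left h0
  obtain ⟨S, hS⟩ : ∃ S : H' →L[ℂ] H', S = CFC.sqrt Z := ⟨_, rfl⟩
  have hS0 : 0 ≤ S := by rw [hS]; exact CFC.sqrt_nonneg Z
  have hSS : S * S = Z := by rw [hS]; exact CFC.sqrt_mul_sqrt_self Z hZ0
  have hSu : IsUnit S := by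
    have : IsUnit (S * S) := by rw [hSS]; exact hZu
    exact ((Commute.refl S).isUnit_mul_iff.mp this).1
  obtain ⟨u, hu⟩ := hSu
  obtain ⟨Q, hQ⟩ : ∃ Q : H' →L[ℂ] H', Q = ((u⁻¹ : (H' →L[ℂ] H')ˣ) : H' →L[ℂ] H') := ⟨_, rfl⟩
  have hSQ : S * Q = 1 := by rw [← hu, hQ, Units.mul_inv]
  have hQS : Q * S = 1 := by rw [← hu, hQ, Units.inv_mul]
  have hSs : star S = S := (IsSelfAdjoint.of_nonneg hS0).star_eq
  have hQs : star Q = Q := by
    calc star Q = star Q * (S * Q) := by rw [hSQ, mul_one]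
      _ = star (S * Q) * Q := by rw [star_mul, hSs, mul_assoc]
      _ = Q := by rw [hSQ, star_one, one_mul]
  refine ⟨S, Q, by rw [hSS, hZ], hSQ, hQS, fun x y => ?_, fun x y => ?_, fun y hy => ?_⟩
  · rw [← adjoint_inner_right, ← star_eq_adjoint, hSs]
  · rw [← adjoint_inner_right, ← star_eq_adjoint, hQs]
  · have h1 : Commute Z y := by
      rw [hZ]
      exact Commute.add_left hy ((Commute.one_left y).smul_left _)
    have h2 : S * y = y * S := by
      rw [hS]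
      exact (h1.cfcₙ_nnreal _).eq
    refine ⟨h2, ?_⟩
    calc Q * y = Q * y * (S * Q) := by rw [hSQ, mul_one]
      _ = Q * (y * S) * Q := by simp only [mul_assoc]
      _ = Q * (S * y) * Q := by rw [h2]
      _ = (Q * S) * (y * Q) := by simp only [mul_assoc]
      _ = y * Q := by rw [hQS, one_mul]

/-- Square roots of positive block operators plus `η`, with their inverses. -/
theorem exists_root (G : X → X → (H →L[ℂ] H)) (hsym : ∀ b b', adjoint (G b b') = G b' b)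
    (hpos : ∀ x : HB H B, 0 ≤ (∑ b' ∈ B, ∑ b ∈ B, ⟪pr B b' x, G b' b (pr B b x)⟫_ℂ).re)
    {η : ℝ} (hη : 0 < η) :
    ∃ S Q : HB H B →L[ℂ] HB H B, S * S = blk B G + (η : ℂ) • 1 ∧ S * Q = 1 ∧ Q * S = 1 ∧
      (∀ x y, ⟪S x, y⟫_ℂ = ⟪x, S y⟫_ℂ) ∧ (∀ x y, ⟪Q x, y⟫_ℂ = ⟪x, Q y⟫_ℂ) ∧
      ∀ T : H →L[ℂ] H, (∀ b' ∈ B, ∀ b ∈ B, G b' b * T = T * G b' b) →
        S * dg B T = dg B T * S ∧ Q * dg B T = dg B T * Q := by
  have hsa : IsSelfAdjoint (blk B G) := by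
    rw [IsSelfAdjoint, star_eq_adjoint, eq_comm, ContinuousLinearMap.eq_adjoint_iff]
    intro x y
    rw [inner_blk, ← inner_conj_symm, inner_blk, map_sum, Finset.sum_comm]
    refine Finset.sum_congr rfl fun b' _ => ?_
    rw [map_sum]
    refine Finset.sum_congr rfl fun b _ => ?_
    rw [inner_conj_symm, ← adjoint_inner_right, hsym]
  have h0 : 0 ≤ blk B G := by
    refine H108.nonneg_of_inner hsa fun x => ?_
    rw [inner_blk]
    exact hpos x
  obtain ⟨S, Q, h1, h2, h3, h4, h5, h6⟩ := root_gen h0 hη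
  exact ⟨S, Q, h1, h2, h3, h4, h5, fun T hT => h6 _ (dg_blk G T hT)⟩

/-- Schur complement estimate. -/
theorem schur_le {G : X → X → (H →L[ℂ] H)} {η : ℝ} (hη : 0 < η)
    {S Q : HB H B →L[ℂ] HB H B} (hSS : S * S = blk B G + (η : ℂ) • 1) (hSQ : S * Q = 1)
    (hQ : ∀ x y, ⟪Q x, y⟫_ℂ = ⟪x, Q y⟫_ℂ) (c : HB H B) {D : ℝ}
    (hD : ∀ x : HB H B, 0 ≤ D - 2 * (⟪x, c⟫_ℂ).re + (⟪x, blk B G x⟫_ℂ).re) :
    ‖Q c‖ ^ 2 ≤ D := by
  obtain ⟨x, hx⟩ : ∃ x, x = Q (Q c) := ⟨_, rfl⟩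
  have h1 : (blk B G + (η : ℂ) • 1) x = c := by
    rw [← hSS, hx]
    have e1 : ∀ y, S (Q y) = y := fun y => by
      have := congrArg (fun A : HB H B →L[ℂ] HB H B => A y) hSQ
      exact this
    change S (S (Q (Q c))) = c
    rw [e1, e1]
  have h2 : ‖Q c‖ ^ 2 = (⟪x, c⟫_ℂ).re := by
    rw [hx, hQ, inner_self_eq_norm_sq_to_K]
    norm_cast
  have h3 : (⟪x, blk B G x⟫_ℂ).re = (⟪x, c⟫_ℂ).re - η * ‖x‖ ^ 2 := by
    have e2 : blk B G x = c - (η : ℂ) • x := by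
      rw [eq_sub_iff_add_eq]
      exact h1
    rw [e2, inner_sub_right, inner_smul_right, Complex.sub_re, Complex.re_ofReal_mul,
      inner_self_eq_norm_sq_to_K]
    norm_cast
  have h4 := hD x
  rw [h3] at h4
  rw [h2]
  have h5 : 0 ≤ η * ‖x‖ ^ 2 := by positivity
  linarith

end Vale.Agent.P092.H242
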