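import Vale.Agent.P092.H553.Ops

/-!
P092 (helper242), Team C: Cesàro limits of bounded sequences of operators along an ultrafilter
(weak operator topology).  They are invariant under the shift, and a strongly convergent sequence
may be taken out of the limit.
-/

set_option linter.all false

open scoped InnerProductSpace
open Filter Topology ContinuousLinearMap

namespace Vale.Agent.P092.H242.Ces

open Vale.Agent.P092.H553 (wl wl_spec op_ext_inner)

variable {H : Type} [NormedAddCommGroup H] [InnerProductSpace ℂ H] [CompleteSpace H]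

/-- The Cesàro averages. -/
noncomputable def cav (A : ℕ → (H →L[ℂ] H)) (N : ℕ) : H →L[ℂ] H :=
  (((N : ℝ) + 1 : ℝ) : ℂ)⁻¹ • ∑ t ∈ Finset.range (N + 1), A t

/-- The Cesàro limit along an ultrafilter. -/
noncomputable def cl (U : Ultrafilter ℕ) (A : ℕ → (H →L[ℂ] H)) : H →L[ℂ] H := wl U (cav A)

variable {A A' : ℕ → (H →L[ℂ] H)} {C C' : ℝ} {U : Ultrafilter ℕ}

theorem np (N : ℕ) : (0 : ℝ) < (N : ℝ) + 1 := by positivity

theorem nc (N : ℕ) : ((((N : ℝ) + 1 : ℝ) : ℂ)) ≠ 0 := by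
  exact_mod_cast (np N).ne'

theorem norm_cav_le (h : ∀ t, ‖A t‖ ≤ C) (N : ℕ) : ‖cav A N‖ ≤ C := by
  rw [cav, norm_smul, norm_inv, Complex.norm_real, Real.norm_eq_abs, abs_of_pos (np N)]
  have h1 : ‖∑ t ∈ Finset.range (N + 1), A t‖ ≤ ((N : ℝ) + 1) * C := by
    refine (norm_sum_le _ _).trans ((Finset.sum_le_sum fun t _ => h t).trans ?_)
    rw [Finset.sum_const, Finset.card_range, nsmul_eq_mul]
    push_cast
    exact le_rfl
  have h2 := np N
  rw [inv_mul_le_iff₀ h2]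
  exact h1

theorem cav_apply (N : ℕ) (ξ : H) :
    cav A N ξ = (((N : ℝ) + 1 : ℝ) : ℂ)⁻¹ • ∑ t ∈ Finset.range (N + 1), A t ξ := by
  rw [cav, ContinuousLinearMap.smul_apply, ContinuousLinearMap.sum_apply]

theorem inner_cav (N : ℕ) (ξ η : H) :
    ⟪ξ, cav A N η⟫_ℂ = (((N : ℝ) + 1 : ℝ) : ℂ)⁻¹ * ∑ t ∈ Finset.range (N + 1), ⟪ξ, A t η⟫_ℂ := by
  rw [cav_apply, inner_smul_right, inner_sum]

theorem cl_spec (h : ∀ t, ‖A t‖ ≤ C) (ξ η : H) :
    Tendsto (fun N => ⟪ξ, cav A N η⟫_ℂ) U (𝓝 ⟪ξ, cl U A η⟫_ℂ) :=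
  wl_spec U (norm_cav_le h) ξ η

theorem tendsto_avg {c : ℕ → ℂ} (h : Tendsto c atTop (𝓝 0)) :
    Tendsto (fun N : ℕ => (((N : ℝ) + 1 : ℝ) : ℂ)⁻¹ * ∑ t ∈ Finset.range (N + 1), c t) atTop
      (𝓝 0) := by
  have h1 := (h.cesaro_smul).comp (tendsto_add_atTop_nat 1)
  refine h1.congr fun N => ?_
  simp only [Function.comp]
  rw [Complex.real_smul]
  push_cast
  rfl

/-- two sequences which are weakly asymptotic have the same Cesàro limit -/
theorem cl_congr (hU : (U : Filter ℕ) ≤ atTop) (h : ∀ t, ‖A t‖ ≤ C) (h' : ∀ t, ‖A' t‖ ≤ C')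
    (hd : ∀ ξ η : H, Tendsto (fun t => ⟪ξ, A t η⟫_ℂ - ⟪ξ, A' t η⟫_ℂ) atTop (𝓝 0)) :
    cl U A = cl U A' := by
  refine op_ext_inner fun ξ η => ?_
  have h1 := (cl_spec (U := U) h ξ η).sub (cl_spec (U := U) h' ξ η)
  have h2 := (tendsto_avg (hd ξ η)).mono_left hU
  have h3 : (fun N : ℕ => (((N : ℝ) + 1 : ℝ) : ℂ)⁻¹ * ∑ t ∈ Finset.range (N + 1),
      (⟪ξ, A t η⟫_ℂ - ⟪ξ, A' t η⟫_ℂ)) = fun N => ⟪ξ, cav A N η⟫_ℂ - ⟪ξ, cav A' N η⟫_ℂ := by
    funext N
    rw [inner_cav, inner_cav, Finset.sum_sub_distrib, mul_sub]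
  rw [h3] at h2
  exact sub_eq_zero.mp (tendsto_nhds_unique h1 h2)

theorem cl_congr' (h : ∀ t, A t = A' t) : cl U A = cl U A' := by
  have : A = A' := funext h
  rw [this]

/-- eventually equal sequences -/
theorem cl_congr_ev (hU : (U : Filter ℕ) ≤ atTop) (h : ∀ t, ‖A t‖ ≤ C) (h' : ∀ t, ‖A' t‖ ≤ C')
    (hd : ∀ᶠ t in atTop, A t = A' t) : cl U A = cl U A' := by
  refine cl_congr hU h h' fun ξ η => ?_
  refine tendsto_const_nhds.congr' ?_
  filter_upwards [hd] with t ht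
  rw [ht, sub_self]

theorem cl_const (T : H →L[ℂ] H) (hU : (U : Filter ℕ) ≤ atTop) : cl U (fun _ => T) = T := by
  refine op_ext_inner fun ξ η => ?_
  have h1 := cl_spec (U := U) (A := fun _ => T) (C := ‖T‖) (fun _ => le_rfl) ξ η
  have h2 : (fun N => ⟪ξ, cav (fun _ => T) N η⟫_ℂ) = fun _ => ⟪ξ, T η⟫_ℂ := by
    funext N
    rw [inner_cav, Finset.sum_const, Finset.card_range, nsmul_eq_mul, ← mul_assoc]
    have := nc N
    push_cast at this ⊢
    rw [inv_mul_cancel₀ this, one_mul]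
  rw [h2] at h1
  exact tendsto_nhds_unique h1 tendsto_const_nhds

theorem cl_zero : cl U (fun _ => (0 : H →L[ℂ] H)) = 0 := by
  refine op_ext_inner fun ξ η => ?_
  have h1 := cl_spec (U := U) (A := fun _ => (0 : H →L[ℂ] H)) (C := 0) (fun _ => by simp) ξ η
  have h2 : (fun N => ⟪ξ, cav (fun _ => (0 : H →L[ℂ] H)) N η⟫_ℂ) = fun _ => 0 := by
    funext N
    rw [inner_cav]
    simp
  rw [h2] at h1
  rw [tendsto_nhds_unique h1 tendsto_const_nhds]
  simp

theorem cl_add (h : ∀ t, ‖A t‖ ≤ C) (h' : ∀ t, ‖A' t‖ ≤ C') :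
    cl U (fun t => A t + A' t) = cl U A + cl U A' := by
  refine op_ext_inner fun ξ η => ?_
  have h1 := cl_spec (U := U) (A := fun t => A t + A' t) (C := C + C')
    (fun t => (norm_add_le _ _).trans (add_le_add (h t) (h' t))) ξ η
  have h2 := (cl_spec (U := U) h ξ η).add (cl_spec (U := U) h' ξ η)
  have h3 : (fun N => ⟪ξ, cav (fun t => A t + A' t) N η⟫_ℂ) =
      fun N => ⟪ξ, cav A N η⟫_ℂ + ⟪ξ, cav A' N η⟫_ℂ := by
    funext N
    rw [inner_cav, inner_cav, inner_cav, ← mul_add, ← Finset.sum_add_distrib]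
    congr 1
    refine Finset.sum_congr rfl fun t _ => ?_
    rw [ContinuousLinearMap.add_apply, inner_add_right]
  rw [h3] at h1
  rw [tendsto_nhds_unique h1 h2, ContinuousLinearMap.add_apply, inner_add_right]

theorem cl_sum {α : Type*} (s : Finset α) {A : α → ℕ → (H →L[ℂ] H)} {C : α → ℝ}
    (h : ∀ a ∈ s, ∀ t, ‖A a t‖ ≤ C a) :
    cl U (fun t => ∑ a ∈ s, A a t) = ∑ a ∈ s, cl U (A a) := by
  classical
  induction s using Finset.induction_on with
  | empty => simp only [Finset.sum_empty]; exact cl_zero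
  | insert a s ha ih =>
    have h1 : ∀ b ∈ s, ∀ t, ‖A b t‖ ≤ C b := fun b hb => h b (Finset.mem_insert_of_mem hb)
    have h2 : (fun t => ∑ b ∈ insert a s, A b t) = fun t => A a t + ∑ b ∈ s, A b t := by
      funext t; rw [Finset.sum_insert ha]
    rw [h2, cl_add (h a (Finset.mem_insert_self a s)) (C' := ∑ b ∈ s, C b)
      (fun t => (norm_sum_le _ _).trans (Finset.sum_le_sum fun b hb => h1 b hb t)), ih h1,
      Finset.sum_insert ha]

theorem cl_mul_left (h : ∀ t, ‖A t‖ ≤ C) (X : H →L[ℂ] H) :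
    cl U (fun t => X * A t) = X * cl U A := by
  refine op_ext_inner fun ξ η => ?_
  have h1 := cl_spec (U := U) (A := fun t => X * A t) (C := ‖X‖ * C)
    (fun t => (norm_mul_le _ _).trans (mul_le_mul_of_nonneg_left (h t) (norm_nonneg _))) ξ η
  have h2 := cl_spec (U := U) h (adjoint X ξ) η
  have h3 : (fun N => ⟪ξ, cav (fun t => X * A t) N η⟫_ℂ) =
      fun N => ⟪adjoint X ξ, cav A N η⟫_ℂ := by
    funext N
    rw [inner_cav, inner_cav]
    congr 1
    refine Finset.sum_congr rfl fun t _ => ?_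
    rw [adjoint_inner_left]
    rfl
  rw [h3] at h1
  rw [tendsto_nhds_unique h1 h2, adjoint_inner_left]
  rfl

theorem cl_mul_right (h : ∀ t, ‖A t‖ ≤ C) (X : H →L[ℂ] H) :
    cl U (fun t => A t * X) = cl U A * X := by
  refine op_ext_inner fun ξ η => ?_
  have h1 := cl_spec (U := U) (A := fun t => A t * X) (C := C * ‖X‖)
    (fun t => (norm_mul_le _ _).trans (mul_le_mul_of_nonneg_right (h t) (norm_nonneg _))) ξ η
  have h2 := cl_spec (U := U) h ξ (X η)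
  have h3 : (fun N => ⟪ξ, cav (fun t => A t * X) N η⟫_ℂ) = fun N => ⟪ξ, cav A N (X η)⟫_ℂ := by
    funext N
    rw [inner_cav, inner_cav]
    rfl
  rw [h3] at h1
  exact tendsto_nhds_unique h1 h2

theorem cl_conj (h : ∀ t, ‖A t‖ ≤ C) (X Y : H →L[ℂ] H) :
    cl U (fun t => X * A t * Y) = X * cl U A * Y := by
  rw [cl_mul_right (A := fun t => X * A t) (C := ‖X‖ * C)
    (fun t => (norm_mul_le _ _).trans (mul_le_mul_of_nonneg_left (h t) (norm_nonneg _))),
    cl_mul_left h]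

theorem cl_smul (h : ∀ t, ‖A t‖ ≤ C) (c : ℂ) : cl U (fun t => c • A t) = c • cl U A := by
  have h1 := cl_mul_left (U := U) h (c • (1 : H →L[ℂ] H))
  simp only [smul_mul_assoc, one_mul] at h1
  exact h1

theorem cl_adj (h : ∀ t, ‖A t‖ ≤ C) : cl U (fun t => adjoint (A t)) = adjoint (cl U A) := by
  refine op_ext_inner fun ξ η => ?_
  have h1 := cl_spec (U := U) (A := fun t => adjoint (A t)) (C := C)
    (fun t => by rw [LinearIsometryEquiv.norm_map]; exact h t) ξ η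
  have h2 := (Complex.continuous_conj.tendsto _).comp (cl_spec (U := U) h η ξ)
  have h3 : (fun N => ⟪ξ, cav (fun t => adjoint (A t)) N η⟫_ℂ) =
      (starRingEnd ℂ) ∘ fun N => ⟪η, cav A N ξ⟫_ℂ := by
    funext N
    simp only [Function.comp]
    rw [inner_cav, inner_cav, map_mul, map_sum, map_inv₀, Complex.conj_ofReal]
    congr 1
    refine Finset.sum_congr rfl fun t _ => ?_
    rw [adjoint_inner_right, inner_conj_symm]
  rw [h3] at h1
  rw [tendsto_nhds_unique h1 h2, adjoint_inner_right]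
  exact inner_conj_symm _ _

/-- the shift -/
theorem cl_shift (hU : (U : Filter ℕ) ≤ atTop) (h : ∀ t, ‖A t‖ ≤ C) :
    cl U (fun t => A (t + 1)) = cl U A := by
  refine op_ext_inner fun ξ η => ?_
  have h1 := (cl_spec (U := U) (A := fun t => A (t + 1)) (fun t => h (t + 1)) ξ η).sub
    (cl_spec (U := U) h ξ η)
  have hC : 0 ≤ C := (norm_nonneg _).trans (h 0)
  have h2 : Tendsto (fun N => ⟪ξ, cav (fun t => A (t + 1)) N η⟫_ℂ - ⟪ξ, cav A N η⟫_ℂ) atTop
      (𝓝 0) := by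
    have h3 : ∀ N : ℕ, ‖⟪ξ, cav (fun t => A (t + 1)) N η⟫_ℂ - ⟪ξ, cav A N η⟫_ℂ‖ ≤
        (2 * (C * ‖ξ‖ * ‖η‖)) * (((N : ℝ) + 1))⁻¹ := by
      intro N
      rw [inner_cav, inner_cav, ← mul_sub]
      have h4 : ∑ t ∈ Finset.range (N + 1), ⟪ξ, A (t + 1) η⟫_ℂ -
          ∑ t ∈ Finset.range (N + 1), ⟪ξ, A t η⟫_ℂ = ⟪ξ, A (N + 1) η⟫_ℂ - ⟪ξ, A 0 η⟫_ℂ := by
        rw [← Finset.sum_sub_distrib, Finset.sum_range_sub (fun t => ⟪ξ, A t η⟫_ℂ)]
      rw [h4, norm_mul, norm_inv, Complex.norm_real, Real.norm_eq_abs, abs_of_pos (np N), mul_comm]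
      have h5 : ∀ t, ‖⟪ξ, A t η⟫_ℂ‖ ≤ C * ‖ξ‖ * ‖η‖ := fun t => by
        refine (norm_inner_le_norm _ _).trans ?_
        have := (A t).le_opNorm η
        have h6 := h t
        calc ‖ξ‖ * ‖A t η‖ ≤ ‖ξ‖ * (‖A t‖ * ‖η‖) := by gcongr
          _ ≤ ‖ξ‖ * (C * ‖η‖) := by gcongr
          _ = C * ‖ξ‖ * ‖η‖ := by ring
      gcongr
      exact (norm_sub_le _ _).trans (by linarith [h5 (N + 1), h5 0])
    refine squeeze_zero_norm h3 ?_
    have h4 : Tendsto (fun N : ℕ => ((N : ℝ) + 1)⁻¹) atTop (𝓝 0) :=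
      tendsto_inv_atTop_zero.comp (tendsto_atTop_add_const_right _ _ tendsto_natCast_atTop_atTop)
    simpa using h4.const_mul (2 * (C * ‖ξ‖ * ‖η‖))
  exact sub_eq_zero.mp (tendsto_nhds_unique h1 (h2.mono_left hU))

/-- a strongly convergent factor on the right -/
theorem cl_strong_right (hU : (U : Filter ℕ) ≤ atTop) (h : ∀ t, ‖A t‖ ≤ C)
    {E : ℕ → (H →L[ℂ] H)} {D : ℝ} (hE : ∀ t, ‖E t‖ ≤ D) {E0 : H →L[ℂ] H}
    (hs : ∀ ξ, Tendsto (fun t => E t ξ) atTop (𝓝 (E0 ξ))) :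
    cl U (fun t => A t * E t) = cl U A * E0 := by
  have hC : 0 ≤ C := (norm_nonneg _).trans (h 0)
  rw [← cl_mul_right h]
  refine cl_congr hU (C := C * D) (C' := C * ‖E0‖) (fun t => (norm_mul_le _ _).trans
    (mul_le_mul (h t) (hE t) (norm_nonneg _) hC)) (fun t => (norm_mul_le _ _).trans
    (mul_le_mul_of_nonneg_right (h t) (norm_nonneg _))) fun ξ η => ?_
  have h1 : ∀ t, ‖⟪ξ, (A t * E t) η⟫_ℂ - ⟪ξ, (A t * E0) η⟫_ℂ‖ ≤ (‖ξ‖ * C) * ‖E t η - E0 η‖ := by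
    intro t
    rw [← inner_sub_right]
    refine (norm_inner_le_norm _ _).trans ?_
    have h2 : (A t * E t) η - (A t * E0) η = A t (E t η - E0 η) := by
      rw [map_sub]; rfl
    rw [h2, mul_assoc]
    gcongr
    exact ((A t).le_opNorm _).trans (mul_le_mul_of_nonneg_right (h t) (norm_nonneg _))
  refine squeeze_zero_norm h1 ?_
  have h2 : Tendsto (fun t => E t η - E0 η) atTop (𝓝 0) := by
    simpa using (hs η).sub_const (E0 η)
  simpa using h2.norm.const_mul (‖ξ‖ * C)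

/-- a strongly convergent factor on the left (with strongly convergent adjoints) -/
theorem cl_strong_left (hU : (U : Filter ℕ) ≤ atTop) (h : ∀ t, ‖A t‖ ≤ C)
    {E : ℕ → (H →L[ℂ] H)} {D : ℝ} (hE : ∀ t, ‖E t‖ ≤ D) {E0 : H →L[ℂ] H}
    (hs : ∀ ξ, Tendsto (fun t => adjoint (E t) ξ) atTop (𝓝 (adjoint E0 ξ))) :
    cl U (fun t => E t * A t) = E0 * cl U A := by
  have h' : ∀ t, ‖adjoint (A t)‖ ≤ C := fun t => by
    rw [LinearIsometryEquiv.norm_map]; exact h t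
  have h1 := cl_strong_right (U := U) hU h' (E := fun t => adjoint (E t)) (D := D)
    (fun t => by rw [LinearIsometryEquiv.norm_map]; exact hE t) hs
  rw [cl_adj h] at h1
  have h2 := congrArg adjoint h1
  have h3 : ∀ X Y : H →L[ℂ] H, adjoint (X * Y) = adjoint Y * adjoint X := fun X Y => by
    rw [← star_eq_adjoint, star_mul]; rfl
  have hD : 0 ≤ D := (norm_nonneg _).trans (hE 0)
  have hC : 0 ≤ C := (norm_nonneg _).trans (h 0)
  rw [h3, adjoint_adjoint, adjoint_adjoint, ← cl_adj (C := C * D) (fun t => by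
    refine (norm_mul_le _ _).trans ?_
    rw [LinearIsometryEquiv.norm_map, LinearIsometryEquiv.norm_map]
    exact mul_le_mul (h t) (hE t) (norm_nonneg _) hC)] at h2
  rw [← h2]
  refine cl_congr' fun t => ?_
  rw [h3, adjoint_adjoint, adjoint_adjoint]

/-- operators which commute asymptotically with the sequence commute with the limit -/
theorem cl_comm (hU : (U : Filter ℕ) ≤ atTop) (h : ∀ t, ‖A t‖ ≤ C) {X : H →L[ℂ] H}
    (hd : ∀ ξ η : H, Tendsto (fun t => ⟪ξ, (X * A t) η⟫_ℂ - ⟪ξ, (A t * X) η⟫_ℂ) atTop (𝓝 0)) :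
    X * cl U A = cl U A * X := by
  rw [← cl_mul_left h, ← cl_mul_right h]
  exact cl_congr hU (C := ‖X‖ * C) (C' := C * ‖X‖)
    (fun t => (norm_mul_le _ _).trans (mul_le_mul_of_nonneg_left (h t) (norm_nonneg _)))
    (fun t => (norm_mul_le _ _).trans (mul_le_mul_of_nonneg_right (h t) (norm_nonneg _))) hd

theorem cl_comm' (h : ∀ t, ‖A t‖ ≤ C) {X : H →L[ℂ] H} (hd : ∀ t, X * A t = A t * X) :
    X * cl U A = cl U A * X := by
  rw [← cl_mul_left h, ← cl_mul_right h]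
  exact cl_congr' hd

theorem norm_cl_le (h : ∀ t, ‖A t‖ ≤ C) : ‖cl U A‖ ≤ C := by
  have hC : 0 ≤ C := (norm_nonneg _).trans (h 0)
  refine ContinuousLinearMap.opNorm_le_bound _ hC fun ξ => ?_
  by_contra hcon
  push Not at hcon
  have h1 := (cl_spec (U := U) h (cl U A ξ) ξ).norm
  have h2 : ∀ N, ‖⟪cl U A ξ, cav A N ξ⟫_ℂ‖ ≤ ‖cl U A ξ‖ * (C * ‖ξ‖) := fun N =>
    (norm_inner_le_norm _ _).trans (mul_le_mul_of_nonneg_left (((cav A N).le_opNorm ξ).trans
      (mul_le_mul_of_nonneg_right (norm_cav_le h N) (norm_nonneg _))) (norm_nonneg _))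
  have h3 := le_of_tendsto' h1 h2
  rw [inner_self_eq_norm_sq_to_K, norm_pow, RCLike.norm_ofReal, abs_norm] at h3
  have h6 : 0 < ‖cl U A ξ‖ := lt_of_le_of_lt (by positivity) hcon
  nlinarith

/-- lower bounds of the quadratic form -/
theorem le_cl (hU : (U : Filter ℕ) ≤ atTop) (h : ∀ t, ‖A t‖ ≤ C) {ξ : H} {c : ℝ}
    (hc : ∀ᶠ t in atTop, c ≤ (⟪ξ, A t ξ⟫_ℂ).re) : c ≤ (⟪ξ, cl U A ξ⟫_ℂ).re := by
  obtain ⟨n, hn⟩ := eventually_atTop.1 hc
  -- replace the first terms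
  obtain ⟨B, hB⟩ : ∃ B : ℕ → (H →L[ℂ] H), ∀ t, B t = A (t + n) := ⟨_, fun _ => rfl⟩
  have hsh : ∀ m, cl U (fun t => A (t + m)) = cl U A := by
    intro m
    induction m with
    | zero => rfl
    | succ m ih =>
      rw [← ih]
      have := cl_shift (U := U) hU (A := fun t => A (t + m)) (C := C) (fun t => h _)
      rw [← this]
      refine cl_congr' fun t => ?_
      congr 1
      omega
  rw [← hsh n]
  have h1 := (Complex.continuous_re.tendsto _).comp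
    (cl_spec (U := U) (A := fun t => A (t + n)) (fun t => h _) ξ ξ)
  refine ge_of_tendsto' h1 fun N => ?_
  simp only [Function.comp]
  rw [inner_cav]
  have h2 : ((((N : ℝ) + 1 : ℝ) : ℂ)⁻¹ * ∑ t ∈ Finset.range (N + 1), ⟪ξ, A (t + n) ξ⟫_ℂ).re =
      ((N : ℝ) + 1)⁻¹ * ∑ t ∈ Finset.range (N + 1), (⟪ξ, A (t + n) ξ⟫_ℂ).re := by
    rw [← Complex.ofReal_inv, Complex.re_ofReal_mul, Complex.re_sum]
  rw [h2, le_inv_mul_iff₀ (np N)]
  have h3 : ∑ t ∈ Finset.range (N + 1), c ≤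
      ∑ t ∈ Finset.range (N + 1), (⟪ξ, A (t + n) ξ⟫_ℂ).re :=
    Finset.sum_le_sum fun t _ => hn _ (by omega)
  rw [Finset.sum_const, Finset.card_range, nsmul_eq_mul] at h3
  push_cast at h3
  exact h3

/-- upper bounds of the quadratic form -/
theorem cl_le (hU : (U : Filter ℕ) ≤ atTop) (h : ∀ t, ‖A t‖ ≤ C) {ξ : H} {c : ℝ}
    (hc : ∀ᶠ t in atTop, (⟪ξ, A t ξ⟫_ℂ).re ≤ c) : (⟪ξ, cl U A ξ⟫_ℂ).re ≤ c := by
  have h1 := le_cl (U := U) hU (A := fun t => (-1 : ℂ) • A t) (C := C) (fun t => by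
    rw [norm_smul, norm_neg, norm_one, one_mul]; exact h t) (ξ := ξ) (c := -c) (by
    filter_upwards [hc] with t ht
    rw [ContinuousLinearMap.smul_apply, inner_smul_right]
    simp only [neg_mul, one_mul, Complex.neg_re]
    linarith)
  rw [cl_smul h, ContinuousLinearMap.smul_apply, inner_smul_right] at h1
  simp only [neg_mul, one_mul, Complex.neg_re] at h1
  linarith

theorem cl_eq_zero (hU : (U : Filter ℕ) ≤ atTop) (h : ∀ t, ‖A t‖ ≤ C)
    (hd : ∀ ξ η : H, Tendsto (fun t => ⟪ξ, A t η⟫_ℂ) atTop (𝓝 0)) : cl U A = 0 := by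
  rw [← cl_zero (U := U)]
  refine cl_congr hU h (C' := 0) (fun _ => by simp) fun ξ η => ?_
  simpa using hd ξ η

end Vale.Agent.P092.H242.Ces
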