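import Vale.Agent.P092.H242.Sct
import Vale.Agent.P092.H242.Hat3

/-!
P092 (helper242), Team C, block C-HAT: the geometry `CG` of the cones for a discrete subgroup of
`SL_(m+1)(k)`, from helper575's cones.
-/

set_option linter.all false

open Matrix Topology TopologicalSpace
open scoped Pointwise LinearAlgebra.Projectivization

namespace Vale.Agent.P092.H242.ConeG

open Vale.Agent.P092.RC Vale.Agent.P092.H575 Vale.Agent.P092.H820 Vale.Agent.P092.H933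
open Vale.Agent.P092.H242.Sct Vale.Agent.P092.H242.Hat

/-! ### Estimates for cone elements -/

section est

variable {k : Type} [NormedField k] [IsUltrametricDist k] {n : ℕ} {o : Fin n} {B : ℝ}
  {x c κ : (Matrix (Fin n) (Fin n) k)ˣ} {α z : kˣ}

theorem bd_nonneg {B : ℝ} {c : (Matrix (Fin n) (Fin n) k)ˣ} (h : Bd B c) (i : Fin n) : 0 ≤ B :=
  (norm_nonneg _).trans (h.1 i i)

/-- the rank one approximation of a cone element -/
theorem cf_rank (h : CF o B x c α κ z) (i j : Fin n) :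
    ‖x.1 i j - c.1 i o * ((z : k) * (α : k) * κ.1 o j)‖ ≤ ‖(z : k)‖ * B := by
  have hB0 := bd_nonneg h.bd i
  have h1 : x.1 i j = (z : k) * ∑ l, c.1 i l * (if l = o then (α : k) else 1) * κ.1 l j := by
    rw [h.eq, Matrix.smul_apply, smul_eq_mul, Units.val_mul, Units.val_mul, dg_val,
      Matrix.mul_apply]
    simp only [Matrix.mul_diagonal]
  rw [h1, ← Finset.add_sum_erase Finset.univ
    (fun l => c.1 i l * (if l = o then (α : k) else 1) * κ.1 l j) (Finset.mem_univ o)]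
  have h2 : (z : k) * (c.1 i o * (if o = o then (α : k) else 1) * κ.1 o j +
      ∑ l ∈ Finset.univ.erase o, c.1 i l * (if l = o then (α : k) else 1) * κ.1 l j) -
      c.1 i o * ((z : k) * (α : k) * κ.1 o j) =
      (z : k) * ∑ l ∈ Finset.univ.erase o,
        c.1 i l * (if l = o then (α : k) else 1) * κ.1 l j := by
    rw [if_pos rfl]; ring
  rw [h2, norm_mul]
  refine mul_le_mul_of_nonneg_left ?_ (norm_nonneg _)
  refine IsUltrametricDist.norm_sum_le_of_forall_le_of_nonneg hB0 fun l hl => ?_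
  rw [if_neg (Finset.ne_of_mem_erase hl), mul_one, norm_mul]
  calc ‖c.1 i l‖ * ‖κ.1 l j‖ ≤ B * 1 :=
        mul_le_mul (h.bd.1 i l) ((mem_KK.1 h.int).1 l j) (norm_nonneg _) hB0
    _ = B := mul_one B

theorem cf_nr (h : CF o B x c α κ z) {i : Fin n} (hi : ‖c.1 i o‖ = 1) :
    ‖(z : k)‖ * ‖(α : k)‖ ≤ nr x.1 := by
  have hz0 : 0 < ‖(z : k)‖ := norm_pos_iff.2 z.ne_zero
  have h1 : (c * dg o α).1 = ((z⁻¹ : kˣ) : k) • (x.1 * (κ⁻¹).1) := by
    rw [h.eq, Matrix.smul_mul, smul_smul, Units.inv_mul, one_smul, ← Units.val_mul]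
    congr 1
    group
  have h2 := congrFun (congrFun h1 i) o
  rw [Units.val_mul, dg_val, Matrix.mul_diagonal, if_pos rfl, Matrix.smul_apply,
    smul_eq_mul] at h2
  have h3 : ‖(x.1 * (κ⁻¹).1) i o‖ ≤ nr x.1 * 1 :=
    mul_entry_le' (nr_nonneg _) zero_le_one (entry_le_nr x.1) (mem_KK.1 h.int).2 i o
  have h4 := congrArg norm h2
  rw [norm_mul, norm_mul, hi, one_mul, norm_inv_unit] at h4
  rw [h4, ← mul_assoc, mul_inv_cancel₀ hz0.ne', one_mul]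
  rwa [mul_one] at h3

theorem exists_one (hw : ‖fun i => c.1 i o‖ = 1) : ∃ i, ‖c.1 i o‖ = 1 := by
  obtain ⟨i, hi⟩ := vec_exists (ne_of_norm_one hw)
  exact ⟨i, by rw [hw] at hi; exact hi⟩

theorem cf_NR (h : CF o B x c α κ z) (hw : ‖fun i => c.1 i o‖ = 1) :
    NR (B / ‖(α : k)‖) x.1 fun i => c.1 i o := by
  obtain ⟨i₀, hi₀⟩ := exists_one hw
  have hB0 := bd_nonneg h.bd i₀
  have hα0 : 0 < ‖(α : k)‖ := lt_of_lt_of_le one_pos h.one
  refine ⟨hw, _, fun i j => (cf_rank h i j).trans ?_⟩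
  calc ‖(z : k)‖ * B = B / ‖(α : k)‖ * (‖(z : k)‖ * ‖(α : k)‖) := by field_simp
    _ ≤ _ := mul_le_mul_of_nonneg_left (cf_nr h hi₀) (div_nonneg hB0 hα0.le)

theorem cf_q1 (hn : 1 < n) (h : CF o B x c α κ z) (hw : ‖fun i => c.1 i o‖ = 1) :
    ‖(α : k)‖ / B ≤ q1 hn x.1 := by
  obtain ⟨i₀, hi₀⟩ := exists_one hw
  haveI : Nonempty (Fin n) := ⟨i₀⟩
  have hB0 : 0 < B := lt_of_lt_of_le one_pos h.bd.one_le
  have hdet : x.1.det ≠ 0 := (Matrix.isUnits_det_units x).ne_zero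
  have h1 := sv_one_le hn (mul_nonneg (norm_nonneg _) hB0.le) (cf_rank h)
  rw [q1, le_div_iff₀ (sv_pos hdet _)]
  calc ‖(α : k)‖ / B * sv x.1 ⟨1, hn⟩ ≤ ‖(α : k)‖ / B * (‖(z : k)‖ * B) :=
        mul_le_mul_of_nonneg_left h1 (div_nonneg (norm_nonneg _) hB0.le)
    _ = ‖(z : k)‖ * ‖(α : k)‖ := by field_simp
    _ ≤ nr x.1 := cf_nr h hi₀
    _ ≤ _ := nr_le_sv x.1 (by omega)

theorem cf_inv_nr (h : CF o B x c α κ z) : nr (x⁻¹).1 ≤ ‖(z : k)‖⁻¹ * B := by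
  have hB0 := bd_nonneg h.bd o
  have hz0 : 0 ≤ ‖(z : k)‖⁻¹ := inv_nonneg.2 (norm_nonneg _)
  refine nr_le (mul_nonneg hz0 hB0) fun i j => ?_
  rw [inv_of_smul h.eq, Matrix.smul_apply, smul_eq_mul, norm_mul, norm_inv_unit]
  refine mul_le_mul_of_nonneg_left ?_ hz0
  have h1 : (c * dg o α * κ)⁻¹ = κ⁻¹ * (dg o α)⁻¹ * c⁻¹ := by group
  have h2 : Cl ((dg (ι := Fin n) o α)⁻¹).1 1 := by
    intro i j
    rw [dg_inv_val, Matrix.diagonal_apply]
    split_ifs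
    · rw [norm_inv_unit]; exact inv_le_one_of_one_le₀ h.one
    · rw [norm_one]
    · rw [norm_zero]; exact zero_le_one
  have h3 := (((mem_KK.1 h.int).2.mul h2).mul h.bd.2) i j
  rw [one_mul, one_mul] at h3
  rw [h1, Units.val_mul, Units.val_mul]
  exact h3

theorem inv_sv_le (hn : 0 < n) (γ : (Matrix (Fin n) (Fin n) k)ˣ) (l : Fin n) :
    (sv γ.1 l)⁻¹ ≤ nr (γ⁻¹).1 := by
  have h1 := congrFun (congrFun (car_inv γ) l) l
  rw [Matrix.diagonal_apply_eq] at h1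
  have h2 := congrArg norm h1
  rw [norm_inv] at h2
  rw [sv, ← h2]
  have h3 : ∀ i j, ‖((car γ.1).v * (γ⁻¹).1) i j‖ ≤ 1 * nr (γ⁻¹).1 :=
    mul_entry_le' zero_le_one (nr_nonneg _) (car γ.1).hv.le (entry_le_nr _)
  have h4 := mul_entry_le' (by rw [one_mul]; exact nr_nonneg _) zero_le_one h3 (car γ.1).hu.le l l
  rwa [one_mul, mul_one] at h4

theorem cf_q2 (hn : 1 < n) (h : CF o B x c α κ z) : q2 hn x.1 ≤ B * B := by
  haveI : Nonempty (Fin n) := ⟨o⟩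
  have hB0 : 0 < B := lt_of_lt_of_le one_pos h.bd.one_le
  have hz0 : 0 < ‖(z : k)‖ := norm_pos_iff.2 z.ne_zero
  have hdet : x.1.det ≠ 0 := (Matrix.isUnits_det_units x).ne_zero
  have h1 := sv_one_le hn (mul_nonneg (norm_nonneg _) hB0.le) (cf_rank h)
  have h2 := (inv_sv_le (by omega) x ⟨n - 1, by omega⟩).trans (cf_inv_nr h)
  have h3 : (‖(z : k)‖⁻¹ * B)⁻¹ ≤ sv x.1 ⟨n - 1, by omega⟩ :=
    inv_le_of_inv_le₀ (sv_pos hdet _) h2
  rw [q2, div_le_iff₀ (sv_pos hdet _)]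
  calc sv x.1 ⟨1, hn⟩ ≤ ‖(z : k)‖ * B := h1
    _ = B * B * (‖(z : k)‖⁻¹ * B)⁻¹ := by field_simp
    _ ≤ _ := mul_le_mul_of_nonneg_left h3 (by positivity)

end est

/-! ### Equality modulo finite sets -/

section fq

variable {Γ : Type}

/-- equality modulo finite sets -/
def Fq (S T : Set Γ) : Prop := (S \ T).Finite ∧ (T \ S).Finite

theorem Fq.symm {S T : Set Γ} (h : Fq S T) : Fq T S := ⟨h.2, h.1⟩

theorem diff_trans {S T R : Set Γ} (h1 : (S \ T).Finite) (h2 : (T \ R).Finite) :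
    (S \ R).Finite := by
  refine (h1.union h2).subset fun x hx => ?_
  by_cases h : x ∈ T
  · exact Or.inr ⟨h, hx.2⟩
  · exact Or.inl ⟨hx.1, h⟩

theorem Fq.trans {S T R : Set Γ} (h : Fq S T) (h' : Fq T R) : Fq S R :=
  ⟨diff_trans h.1 h'.1, diff_trans h'.2 h.2⟩

theorem Fq.smul [Group Γ] {S T : Set Γ} (h : Fq S T) (γ : Γ) : Fq (γ • S) (γ • T) := by
  constructor
  · rw [← Set.smul_set_sdiff]; exact h.1.smul_set
  · rw [← Set.smul_set_sdiff]; exact h.2.smul_set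

end fq

/-! ### The cones of a discrete subgroup -/

section cones

variable {k : Type} [NontriviallyNormedField k] [IsUltrametricDist k] {m : ℕ} {Γ : Type} [Group Γ]

/-- the base points of the cones: `s(y) diag(1, h)`, `y ∈ A` -/
def CSt (h : GL (Fin m) k) (A : Set (YY k m)) : Set (Matrix (Fin (m + 1)) (Fin (m + 1)) k)ˣ :=
  {c | ∃ y ∈ A, c = sg y * lf h}

/-- the elements of `Γ` in a cone -/
def Cn (q : Γ →* GG k m) (C : Set (Matrix (Fin (m + 1)) (Fin (m + 1)) k)ˣ) : Set Γ :=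
  {γ | tg (q γ) ∈ Cone (0 : Fin (m + 1)) 1 C}

/-- the cone over `Y × h U` -/
def CN (q : Γ →* GG k m) (h : PG k m) : Set Γ := Cn q (CSt h.out Set.univ)

/-- discreteness in `PGL` -/
def Dsc (q : Γ →* GG k m) : Prop := ∀ B : ℝ, {γ | ∃ (z : kˣ)
  (g : (Matrix (Fin (m + 1)) (Fin (m + 1)) k)ˣ), Bd B g ∧ (tg (q γ)).1 = (z : k) • g.1}.Finite

theorem col_cb (h : GL (Fin m) k) (y : YY k m) :
    (fun i => (sg y * lf h).1 i 0) = nv y := by
  funext i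
  rw [Sct.mulVec_single (sg y * lf h).1, Units.val_mul, ← Matrix.mulVec_mulVec]
  have h1 : (lf h).1 *ᵥ Pi.single 0 1 = (Pi.single 0 1 : Fin (m + 1) → k) := by
    funext j
    rw [← Sct.mulVec_single (lf h).1, lf_val]
    refine Fin.cases ?_ (fun j' => ?_) j
    · rw [lm_00]; simp
    · rw [lm_s0]; simp
  rw [h1, col_sg]

theorem bd_cb {h : GL (Fin m) k} {B : ℝ} (hB : 1 ≤ B) (hh : Bd B h) (y : YY k m) :
    Bd B (sg y * lf h) := by
  have := (bd_sg y).mul (bd_lf hB hh)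
  rwa [one_mul] at this

theorem bd_CSt {h : GL (Fin m) k} {B : ℝ} (hB : 1 ≤ B) (hh : Bd B h) (A : Set (YY k m)) :
    ∀ c ∈ CSt h A, Bd B c := by
  rintro c ⟨y, -, rfl⟩
  exact bd_cb hB hh y

variable {q : Γ →* GG k m} (hd : Dsc q)
include hd

/-- not far out: finite -/
theorem near_fin {C : Set (Matrix (Fin (m + 1)) (Fin (m + 1)) k)ˣ} {B : ℝ} (hB : 0 ≤ B)
    (hC : ∀ c ∈ C, Bd B c) (T : ℝ) :
    {γ | tg (q γ) ∈ Cone (0 : Fin (m + 1)) 1 C ∧ tg (q γ) ∉ Cone (0 : Fin (m + 1)) T C}.Finite :=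
  (hd (B * T)).subset fun _ h => cone_diff _ le_rfl hC hB h.1 h.2

/-- cones over sets with `C ⊆ C' Q` -/
theorem cone_fin (hm : 1 ≤ m) {C C' : Set (Matrix (Fin (m + 1)) (Fin (m + 1)) k)ˣ} {B : ℝ}
    (hB : 1 ≤ B) (hC : ∀ c ∈ C, Bd B c) (hC' : ∀ c ∈ C', Bd B c)
    (hsub : ∀ c ∈ C, ∃ c' ∈ C', ∃ p ∈ QQ (k := k) (0 : Fin (m + 1)), c = c' * p) :
    (Cn q C \ Cn q C').Finite := by
  have ha : (⟨1, by omega⟩ : Fin (m + 1)) ≠ 0 := by
    intro h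
    have := congrArg Fin.val h
    simp at this
  refine (near_fin hd (by linarith) hC (B ^ 4 * 1)).subset fun γ hγ => ⟨hγ.1, fun h => hγ.2 ?_⟩
  exact cone_sub (0 : Fin (m + 1)) ha hB hC hC' hsub le_rfl h

/-- two levels -/
theorem cone_fq (hm : 1 ≤ m) {C C' : Set (Matrix (Fin (m + 1)) (Fin (m + 1)) k)ˣ} {B : ℝ}
    (hB : 1 ≤ B) (hC : ∀ c ∈ C, Bd B c) (hC' : ∀ c ∈ C', Bd B c)
    (h1 : ∀ c ∈ C, ∃ c' ∈ C', ∃ p ∈ QQ (k := k) (0 : Fin (m + 1)), c = c' * p)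
    (h2 : ∀ c ∈ C', ∃ c' ∈ C, ∃ p ∈ QQ (k := k) (0 : Fin (m + 1)), c = c' * p) :
    Fq (Cn q C) (Cn q C') :=
  ⟨cone_fin hd hm hB hC hC' h1, cone_fin hd hm hB hC' hC h2⟩

end cones

/-! ### Invariance -/

section inv

variable {k : Type} [NontriviallyNormedField k] [IsUltrametricDist k] {m : ℕ} {Γ : Type} [Group Γ]
  {q : Γ →* GG k m}

theorem lf_QQ {g : GL (Fin m) k} (hg : mkP g ∈ UU k m) :
    lf g ∈ QQ (k := k) (0 : Fin (m + 1)) := by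
  rw [mem_QQ (lf_mem g), bl_lf]
  exact hg

theorem CSt_sub {h h' : GL (Fin m) k} (hh : mkP (h'⁻¹ * h) ∈ UU k m) (A : Set (YY k m)) :
    ∀ c ∈ CSt h A, ∃ c' ∈ CSt h' A, ∃ p ∈ QQ (k := k) (0 : Fin (m + 1)), c = c' * p := by
  rintro c ⟨y, hy, rfl⟩
  refine ⟨_, ⟨y, hy, rfl⟩, lf (h'⁻¹ * h), lf_QQ hh, ?_⟩
  rw [map_mul, map_inv]
  group

/-- the cone over `A × h U` depends only on `h U` -/
theorem fq_inv (hd : Dsc q) (hm : 1 ≤ m) {h h' : GL (Fin m) k} (hh : mkP (h'⁻¹ * h) ∈ UU k m)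
    (A : Set (YY k m)) : Fq (Cn q (CSt h A)) (Cn q (CSt h' A)) := by
  obtain ⟨B, hB, hb⟩ := exists_bd h
  obtain ⟨B', hB', hb'⟩ := exists_bd h'
  have hh' : mkP (h⁻¹ * h') ∈ UU k m := by
    have := (UU k m).inv_mem hh
    rwa [← mkP_inv, _root_.mul_inv_rev, inv_inv] at this
  exact cone_fq hd hm (le_max_of_le_left hB : 1 ≤ max B B')
    (bd_CSt (le_max_of_le_left hB) (hb.mono (le_max_left _ _)) A)
    (bd_CSt (le_max_of_le_left hB) (hb'.mono (le_max_right _ _)) A)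
    (CSt_sub hh A) (CSt_sub hh' A)

/-! ### Equivariance -/

theorem eqv_mem {g : GG k m} {y : YY k m} {h h' : GL (Fin m) k}
    (hy : (cc g y * mkP h)⁻¹ * mkP h' ∈ UU k m) :
    (lf h')⁻¹ * pc g y * lf h ∈ QQ (k := k) (0 : Fin (m + 1)) := by
  have h1 : (lf h')⁻¹ * pc g y * lf h ∈ PP (k := k) (0 : Fin (m + 1)) :=
    (PP _).mul_mem ((PP _).mul_mem ((PP _).inv_mem (lf_mem h')) (pc_mem g y)) (lf_mem h)
  rw [mem_QQ h1]
  have h2 : (⟨(lf h')⁻¹ * pc g y * lf h, h1⟩ : PP (k := k) (0 : Fin (m + 1))) =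
      (⟨lf h', lf_mem h'⟩)⁻¹ * ⟨pc g y, pc_mem g y⟩ * ⟨lf h, lf_mem h⟩ := rfl
  rw [h2, map_mul, map_mul, map_inv, bl_lf, bl_lf, mkP_mul, mkP_mul, mkP_inv, ← cc_eq]
  have h3 := (UU k m).inv_mem hy
  rwa [_root_.mul_inv_rev, inv_inv, ← mul_assoc] at h3

theorem fq_eqv (hd : Dsc q) (hm : 1 ≤ m) {γ₀ : Γ} {h h' : GL (Fin m) k} {A : Set (YY k m)}
    (hA : ∀ y ∈ A, (cc (q γ₀) y * mkP h)⁻¹ * mkP h' ∈ UU k m) :
    Fq (γ₀ • Cn q (CSt h A)) (Cn q (CSt h' ((fun y => (q γ₀)⁻¹ • y) ⁻¹' A))) := by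
  obtain ⟨B, hB, hb⟩ := exists_bd h
  obtain ⟨B', hB', hb'⟩ := exists_bd h'
  obtain ⟨B₀, hB₀, hb₀⟩ := exists_bd (tg (q γ₀))
  have e1 : γ₀ • Cn q (CSt h A) = Cn q ((fun x => tg (q γ₀) * x) '' CSt h A) := by
    ext γ
    rw [Set.mem_smul_set_iff_inv_smul_mem]
    show tg (q (γ₀⁻¹ * γ)) ∈ Cone (0 : Fin (m + 1)) 1 (CSt h A) ↔
      tg (q γ) ∈ Cone (0 : Fin (m + 1)) 1 ((fun x => tg (q γ₀) * x) '' CSt h A)
    rw [← cone_smul (0 : Fin (m + 1)) (tg (q γ₀)) (tg (q (γ₀⁻¹ * γ))), ← map_mul, ← map_mul,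
      mul_inv_cancel_left]
  rw [e1]
  refine cone_fq hd hm (B := max (B₀ * B) B')
    (le_max_of_le_left (by nlinarith)) ?_
    (bd_CSt (le_max_of_le_left (by nlinarith)) (hb'.mono (le_max_right _ _)) _) ?_ ?_
  · rintro _ ⟨c, hc, rfl⟩
    exact (hb₀.mul (bd_CSt hB hb A c hc)).mono (le_max_left _ _)
  · rintro _ ⟨c, ⟨y, hy, rfl⟩, rfl⟩
    refine ⟨sg (q γ₀ • y) * lf h', ⟨q γ₀ • y, ?_, rfl⟩, _, eqv_mem (hA y hy), ?_⟩
    · show (q γ₀)⁻¹ • q γ₀ • y ∈ A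
      rwa [inv_smul_smul]
    · show tg (q γ₀) * (sg y * lf h) = _
      rw [pc]
      group
  · rintro _ ⟨y', hy', rfl⟩
    obtain ⟨y, hy, rfl⟩ : ∃ y ∈ A, y' = q γ₀ • y := ⟨_, hy', (smul_inv_smul _ _).symm⟩
    refine ⟨tg (q γ₀) * (sg y * lf h), ⟨_, ⟨y, hy, rfl⟩, rfl⟩, _,
      (QQ (k := k) (0 : Fin (m + 1))).inv_mem (eqv_mem (hA y hy)), ?_⟩
    rw [pc]
    group

end inv

/-! ### Base points -/

section base

variable {k : Type} [NontriviallyNormedField k] [IsUltrametricDist k] [ProperSpace k] {m : ℕ}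
  {Γ : Type} [Group Γ] {q : Γ →* GG k m}

/-- the set of the elements with attracting point in `A` -/
def Bq (q : Γ →* GG k m) (G1 G2 : Γ → ℝ) (A : Set (YY k m)) : Set Γ :=
  {γ | G2 γ ≤ G1 γ ∧ bp (Nat.succ_pos m) (tg (q γ)) ∈ A}

variable {G1 G2 : Γ → ℝ} {hm1 : 1 < m + 1}
  (hG1 : ∀ R : ℝ, ∃ T : ℝ, ∀ γ, T ≤ q1 hm1 (tg (q γ)).1 → R ≤ G1 γ)
  (hG2 : ∀ R : ℝ, ∃ R' : ℝ, ∀ γ, q2 hm1 (tg (q γ)).1 ≤ R → G2 γ ≤ R')
include hG1 hG2

/-- far out, the attracting point of a cone element is the base point -/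
theorem base_far {A : Set (YY k m)} (hA : IsClopen A) {h : GL (Fin m) k} {B : ℝ} (hB : 1 ≤ B)
    (hb : Bd B h) : ∃ T : ℝ, 1 ≤ T ∧ ∀ γ : Γ, ∀ (y : YY k m) (α z : kˣ)
      (κ : (Matrix (Fin (m + 1)) (Fin (m + 1)) k)ˣ), T ≤ ‖(α : k)‖ → κ ∈ KK k (Fin (m + 1)) →
      (tg (q γ)).1 = (z : k) • (sg y * lf h * dg 0 α * κ).1 →
      G2 γ ≤ G1 γ ∧ (bp (Nat.succ_pos m) (tg (q γ)) ∈ A ↔ y ∈ A) := by
  obtain ⟨ε, hε, hε1, hcl⟩ := bp_close hA
  obtain ⟨R', hR'⟩ := hG2 (B * B)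
  obtain ⟨T₁, hT₁⟩ := hG1 R'
  have hB0 : 0 < B := by linarith
  refine ⟨max 1 (max (B / ε) (T₁ * B)), le_max_left _ _, ?_⟩
  intro γ y α z κ hα hκ he
  have hα1 : 1 ≤ ‖(α : k)‖ := (le_max_left _ _).trans hα
  have hα2 : B / ε ≤ ‖(α : k)‖ := ((le_max_left _ _).trans (le_max_right _ _)).trans hα
  have hα3 : T₁ * B ≤ ‖(α : k)‖ := ((le_max_right _ _).trans (le_max_right _ _)).trans hα
  have hα0 : 0 < ‖(α : k)‖ := by linarith
  have hcf : CF (0 : Fin (m + 1)) B (tg (q γ)) (sg y * lf h) α κ z :=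
    ⟨bd_cb hB hb y, hα1, hκ, he⟩
  have hw : ‖fun i => (sg y * lf h).1 i 0‖ = 1 := by rw [col_cb]; exact norm_nv y
  have hq1 := cf_q1 hm1 hcf hw
  constructor
  · have h1 := hR' γ (cf_q2 hm1 hcf)
    refine h1.trans (hT₁ γ (le_trans ?_ hq1))
    rwa [le_div_iff₀ hB0]
  · have h1 : B / ‖(α : k)‖ ≤ ε := by
      rw [div_le_iff₀ hα0]
      rw [div_le_iff₀ hε] at hα2
      linarith
    have h2 := (cf_NR hcf hw).mono h1
    have h3 := nr_bv' hm1 (tg (q γ))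
    have h4 : (q1 hm1 (tg (q γ)).1)⁻¹ ≤ ε := by
      refine le_trans ?_ h1
      rw [← inv_div]
      exact inv_anti₀ (by positivity) hq1
    have h5 := hcl (tg (q γ)).1 (unit_ne (Nat.succ_pos m) _)
      ⟨bv (by omega) (tg (q γ)).1, ne_of_norm_one (norm_bv (by omega) _)⟩
      ⟨fun i => (sg y * lf h).1 i 0, ne_of_norm_one hw⟩ (h3.mono h4) h2
    have h6 : pj k (Fin (m + 1)) ⟨fun i => (sg y * lf h).1 i 0, ne_of_norm_one hw⟩ = y := by
      conv_rhs => rw [← pj_nv y]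
      congr 1
      exact Subtype.ext (col_cb h y)
    rw [h6] at h5
    exact h5

/-- the part of the cone with attracting point in `A` is the cone over `A` -/
theorem fq_base (hd : Dsc q) {A : Set (YY k m)} (hA : IsClopen A) (h : GL (Fin m) k) :
    Fq (Cn q (CSt h Set.univ) ∩ Bq q G1 G2 A) (Cn q (CSt h A)) := by
  obtain ⟨B, hB, hb⟩ := exists_bd h
  obtain ⟨T, hT, hfar⟩ := base_far hG1 hG2 hA hB hb
  constructor
  · refine (near_fin hd (by linarith) (bd_CSt hB hb Set.univ) T).subset ?_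
    rintro γ ⟨⟨h1, h2⟩, h3⟩
    refine ⟨h1, fun h4 => h3 ?_⟩
    obtain ⟨_, ⟨y, -, rfl⟩, α, hα, κ, hκ, z, e⟩ := h4
    have h5 := (hfar γ y α z κ hα hκ e).2.1 h2.2
    exact ⟨_, ⟨y, h5, rfl⟩, α, hT.trans hα, κ, hκ, z, e⟩
  · refine (near_fin hd (by linarith) (bd_CSt hB hb A) T).subset ?_
    rintro γ ⟨h1, h2⟩
    refine ⟨h1, fun h4 => h2 ?_⟩
    obtain ⟨_, ⟨y, hy, rfl⟩, α, hα, κ, hκ, z, e⟩ := h4
    have h5 := hfar γ y α z κ hα hκ e
    exact ⟨⟨_, ⟨y, trivial, rfl⟩, α, hT.trans hα, κ, hκ, z, e⟩, h5.1, h5.2.2 hy⟩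

end base

/-! ### Disjointness -/

section disj

variable {k : Type} [NontriviallyNormedField k] [IsUltrametricDist k] {m : ℕ}

theorem norm_eq_of_close {a b : k} {r : ℝ} (hr : r < 1) (hb : ‖b‖ ≤ r) (ha : ‖a‖ ≤ 1) :
    ‖a + b‖ = 1 ↔ ‖a‖ = 1 := by
  constructor
  · intro h
    by_contra h1
    have h2 : ‖a‖ < 1 := lt_of_le_of_ne ha h1
    have h3 := IsUltrametricDist.norm_add_le_max a b
    rw [h] at h3
    rcases le_max_iff.1 h3 with h4 | h4 <;> linarith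
  · intro h
    have h1 : ‖b‖ < ‖a‖ := by rw [h]; linarith
    rw [IsUltrametricDist.norm_add_eq_max_of_norm_ne_norm h1.ne', max_eq_left h1.le, h]

/-- if `s(y)` and `s(y') u` differ by an element of `P`, this element is close to one -/
theorem close_one {r : ℝ} (hr0 : 0 ≤ r) (hr : r < 1) {y y' : YY k m}
    {u : (Matrix (Fin (m + 1)) (Fin (m + 1)) k)ˣ} (hu : Cl (u.1 - 1) r)
    (hP : (sg y)⁻¹ * sg y' * u ∈ PP (k := k) (0 : Fin (m + 1))) :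
    Cl (((sg y)⁻¹ * sg y' * u).1 - 1) r := by
  obtain ⟨w, hw⟩ : ∃ w, w = (sg y)⁻¹ * sg y' * u := ⟨_, rfl⟩
  rw [← hw] at hP ⊢
  have he : sg y * w = sg y' * u := by rw [hw]; group
  obtain ⟨E, hE⟩ : ∃ E, E = u.1 - 1 := ⟨_, rfl⟩
  have hu1 : u.1 = 1 + E := by rw [hE]; abel
  rw [← hE] at hu
  -- the first column
  have hcol : ∀ i, nv y i * w.1 0 0 = nv y' i + (sct y' * E) i 0 := by
    intro i
    have h0 : (sg y * w).1 = (sg y' * u).1 := by rw [he]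
    have h1 := congrFun (congrFun h0 i) 0
    rw [Units.val_mul, Units.val_mul, hu1, Matrix.mul_add, Matrix.mul_one, Matrix.add_apply,
      sg_val, sg_val, sct_zero, Matrix.mul_apply, Fin.sum_univ_succ, sct_zero] at h1
    rw [← h1]
    have h2 : ∑ j : Fin m, sct y i j.succ * w.1 j.succ 0 = 0 :=
      Finset.sum_eq_zero fun j _ => by rw [(mem_PP _).1 hP _ (Fin.succ_ne_zero j), mul_zero]
    rw [h2, add_zero]
  have hδ : ∀ i j, ‖(sct y' * E) i j‖ ≤ r := by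
    intro i j
    have := ((bd_sg y').1.mul hu) i j
    rwa [one_mul, sg_val] at this
  -- the norm of `w 0 0`
  have hw0 : ‖w.1 0 0‖ = 1 := by
    have h1 := hcol (ix y'.rep)
    rw [nv_ix] at h1
    have h2 : ‖nv y (ix y'.rep) * w.1 0 0‖ = 1 := by
      rw [h1, norm_eq_of_close hr (hδ _ _) (by rw [norm_one]), norm_one]
    have h3 : 1 ≤ ‖w.1 0 0‖ := by
      rw [← h2, norm_mul]
      exact mul_le_of_le_one_left (norm_nonneg _) (nv_le y _)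
    have h4 := hcol (ix y.rep)
    rw [nv_ix, one_mul] at h4
    refine le_antisymm ?_ h3
    rw [h4]
    exact (IsUltrametricDist.norm_add_le_max _ _).trans
      (max_le (nv_le y' _) ((hδ _ _).trans hr.le))
  have hix : ix y.rep = ix y'.rep := by
    refine ix_eq fun i => ?_
    have h1 : ‖nv y i‖ = ‖nv y' i + (sct y' * E) i 0‖ := by
      rw [← hcol, norm_mul, hw0, mul_one]
    rw [h1, norm_eq_of_close hr (hδ _ _) (nv_le y' i)]
  have hw1 : w.1 0 0 = 1 + (sct y' * E) (ix y.rep) 0 := by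
    have h1 := hcol (ix y.rep)
    rw [nv_ix, one_mul] at h1
    rw [h1]
    congr 1
    rw [hix, nv_ix]
  have hnv : ∀ i, ‖nv y' i - nv y i‖ ≤ r := by
    intro i
    have h1 : nv y' i - nv y i = nv y i * (sct y' * E) (ix y.rep) 0 - (sct y' * E) i 0 := by
      have h2 := hcol i
      rw [hw1] at h2
      linear_combination -h2
    rw [h1, sub_eq_add_neg]
    refine (IsUltrametricDist.norm_add_le_max _ _).trans (max_le ?_ ?_)
    · rw [norm_mul]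
      calc _ ≤ 1 * r := mul_le_mul (nv_le y i) (hδ _ _) (norm_nonneg _) zero_le_one
        _ = r := one_mul r
    · rw [norm_neg]; exact hδ _ _
  have hsub : Cl (sct y' - sct y) r := by
    intro i j
    rw [Matrix.sub_apply]
    refine Fin.cases ?_ (fun j' => ?_) j
    · rw [sct_zero, sct_zero]; exact hnv i
    · rw [sct_succ, sct_succ, hix, sub_self, norm_zero]; exact hr0
  have hw2 : w.1 - 1 = ((sg y)⁻¹).1 * (sct y' - sct y) * (1 + E) + E := by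
    have h1 : w.1 = ((sg y)⁻¹).1 * sct y' * (1 + E) := by
      rw [hw, Units.val_mul, Units.val_mul, hu1, sg_val]
    have h2 : ((sg y)⁻¹).1 * sct y = 1 := by rw [← sg_val, Units.inv_mul]
    rw [h1, mul_sub, h2, sub_mul, one_mul]
    abel
  rw [hw2]
  refine Cl.add ?_ hu
  have h1 := ((bd_sg y).2.mul hsub).mul (Cl.one.add (hu.mono hr.le))
  rwa [one_mul, mul_one] at h1

theorem cl_conj {B r : ℝ} {g x : (Matrix (Fin m) (Fin m) k)ˣ} (hg : Bd B g) (hx : Cl (x.1 - 1) r) :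
    Cl ((g * x * g⁻¹).1 - 1) (B * r * B) := by
  have : (g * x * g⁻¹).1 - 1 = g.1 * (x.1 - 1) * (g⁻¹).1 := by
    rw [mul_sub, sub_mul, mul_one, Units.mul_inv, Units.val_mul, Units.val_mul]
  rw [this]
  exact (hg.1.mul hx).mul hg.2

/-- integral, if close to one -/
theorem mem_KK_of_close {x : (Matrix (Fin m) (Fin m) k)ˣ} (h : Cl (x.1 - 1) 1)
    (h' : Cl ((x⁻¹).1 - 1) 1) : x ∈ KK k (Fin m) := by
  refine mem_KK.2 ⟨?_, ?_⟩
  · have : x.1 = (x.1 - 1) + 1 := by abel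
    rw [this]; exact h.add Cl.one
  · have : (x⁻¹).1 = ((x⁻¹).1 - 1) + 1 := by abel
    rw [this]; exact h'.add Cl.one

/-- the key statement for disjointness -/
theorem key_disj {B : ℝ} (hB : 1 ≤ B) {h h' : GL (Fin m) k} (hb : Bd B h)
    (hb' : Bd B h') {y y' : YY k m} {r : ℝ} (hr0 : 0 ≤ r) (hr : B ^ 4 * r ≤ 1 / 2)
    {u p : (Matrix (Fin (m + 1)) (Fin (m + 1)) k)ˣ} (hu : Cl (u.1 - 1) r)
    (hp : p ∈ QQ (k := k) (0 : Fin (m + 1))) (he : sg y * lf h = sg y' * lf h' * (u * p)) :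
    mkP (h⁻¹ * h') ∈ UU k m := by
  have hB0 : 0 < B := by linarith
  have hB2 : 1 ≤ B ^ 2 := one_le_pow₀ hB
  -- move `u` to the left
  obtain ⟨u', hu'⟩ : ∃ u', u' = lf h' * u * (lf h')⁻¹ := ⟨_, rfl⟩
  have hL : Bd B (lf h') := bd_lf hB hb'
  have hu'c : Cl (u'.1 - 1) (B * r * B) := by
    have : u'.1 - 1 = (lf h').1 * (u.1 - 1) * ((lf h')⁻¹).1 := by
      rw [mul_sub, sub_mul, mul_one, Units.mul_inv, hu', Units.val_mul, Units.val_mul]
    rw [this]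
    exact (hL.1.mul hu).mul hL.2
  obtain ⟨r', hr'⟩ : ∃ r', r' = B * r * B := ⟨_, rfl⟩
  rw [← hr'] at hu'c
  have hr'0 : 0 ≤ r' := by rw [hr']; positivity
  have hr'1 : B ^ 2 * r' ≤ 1 / 2 := by
    rw [hr']
    calc _ = B ^ 4 * r := by ring
      _ ≤ _ := hr
  have hr'2 : r' < 1 := by nlinarith
  have hw : (sg y)⁻¹ * sg y' * u' = lf h * p⁻¹ * (lf h')⁻¹ := by
    have h1 : lf h = (sg y)⁻¹ * (sg y' * lf h' * (u * p)) := by rw [← he]; group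
    rw [hu', h1]
    group
  have hPP : (sg y)⁻¹ * sg y' * u' ∈ PP (k := k) (0 : Fin (m + 1)) := by
    rw [hw]
    exact (PP _).mul_mem ((PP _).mul_mem (lf_mem h) ((PP _).inv_mem hp.1))
      ((PP _).inv_mem (lf_mem h'))
  have hc := close_one hr'0 hr'2 hu'c hPP
  have hci : Cl ((((sg y)⁻¹ * sg y' * u')⁻¹).1 - 1) r' := (cl_inv hr'0 hr'2 hc).2
  -- the block
  obtain ⟨w, hwd⟩ : ∃ w : (Matrix (Fin m) (Fin m) k)ˣ, w = bl ⟨(sg y)⁻¹ * sg y' * u', hPP⟩ :=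
    ⟨_, rfl⟩
  have hw1 : Cl (w.1 - 1) r' := by
    intro i j
    have h1 := hc i.succ j.succ
    rw [Matrix.sub_apply, Matrix.one_apply] at h1 ⊢
    rw [hwd, bl_val]
    simpa only [Fin.succ_inj] using h1
  have hw2 : Cl ((w⁻¹).1 - 1) r' := by
    intro i j
    have h1 := hci i.succ j.succ
    rw [Matrix.sub_apply, Matrix.one_apply] at h1 ⊢
    rw [hwd, bl_inv_val]
    simpa only [Fin.succ_inj] using h1
  have hwe : w = h * (bl ⟨p, hp.1⟩)⁻¹ * h'⁻¹ := by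
    have h1 : (⟨(sg y)⁻¹ * sg y' * u', hPP⟩ : PP (k := k) (0 : Fin (m + 1))) =
        ⟨lf h, lf_mem h⟩ * (⟨p, hp.1⟩)⁻¹ * (⟨lf h', lf_mem h'⟩)⁻¹ := Subtype.ext hw
    rw [hwd, h1, map_mul, map_mul, map_inv, map_inv, bl_lf, bl_lf]
  have hx : h'⁻¹ * w * h' ∈ KK k (Fin m) := by
    have hBr : B * r' * B ≤ 1 := by nlinarith
    have h1 := cl_conj hb'.inv hw1
    have h2 := cl_conj hb'.inv hw2
    rw [inv_inv] at h1 h2
    refine mem_KK_of_close (h1.mono hBr) ?_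
    have h3 : (h'⁻¹ * w * h')⁻¹ = h'⁻¹ * w⁻¹ * h' := by group
    rw [h3]
    exact h2.mono hBr
  have h4 : mkP (h'⁻¹ * w * h') ∈ UU k m := ⟨_, hx, rfl⟩
  have h5 : h'⁻¹ * w * h' = h'⁻¹ * h * (bl ⟨p, hp.1⟩)⁻¹ := by rw [hwe]; group
  have h6 : mkP (bl ⟨p, hp.1⟩) ∈ UU k m := (mem_QQ hp.1).1 hp
  rw [h5, mkP_mul, mkP_inv] at h4
  have h7 := (UU k m).mul_mem h4 h6
  rw [inv_mul_cancel_right] at h7
  have h8 := (UU k m).inv_mem h7
  rwa [← mkP_inv, _root_.mul_inv_rev, inv_inv] at h8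

variable {Γ : Type} [Group Γ] {q : Γ →* GG k m}

theorem fin_disj (hd : Dsc q) (hm : 2 ≤ m) {h h' : GL (Fin m) k} (hh : mkP (h⁻¹ * h') ∉ UU k m) :
    (Cn q (CSt h Set.univ) ∩ Cn q (CSt h' Set.univ)).Finite := by
  obtain ⟨B₁, hB₁, hb₁⟩ := exists_bd h
  obtain ⟨B₂, hB₂, hb₂⟩ := exists_bd h'
  obtain ⟨B, hBd⟩ : ∃ B, B = max B₁ B₂ := ⟨_, rfl⟩
  have hB : 1 ≤ B := by rw [hBd]; exact le_max_of_le_left hB₁
  have hb : Bd B h := hb₁.mono (by rw [hBd]; exact le_max_left _ _)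
  have hb' : Bd B h' := hb₂.mono (by rw [hBd]; exact le_max_right _ _)
  have hB0 : 0 < B := by linarith
  have ha : (⟨1, by omega⟩ : Fin (m + 1)) ≠ 0 := by
    intro h
    have := congrArg Fin.val h
    simp at this
  have hb0 : (⟨2, by omega⟩ : Fin (m + 1)) ≠ 0 := by
    intro h
    have := congrArg Fin.val h
    simp at this
  have hab : (⟨1, by omega⟩ : Fin (m + 1)) ≠ ⟨2, by omega⟩ := by
    intro h
    have := congrArg Fin.val h
    simp at this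
  have hr : 0 < 1 / (2 * B ^ 4) := by positivity
  obtain ⟨T, hT, hs⟩ := sep (k := k) (0 : Fin (m + 1)) ha hb0 hab (C := B * B) (by nlinarith) hr
  refine (near_fin hd (by linarith) (bd_CSt hB hb Set.univ) T).subset ?_
  rintro γ ⟨h1, h2⟩
  refine ⟨h1, fun h3 => hh ?_⟩
  obtain ⟨_, ⟨y, -, rfl⟩, α, hα, κ, hκ, z, e⟩ := h3
  obtain ⟨_, ⟨y', -, rfl⟩, β, hβ, κ', hκ', z', e'⟩ := h2
  obtain ⟨u, hu, p, hp, he⟩ := hs ((sg y' * lf h')⁻¹ * (sg y * lf h))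
    ((bd_cb hB hb' y').inv.mul (bd_cb hB hb y)) α β hα (z⁻¹ * z') (κ' * κ⁻¹)
    ((KK k _).mul_mem hκ' ((KK k _).inv_mem hκ)) (two_desc _ e e')
  refine key_disj hB hb hb' (y := y) (y' := y') hr.le (le_of_eq ?_) hu.1.2 hp ?_
  · field_simp
  · rw [← he]; group

end disj

/-! ### The geometry of the cones -/

section cg

open ContinuousLinearMap Filter

variable {k : Type} [NontriviallyNormedField k] [IsUltrametricDist k] [ProperSpace k] {m : ℕ}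
  {Γ : Type} [Group Γ] {q : Γ →* GG k m} {K : Type} [NormedAddCommGroup K]
  [InnerProductSpace ℂ K] [CompleteSpace K] {π : GG k m →* (K →L[ℂ] K)}
  {lam : Γ →* (K →L[ℂ] K)} {ms : Set Γ → (K →L[ℂ] K)} {b : GG k m}
  [ContinuousConstSMul (GG k m) (YY k m)] {G1 G2 : Γ → ℝ} {hm1 : 1 < m + 1}

theorem eqn_of_fq (P : Pic (fun γ => lam γ) ms (fun g => π g))
    (hn : ∀ γ : Γ, Nul ms (fun g => π g) b {γ}) {S T : Set Γ} (h : Fq S T) :
    Eqn ms (fun g => π g) b S T := ⟨P.nul_finite hn h.1, P.nul_finite hn h.2⟩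

/-- **The geometry of the cones.** -/
theorem cg_of (P : Pic (fun γ => lam γ) ms (fun g => π g))
    (hn : ∀ γ : Γ, Nul ms (fun g => π g) b {γ}) (hd : Dsc q) (hm : 2 ≤ m)
    (hG1 : ∀ R : ℝ, ∃ T : ℝ, ∀ γ, T ≤ q1 hm1 (tg (q γ)).1 → R ≤ G1 γ)
    (hG2 : ∀ R : ℝ, ∃ R' : ℝ, ∀ γ, q2 hm1 (tg (q γ)).1 ≤ R → G2 γ ≤ R') :
    CG ms π b q cc (UU k m) (fun A => Bq q G1 G2 (A : Set (YY k m))) (CN q) where
  inv h u hu := eqn_of_fq P hn (fq_inv hd (by omega) (by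
    rw [mkP_mul, mkP_inv, mkP_out, mkP_out, inv_mul_cancel_left]
    exact hu) Set.univ)
  disj h h' hh := P.nul_finite hn (fin_disj hd hm (by
    rw [mkP_mul, mkP_inv, mkP_out, mkP_out]
    exact hh))
  eqv γ h h' C hC := by
    refine eqn_of_fq P hn ?_
    have h1 := (fq_base hG1 hG2 hd C.isClopen h.out).smul γ
    have h2 := fq_base hG1 hG2 hd (sm (q γ) C).isClopen h'.out
    refine h1.trans (Fq.trans ?_ h2.symm)
    refine fq_eqv hd (by omega) fun y hy => ?_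
    rw [mkP_out, mkP_out]
    exact hC y hy

end cg

end Vale.Agent.P092.H242.ConeG
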