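import Vale.Agent.P092.H242.ConeG
import Vale.Agent.P092.H575.Geo5

/-!
P092 (helper242), Team C, block C-HAT: the cover of `{G2 ≤ R}` by finitely many cones, and the
gap functions `g1`, `g2`.
-/

set_option linter.all false

open Matrix Topology TopologicalSpace
open scoped Pointwise LinearAlgebra.Projectivization

namespace Vale.Agent.P092.H242.ConeG

open Vale.Agent.P092.RC Vale.Agent.P092.H575 Vale.Agent.P092.H820 Vale.Agent.P092.H933
open Vale.Agent.P092.H242.Sct Vale.Agent.P092.H242.Hat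

section cover

variable {k : Type} [NontriviallyNormedField k] [IsUltrametricDist k] {m : ℕ}

/-- every invertible matrix is `s(y) p` with `p` in the stabiliser -/
theorem exists_base (c : (Matrix (Fin (m + 1)) (Fin (m + 1)) k)ˣ) :
    ∃ y : YY k m, (sg y)⁻¹ * c ∈ PP (k := k) (0 : Fin (m + 1)) := by
  have hv : c.1 *ᵥ Pi.single 0 1 ≠ 0 := by
    intro h
    have h1 : (c⁻¹).1 *ᵥ (c.1 *ᵥ Pi.single 0 1) = (Pi.single 0 1 : Fin (m + 1) → k) := by
      rw [Matrix.mulVec_mulVec, Units.inv_mul, Matrix.one_mulVec]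
    rw [h, Matrix.mulVec_zero] at h1
    have := congrFun h1 0
    simp at this
  obtain ⟨y, hy⟩ : ∃ y : YY k m, y = Projectivization.mk k _ hv := ⟨_, rfl⟩
  refine ⟨y, ?_⟩
  have h2 := mk_nv y
  have h3 : Projectivization.mk k (nv y) (nv_ne y) = Projectivization.mk k _ hv := by
    rw [h2, hy]
  obtain ⟨a, ha⟩ := (Projectivization.mk_eq_mk_iff' k _ _ _ _).1 h3.symm
  rw [mem_PP]
  intro i hi
  rw [Sct.mulVec_single ((sg y)⁻¹ * c).1, Units.val_mul, ← Matrix.mulVec_mulVec, ← ha,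
    Matrix.mulVec_smul, ← col_sg y, Matrix.mulVec_mulVec, Units.inv_mul, Matrix.one_mulVec]
  simp [hi]

theorem bd_bl {R : ℝ} {p : (Matrix (Fin (m + 1)) (Fin (m + 1)) k)ˣ}
    (hp : p ∈ PP (k := k) (0 : Fin (m + 1))) (h : Bd R p) : Bd R (bl ⟨p, hp⟩) :=
  ⟨fun i j => by rw [bl_val]; exact h.1 _ _, fun i j => by rw [bl_inv_val]; exact h.2 _ _⟩

variable [ProperSpace k]

theorem isCompact_bd (R : ℝ) : IsCompact {x : (Matrix (Fin m) (Fin m) k)ˣ | Bd R x} := by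
  have c1 : Continuous fun x : (Matrix (Fin m) (Fin m) k)ˣ => x.1 := Units.continuous_val
  have c2 : Continuous fun x : (Matrix (Fin m) (Fin m) k)ˣ => (x⁻¹).1 :=
    Units.continuous_val.comp continuous_inv
  have hcl : IsClosed {x : (Matrix (Fin m) (Fin m) k)ˣ | Bd R x} := by
    have h : {x : (Matrix (Fin m) (Fin m) k)ˣ | Bd R x} =
        (fun x : (Matrix (Fin m) (Fin m) k)ˣ => x.1) ⁻¹' {A | Cl A R} ∩
        (fun x : (Matrix (Fin m) (Fin m) k)ˣ => (x⁻¹).1) ⁻¹' {A | Cl A R} := rfl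
    rw [h]
    exact (isClosed_cl.preimage c1).inter (isClosed_cl.preimage c2)
  have h1 : IsCompact ({A : Matrix (Fin m) (Fin m) k | Cl A R} ×ˢ
      (MulOpposite.op '' {A : Matrix (Fin m) (Fin m) k | Cl A R})) :=
    isCompact_cl.prod (isCompact_cl.image MulOpposite.continuous_op)
  have h2 := (Units.isClosedEmbedding_embedProduct
    (α := Matrix (Fin m) (Fin m) k)).isCompact_preimage h1
  refine h2.of_isClosed_subset hcl ?_
  rintro x ⟨hx, hx'⟩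
  exact ⟨hx, ⟨_, hx', rfl⟩⟩

/-- finitely many cosets of `U` meet the bounded elements -/
theorem fin_cosets (R : ℝ) : ∃ H : Finset (PG k m), ∀ x : (Matrix (Fin m) (Fin m) k)ˣ, Bd R x →
    ∃ h ∈ H, h⁻¹ * mkP x ∈ UU k m := by
  have hK : IsCompact ((fun x : (Matrix (Fin m) (Fin m) k)ˣ => (mkP x : PG k m)) ''
      {x | Bd R x}) := (isCompact_bd R).image QuotientGroup.continuous_mk
  have hU : IsOpen (UU k m : Set (PG k m)) := cos_UU.2
  obtain ⟨t, -, ht⟩ := hK.elim_nhds_subcover (fun g => {x | g⁻¹ * x ∈ UU k m}) fun g _ => by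
    refine (hU.preimage (continuous_const_smul g⁻¹)).mem_nhds ?_
    show g⁻¹ * g ∈ UU k m
    rw [inv_mul_cancel]
    exact (UU k m).one_mem
  refine ⟨t, fun x hx => ?_⟩
  have h1 := ht ⟨x, hx, rfl⟩
  simp only [Set.mem_iUnion] at h1
  obtain ⟨g, hg, hgx⟩ := h1
  exact ⟨g, hg, hgx⟩

variable {Γ : Type} [Group Γ] {q : Γ →* GG k m}

/-- **Cover** -/
theorem cover_fin (hd : Dsc q) (hm : 1 ≤ m) {R : ℝ} (hR : 1 ≤ R) : ∃ H : Finset (PG k m),
    (Cn q {c | Bd R c} \ ⋃ h ∈ H, CN q h).Finite := by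
  classical
  obtain ⟨H, hH⟩ := fin_cosets (k := k) (m := m) R
  refine ⟨H, ?_⟩
  -- a common bound
  have hB : ∃ B : ℝ, 1 ≤ B ∧ ∀ h ∈ H, Bd B (h.out : GL (Fin m) k) := by
    clear hH
    induction H using Finset.induction_on with
    | empty => exact ⟨1, le_rfl, fun h hh => absurd hh (Finset.notMem_empty h)⟩
    | insert a s ha ih =>
      obtain ⟨B, hB, hb⟩ := ih
      obtain ⟨B', hB', hb'⟩ := exists_bd (a.out : GL (Fin m) k)
      refine ⟨max B B', le_max_of_le_left hB, fun h hh => ?_⟩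
      rcases Finset.mem_insert.1 hh with rfl | hh
      · exact hb'.mono (le_max_right _ _)
      · exact (hb h hh).mono (le_max_left _ _)
  obtain ⟨B, hB, hb⟩ := hB
  set C' : Set (Matrix (Fin (m + 1)) (Fin (m + 1)) k)ˣ :=
    {c | ∃ h ∈ H, c ∈ CSt (h.out : GL (Fin m) k) Set.univ} with hC'
  have h1 := cone_fin hd hm (C := {c | Bd R c}) (C' := C') (B := max R B)
    (le_max_of_le_left hR) (fun c hc => Bd.mono hc (le_max_left _ _)) ?_ ?_
  · refine h1.subset fun γ hγ => ⟨hγ.1, fun h2 => hγ.2 ?_⟩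
    obtain ⟨c, ⟨h, hh, hc⟩, h3⟩ := h2
    simp only [Set.mem_iUnion]
    exact ⟨h, hh, c, hc, h3⟩
  · rintro c ⟨h, hh, hc⟩
    exact (bd_CSt hB (hb h hh) _ c hc).mono (le_max_right _ _)
  · intro c hc
    obtain ⟨y, hy⟩ := exists_base c
    have hp : Bd R ((sg y)⁻¹ * c) := by
      have := (bd_sg y).inv.mul hc
      rwa [one_mul] at this
    obtain ⟨h, hh, hu⟩ := hH _ (bd_bl hy hp)
    refine ⟨sg y * lf h.out, ⟨h, hh, y, trivial, rfl⟩, (lf h.out)⁻¹ * ((sg y)⁻¹ * c), ?_, by group⟩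
    have h2 : (lf h.out)⁻¹ * ((sg y)⁻¹ * c) ∈ PP (k := k) (0 : Fin (m + 1)) :=
      (PP _).mul_mem ((PP _).inv_mem (lf_mem _)) hy
    rw [mem_QQ h2]
    have h3 : (⟨(lf h.out)⁻¹ * ((sg y)⁻¹ * c), h2⟩ : PP (k := k) (0 : Fin (m + 1))) =
        (⟨lf h.out, lf_mem _⟩)⁻¹ * ⟨(sg y)⁻¹ * c, hy⟩ := rfl
    rw [h3, map_mul, map_inv, bl_lf, mkP_mul, mkP_inv, mkP_out]
    exact hu

theorem wall_sub {hm1 : 1 < m + 1} {R : ℝ} (hR : 1 ≤ R) {γ : Γ}
    (h : q2 hm1 (tg (q γ)).1 ≤ R) : γ ∈ Cn q {c | Bd R c} := by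
  have hdet : (tg (q γ)).1.det ≠ 0 := (Matrix.isUnits_det_units _).ne_zero
  refine mem_cone (by omega) hR (tg (q γ)) (fun i => ?_) ?_
  · rw [q2, div_le_iff₀ (sv_pos hdet _)] at h
    refine h.trans (mul_le_mul_of_nonneg_left (sv_anti _ (Fin.le_def.2 ?_)) (by linarith))
    show (i : ℕ) ≤ m + 1 - 1
    have := i.2
    omega
  · rw [one_mul]
    exact sv_anti _ (Fin.le_def.2 (Nat.zero_le _))

/-- the cover of the wall region -/
theorem wall_cover (hd : Dsc q) {hm1 : 1 < m + 1} {G2 : Γ → ℝ} {r R : ℝ}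
    (hG : ∀ γ, G2 γ ≤ r → q2 hm1 (tg (q γ)).1 ≤ R) :
    ∃ H : Finset (PG k m), ({γ | G2 γ ≤ r} \ ⋃ h ∈ H, CN q h).Finite := by
  obtain ⟨H, hH⟩ := cover_fin hd (by omega) (le_max_left 1 R)
  refine ⟨H, hH.subset fun γ hγ => ⟨?_, hγ.2⟩⟩
  exact wall_sub (le_max_left _ _) ((hG γ hγ.1).trans (le_max_right _ _))

end cover

section gaps

variable {k : Type} [NontriviallyNormedField k] [IsUltrametricDist k] {m : ℕ} {Γ : Type} [Group Γ]
  {q : Γ →* GG k m} {hm1 : 1 < m + 1}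

theorem g1_q1 (γ : Γ) : g1 (q γ).1 = Real.log (q1 hm1 (Sct.tg (q γ)).1) :=
  g1_eq_log hm1 (Sct.tg (q γ))

theorem g2_q2 (γ : Γ) : g2 (q γ).1 = Real.log (q2 hm1 (Sct.tg (q γ)).1) :=
  g2_eq_log hm1 (Sct.tg (q γ))

theorem hG1_g1 (R : ℝ) : ∃ T : ℝ, ∀ γ : Γ, T ≤ q1 hm1 (Sct.tg (q γ)).1 → R ≤ g1 (q γ).1 := by
  refine ⟨Real.exp R, fun γ h => ?_⟩
  rw [g1_q1 (hm1 := hm1)]
  exact (Real.le_log_iff_exp_le (lt_of_lt_of_le (Real.exp_pos R) h)).2 h

theorem hG2_g2 (R : ℝ) : ∃ R' : ℝ, ∀ γ : Γ, q2 hm1 (Sct.tg (q γ)).1 ≤ R → g2 (q γ).1 ≤ R' := by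
  refine ⟨Real.log R, fun γ h => ?_⟩
  rw [g2_q2 (hm1 := hm1)]
  exact Real.log_le_log (q2_pos hm1 _) h

theorem hG2_inv (r : ℝ) (γ : Γ) (h : g2 (q γ).1 ≤ r) : q2 hm1 (Sct.tg (q γ)).1 ≤ Real.exp r := by
  rw [g2_q2 (hm1 := hm1)] at h
  exact (Real.log_le_iff_le_exp (q2_pos hm1 _)).1 h

end gaps

/-- discreteness from `Emb` -/
theorem dsc_of {k : Type} [NontriviallyNormedField k] [IsUltrametricDist k] [ProperSpace k]
    {m : ℕ} {Γ : Type} [Group Γ] {q : Γ →* GG k m} (hq : Emb q) : Dsc q := fun B =>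
  sl_fin (Nat.succ_pos m) q hq.inj hq.lat.disc B

end Vale.Agent.P092.H242.ConeG
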