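import Vale.Agent.P092.H242.TPair
import Vale.Agent.P092.H761.RankDefs

/-!
P092 (helper242): the pairing families of helper761 are the data of the pairing lemma.
-/

set_option linter.all false

open Filter Topology

namespace Vale.Agent.P092.H242

open Vale.Agent.P092.H538 (Usm)
open Vale.Agent.P092.H761 (PairFam)
open Vale.Agent.P092.H859 (BB)

theorem pdata_of_pairFam {Γ : Type} [Group Γ] [DecidableEq Γ] {U : Ultrafilter ℕ} {S : Finset Γ}
    {ε : ℝ} {B : Finset Γ} {F H : ℕ → Γ → Γ → ℝ} (h : PairFam U S ε B F H) :
    PData U S ε B F H where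
  a0 := h.nonnegF
  b0 := h.nonnegH
  aoff := h.offF
  boff := h.offH
  a1 := h.sumF
  b1 := h.sumH
  left := by
    intro s hs
    have h1 : BB B s = B ∪ B.image (fun b => s⁻¹ * b) := by
      ext x
      simp only [BB, Finset.mem_union, Finset.mem_image]
    rw [h1]
    exact h.left s hs
  right := h.right

end Vale.Agent.P092.H242
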