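import Vale.Agent.P092.H242.Ces

/-!
P092 (helper242), Team C, block C-HAT: the Cesàro limits `Ê(S) = lim (1/N) ∑_{t<N} R(b^t)* m(S) R(b^t)`
of multiplication operators along a sequence `b^t` of the source group.  Only sets modulo null sets
matter; `Ê` is additive, covariant, commutes with `R b` and with the elements contracted by `b`, and
strong limits `E(T)` of `R(b^t)* m(T) R(b^t)` satisfy `E(T) Ê(S) = Ê(S ∩ T) = Ê(S) E(T)`.
-/

set_option linter.all false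

open scoped InnerProductSpace Pointwise
open Filter Topology ContinuousLinearMap

namespace Vale.Agent.P092.H242.Hat

open Vale.Agent.P092.H242.Ces

variable {K : Type} [NormedAddCommGroup K] [InnerProductSpace ℂ K] [CompleteSpace K]
  {Γ D : Type} [Group Γ] [Group D]

/-- The picture on one Hilbert space: multiplication operators `m S`, `S ⊆ Γ`, left translations
`lx`, and a representation `R` of the source group (by partial isometries with support `R 1`). -/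
structure Pic (lx : Γ → (K →L[ℂ] K)) (m : Set Γ → (K →L[ℂ] K)) (R : D → (K →L[ℂ] K)) :
    Prop where
  m_adj : ∀ S, adjoint (m S) = m S
  m_inter : ∀ S T, m (S ∩ T) = m S * m T
  m_compl : ∀ S, m Sᶜ = 1 - m S
  R_mul : ∀ v w, R (v * w) = R v * R w
  R_adj : ∀ v, adjoint (R v) = R v⁻¹
  lx_mul : ∀ s t, lx (s * t) = lx s * lx t
  lx_one : lx 1 = 1
  lx_adj : ∀ s, adjoint (lx s) = lx s⁻¹
  lx_R : ∀ s v, lx s * R v = R v * lx s
  lx_m : ∀ s S, lx s * m S * lx s⁻¹ = m (s • S)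

variable {lx : Γ → (K →L[ℂ] K)} {m : Set Γ → (K →L[ℂ] K)} {R : D → (K →L[ℂ] K)}
  {U : Ultrafilter ℕ} {b : D}

theorem adj_mul (S T : K →L[ℂ] K) : adjoint (S * T) = adjoint T * adjoint S := by
  rw [← star_eq_adjoint, star_mul]; rfl

namespace Pic

variable (P : Pic lx m R)
include P

theorem m_self (S : Set Γ) : m S * m S = m S := by rw [← P.m_inter, Set.inter_self]

theorem m_empty : m ∅ = 0 := by
  have h1 : m (∅ ∩ ∅ᶜ) = m ∅ * (1 - m ∅) := by rw [P.m_inter, P.m_compl]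
  rw [Set.inter_compl_self, mul_sub, mul_one, P.m_self, sub_self] at h1
  exact h1

theorem m_univ : m Set.univ = 1 := by
  rw [← Set.compl_empty, P.m_compl, P.m_empty, sub_zero]

theorem m_comm (S T : Set Γ) : m S * m T = m T * m S := by
  rw [← P.m_inter, ← P.m_inter, Set.inter_comm]

theorem m_union {S T : Set Γ} (h : Disjoint S T) : m (S ∪ T) = m S + m T := by
  have h1 : m (S ∪ T)ᶜ = (1 - m S) * (1 - m T) := by
    rw [Set.compl_union, P.m_inter, P.m_compl, P.m_compl]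
  have h3 : m S * m T = 0 := by rw [← P.m_inter, h.inter_eq, P.m_empty]
  have h4 : (1 - m S) * (1 - m T) = 1 - m S - m T + m S * m T := by noncomm_ring
  rw [P.m_compl, h4, h3, add_zero] at h1
  have h2 := congrArg (fun X => 1 - X) h1
  simp only [sub_sub_cancel] at h2
  rw [h2]
  abel

theorem m_split (S T : Set Γ) : m S = m (S ∩ T) + m (S \ T) := by
  rw [← P.m_union (Set.disjoint_left.mpr fun x hx hx' => hx'.2 hx.2), Set.inter_union_sdiff]

theorem norm_m_le (S : Set Γ) : ‖m S‖ ≤ 1 := by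
  have h1 : ‖m S‖ * ‖m S‖ = ‖m S‖ := by
    have h2 := CStarRing.norm_star_mul_self (x := m S)
    rw [star_eq_adjoint, P.m_adj, P.m_self] at h2
    exact h2.symm
  rcases (norm_nonneg (m S)).eq_or_lt with h | h
  · rw [← h]; exact zero_le_one
  · exact (mul_left_cancel₀ h.ne' (h1.trans (mul_one _).symm)).le

theorem inner_m (S : Set Γ) (ξ : K) : (⟪ξ, m S ξ⟫_ℂ).re = ‖m S ξ‖ ^ 2 := by
  have h1 : ⟪ξ, m S ξ⟫_ℂ = ⟪m S ξ, m S ξ⟫_ℂ := by
    conv_lhs => rw [← P.m_self S, ← P.m_adj S]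
    change ⟪ξ, adjoint (m S) (adjoint (m S) ξ)⟫_ℂ = _
    rw [adjoint_inner_right, P.m_adj]
  rw [h1, inner_self_eq_norm_sq_to_K]
  norm_cast

theorem m_mono {S T : Set Γ} (h : S ⊆ T) (ξ : K) : ‖m S ξ‖ ≤ ‖m T ξ‖ := by
  have h1 : m S * m T = m S := by rw [← P.m_inter, Set.inter_eq_left.mpr h]
  have h2 : m S ξ = m S (m T ξ) := by rw [← ContinuousLinearMap.mul_apply, h1]
  rw [h2]
  exact ((m S).le_opNorm _).trans (by
    have := P.norm_m_le S
    nlinarith [norm_nonneg (m T ξ)])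

theorem one_R (v : D) : R 1 * R v = R v := by rw [← P.R_mul, one_mul]

theorem R_one (v : D) : R v * R 1 = R v := by rw [← P.R_mul, mul_one]

theorem inv_R (v : D) : R v⁻¹ * R v = R 1 := by rw [← P.R_mul, inv_mul_cancel]

theorem norm_R_one : ‖R 1‖ ≤ 1 := by
  have h1 : ‖R 1‖ * ‖R 1‖ = ‖R 1‖ := by
    have h2 := CStarRing.norm_star_mul_self (x := R 1)
    rw [star_eq_adjoint, P.R_adj, inv_one, P.one_R] at h2
    exact h2.symm
  rcases (norm_nonneg (R 1)).eq_or_lt with h | h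
  · rw [← h]; exact zero_le_one
  · exact (mul_left_cancel₀ h.ne' (h1.trans (mul_one _).symm)).le

theorem norm_R (v : D) : ‖R v‖ ≤ 1 := by
  have h2 := CStarRing.norm_star_mul_self (x := R v)
  rw [star_eq_adjoint, P.R_adj, P.inv_R] at h2
  have h3 := P.norm_R_one
  nlinarith [norm_nonneg (R v)]

theorem norm_R_apply (v : D) (ξ : K) : ‖R v ξ‖ ≤ ‖ξ‖ := by
  refine ((R v).le_opNorm ξ).trans ?_
  have := P.norm_R v
  nlinarith [norm_nonneg ξ]

theorem norm_m_apply (S : Set Γ) (ξ : K) : ‖m S ξ‖ ≤ ‖ξ‖ := by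
  refine ((m S).le_opNorm ξ).trans ?_
  have := P.norm_m_le S
  nlinarith [norm_nonneg ξ]

end Pic

/-- `R(v)* m(S) R(v)` -/
noncomputable def Pt (m : Set Γ → (K →L[ℂ] K)) (R : D → (K →L[ℂ] K)) (v : D) (S : Set Γ) :
    K →L[ℂ] K := R v⁻¹ * m S * R v

/-- The Cesàro limit. -/
noncomputable def Eh (m : Set Γ → (K →L[ℂ] K)) (R : D → (K →L[ℂ] K)) (U : Ultrafilter ℕ) (b : D)
    (S : Set Γ) : K →L[ℂ] K := cl U (fun t => Pt m R (b ^ t) S)

/-- `S` has asymptotically no mass along `b^t`. -/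
def Nul (m : Set Γ → (K →L[ℂ] K)) (R : D → (K →L[ℂ] K)) (b : D) (S : Set Γ) : Prop :=
  ∀ ξ : K, Tendsto (fun t : ℕ => m S (R (b ^ t) ξ)) atTop (𝓝 0)

namespace Pic

variable (P : Pic lx m R)
include P

theorem norm_Pt (v : D) (S : Set Γ) : ‖Pt m R v S‖ ≤ 1 := by
  refine (norm_mul_le _ _).trans ?_
  have h1 := P.norm_R v
  have h2 : ‖R v⁻¹ * m S‖ ≤ 1 := (norm_mul_le _ _).trans
    (mul_le_one₀ (P.norm_R _) (norm_nonneg _) (P.norm_m_le S))
  exact mul_le_one₀ h2 (norm_nonneg _) h1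

theorem inner_Pt (v : D) (S : Set Γ) (ξ η : K) :
    ⟪ξ, Pt m R v S η⟫_ℂ = ⟪R v ξ, m S (R v η)⟫_ℂ := by
  have h1 : Pt m R v S η = adjoint (R v) (m S (R v η)) := by
    rw [P.R_adj]; rfl
  rw [h1, adjoint_inner_right]

theorem inner_Pt_re (v : D) (S : Set Γ) (ξ : K) :
    (⟪ξ, Pt m R v S ξ⟫_ℂ).re = ‖m S (R v ξ)‖ ^ 2 := by
  rw [P.inner_Pt, P.inner_m]

theorem adj_Pt (v : D) (S : Set Γ) : adjoint (Pt m R v S) = Pt m R v S := by
  rw [Pt, adj_mul, adj_mul, P.m_adj, P.R_adj, P.R_adj, inv_inv, mul_assoc]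

theorem nul_mono {S T : Set Γ} (h : S ⊆ T) (hT : Nul m R b T) : Nul m R b S := fun ξ =>
  squeeze_zero_norm (fun t => P.m_mono h _) (by simpa using (hT ξ).norm)

theorem nul_union {S T : Set Γ} (hS : Nul m R b S) (hT : Nul m R b T) : Nul m R b (S ∪ T) := by
  intro ξ
  have h1 : ∀ η, m (S ∪ T) η = m S η + m (T \ S) η := fun η => by
    rw [← Set.union_sdiff_self, P.m_union (Set.disjoint_sdiff_right)]; rfl
  simp only [h1]
  simpa using (hS ξ).add (P.nul_mono Set.sdiff_subset hT ξ)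

theorem nul_empty : Nul m R b ∅ := fun ξ => by
  rw [P.m_empty]; simp

theorem nul_finite (h : ∀ g : Γ, Nul m R b {g}) {S : Set Γ} (hS : S.Finite) : Nul m R b S := by
  induction S, hS using Set.Finite.induction_on with
  | empty => exact P.nul_empty
  | insert _ _ ih => rw [Set.insert_eq]; exact P.nul_union (h _) ih

theorem Eh_congr (hU : (U : Filter ℕ) ≤ atTop) {S T : Set Γ} (h1 : Nul m R b (S \ T))
    (h2 : Nul m R b (T \ S)) : Eh m R U b S = Eh m R U b T := by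
  refine cl_congr hU (fun t => P.norm_Pt _ S) (fun t => P.norm_Pt _ T) fun ξ η => ?_
  have h3 : ∀ t, ⟪ξ, Pt m R (b ^ t) S η⟫_ℂ - ⟪ξ, Pt m R (b ^ t) T η⟫_ℂ =
      ⟪R (b ^ t) ξ, m (S \ T) (R (b ^ t) η)⟫_ℂ - ⟪R (b ^ t) ξ, m (T \ S) (R (b ^ t) η)⟫_ℂ := by
    intro t
    rw [P.inner_Pt, P.inner_Pt, P.m_split S T, P.m_split T S, Set.inter_comm T S,
      ContinuousLinearMap.add_apply, ContinuousLinearMap.add_apply, inner_add_right,
      inner_add_right]
    ring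
  simp only [h3]
  have h4 : ∀ Z : Set Γ, Nul m R b Z →
      Tendsto (fun t : ℕ => ⟪R (b ^ t) ξ, m Z (R (b ^ t) η)⟫_ℂ) atTop (𝓝 0) := by
    intro Z hZ
    refine squeeze_zero_norm (fun t => (norm_inner_le_norm _ _).trans
      (mul_le_mul_of_nonneg_right (P.norm_R_apply (b ^ t) ξ) (norm_nonneg _))) ?_
    simpa using (hZ η).norm.const_mul ‖ξ‖
  simpa using (h4 _ h1).sub (h4 _ h2)

theorem Eh_null (hU : (U : Filter ℕ) ≤ atTop) {S : Set Γ} (h : Nul m R b S) :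
    Eh m R U b S = 0 := by
  have h1 : Eh m R U b ∅ = 0 := by
    have : (fun t : ℕ => Pt m R (b ^ t) (∅ : Set Γ)) = fun _ => 0 := by
      funext t; rw [Pt, P.m_empty, mul_zero, zero_mul]
    rw [Eh, this]; exact cl_zero
  rw [← h1]
  exact P.Eh_congr hU (P.nul_mono Set.sdiff_subset h) (by simpa using P.nul_empty)

theorem Eh_empty (hU : (U : Filter ℕ) ≤ atTop) : Eh m R U b (∅ : Set Γ) = 0 :=
  P.Eh_null hU P.nul_empty

theorem Eh_adj (S : Set Γ) : adjoint (Eh m R U b S) = Eh m R U b S := by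
  rw [Eh, ← cl_adj (fun t => P.norm_Pt _ S)]
  exact cl_congr' fun t => P.adj_Pt _ _

theorem norm_Eh (S : Set Γ) : ‖Eh m R U b S‖ ≤ 1 := norm_cl_le fun t => P.norm_Pt _ S

theorem Eh_union (hU : (U : Filter ℕ) ≤ atTop) {S T : Set Γ} (h : Nul m R b (S ∩ T)) :
    Eh m R U b (S ∪ T) = Eh m R U b S + Eh m R U b T := by
  have h1 : Eh m R U b T = Eh m R U b (T \ S) := by
    refine P.Eh_congr hU ?_ ?_
    · rw [Set.sdiff_sdiff_right_self, Set.inter_comm]; exact h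
    · have : (T \ S) \ T = ∅ := by ext x; simp
      rw [this]; exact P.nul_empty
  rw [h1, Eh, Eh, Eh, ← cl_add (fun t => P.norm_Pt _ S) (fun t => P.norm_Pt _ (T \ S))]
  refine cl_congr' fun t => ?_
  rw [Pt, Pt, Pt, ← Set.union_sdiff_self, P.m_union Set.disjoint_sdiff_right, mul_add, add_mul]

theorem Eh_biUnion (hU : (U : Filter ℕ) ≤ atTop) {α : Type*} (F : Finset α) {S : α → Set Γ}
    (h : ∀ i ∈ F, ∀ j ∈ F, i ≠ j → Nul m R b (S i ∩ S j)) :
    Eh m R U b (⋃ i ∈ F, S i) = ∑ i ∈ F, Eh m R U b (S i) := by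
  classical
  induction F using Finset.induction_on with
  | empty => simp [P.Eh_empty hU]
  | insert a F ha ih =>
    rw [Finset.sum_insert ha, ← ih fun i hi j hj => h i (Finset.mem_insert_of_mem hi) j
      (Finset.mem_insert_of_mem hj), ← P.Eh_union hU, Finset.set_biUnion_insert]
    rw [Set.inter_iUnion₂]
    have h2 : ∀ G : Finset α, (∀ i ∈ G, Nul m R b (S a ∩ S i)) →
        Nul m R b (⋃ i ∈ G, S a ∩ S i) := by
      intro G
      induction G using Finset.induction_on with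
      | empty => intro _; simpa using P.nul_empty
      | insert c G hc ih' =>
        intro hG
        rw [Finset.set_biUnion_insert]
        exact P.nul_union (hG c (Finset.mem_insert_self c G))
          (ih' fun i hi => hG i (Finset.mem_insert_of_mem hi))
    exact h2 F fun i hi => h a (Finset.mem_insert_self a F) i (Finset.mem_insert_of_mem hi)
      (fun e => ha (e ▸ hi))

theorem Eh_nonneg (hU : (U : Filter ℕ) ≤ atTop) (S : Set Γ) (ξ : K) :
    0 ≤ (⟪ξ, Eh m R U b S ξ⟫_ℂ).re :=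
  le_cl hU (fun t => P.norm_Pt _ S) (Eventually.of_forall fun t => by
    rw [P.inner_Pt_re]; positivity)

theorem Eh_le (hU : (U : Filter ℕ) ≤ atTop) (S : Set Γ) (ξ : K) :
    (⟪ξ, Eh m R U b S ξ⟫_ℂ).re ≤ ‖ξ‖ ^ 2 :=
  cl_le hU (fun t => P.norm_Pt _ S) (Eventually.of_forall fun t => by
    rw [P.inner_Pt_re]
    exact pow_le_pow_left₀ (norm_nonneg _) ((P.norm_m_apply _ _).trans (P.norm_R_apply _ _)) 2)

theorem Eh_mono (hU : (U : Filter ℕ) ≤ atTop) {S T : Set Γ} (h : Nul m R b (S \ T)) (ξ : K) :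
    (⟪ξ, Eh m R U b S ξ⟫_ℂ).re ≤ (⟪ξ, Eh m R U b T ξ⟫_ℂ).re := by
  have h1 : Eh m R U b S = Eh m R U b (S ∩ T) := by
    refine P.Eh_congr hU ?_ ?_
    · have : S \ (S ∩ T) = S \ T := by ext x; simp
      rw [this]; exact h
    · have : (S ∩ T) \ S = ∅ := by ext x; simp; tauto
      rw [this]; exact P.nul_empty
  have h2 : Eh m R U b T = Eh m R U b (S ∩ T) + Eh m R U b (T \ S) := by
    rw [← P.Eh_union hU, Set.inter_comm S T, Set.inter_union_sdiff]
    have : S ∩ T ∩ (T \ S) = ∅ := by ext x; simp; tauto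
    rw [this]; exact P.nul_empty
  rw [h1, h2, ContinuousLinearMap.add_apply, inner_add_right, Complex.add_re]
  have := P.Eh_nonneg (b := b) hU (T \ S) ξ
  linarith

/-- sums over almost disjoint families are at most one -/
theorem Eh_sum_le (hU : (U : Filter ℕ) ≤ atTop) {α : Type*} (F : Finset α) {S : α → Set Γ}
    (h : ∀ i ∈ F, ∀ j ∈ F, i ≠ j → Nul m R b (S i ∩ S j)) (ξ : K) :
    ∑ i ∈ F, (⟪ξ, Eh m R U b (S i) ξ⟫_ℂ).re ≤ ‖ξ‖ ^ 2 := by
  have h1 := P.Eh_le (b := b) hU (⋃ i ∈ F, S i) ξ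
  rw [P.Eh_biUnion hU F h, ContinuousLinearMap.sum_apply, inner_sum, Complex.re_sum] at h1
  exact h1

/-- covariance under the left translations -/
theorem Eh_lx (s : Γ) (S : Set Γ) :
    lx s * Eh m R U b S * lx s⁻¹ = Eh m R U b (s • S) := by
  rw [Eh, ← cl_conj (fun t => P.norm_Pt _ S)]
  refine cl_congr' fun t => ?_
  rw [Pt, Pt, ← P.lx_m]
  calc lx s * (R (b ^ t)⁻¹ * m S * R (b ^ t)) * lx s⁻¹ =
      (lx s * R (b ^ t)⁻¹) * m S * (R (b ^ t) * lx s⁻¹) := by simp only [mul_assoc]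
    _ = (R (b ^ t)⁻¹ * lx s) * m S * (lx s⁻¹ * R (b ^ t)) := by rw [P.lx_R, P.lx_R]
    _ = _ := by simp only [mul_assoc]

/-- an operator commuting with all `R(b^t)* m(S) R(b^t)` -/
theorem Eh_comm {X : K →L[ℂ] K} {S : Set Γ} (h : ∀ t : ℕ, X * Pt m R (b ^ t) S = Pt m R (b ^ t) S * X) :
    X * Eh m R U b S = Eh m R U b S * X := cl_comm' (fun t => P.norm_Pt _ S) h

/-- an operator normalised by `R`, all of whose conjugates commute with `m` -/
theorem Eh_comm_of {X : K →L[ℂ] K} {S : Set Γ} (h : ∀ t : ℕ, ∃ X', R (b ^ t) * X = X' * R (b ^ t) ∧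
    R (b ^ t)⁻¹ * X' = X * R (b ^ t)⁻¹ ∧ X' * m S = m S * X') :
    X * Eh m R U b S = Eh m R U b S * X := by
  refine P.Eh_comm fun t => ?_
  obtain ⟨X', h1, h2, h3⟩ := h t
  rw [Pt]
  calc X * (R (b ^ t)⁻¹ * m S * R (b ^ t)) = (X * R (b ^ t)⁻¹) * m S * R (b ^ t) := by
        simp only [mul_assoc]
    _ = R (b ^ t)⁻¹ * (X' * m S) * R (b ^ t) := by rw [← h2]; simp only [mul_assoc]
    _ = R (b ^ t)⁻¹ * m S * (X' * R (b ^ t)) := by rw [h3]; simp only [mul_assoc]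
    _ = _ := by rw [← h1]; simp only [mul_assoc]

/-- elements of the source group which are contracted by `b` into the stabiliser of `m` -/
theorem Eh_R (hU : (U : Filter ℕ) ≤ atTop) {d : D} {S : Set Γ}
    (h : ∀ᶠ t : ℕ in atTop, R (b ^ t * d * (b ^ t)⁻¹) * m S = m S * R (b ^ t * d * (b ^ t)⁻¹)) :
    R d * Eh m R U b S = Eh m R U b S * R d := by
  refine cl_comm hU (fun t => P.norm_Pt _ S) fun ξ η => ?_
  refine tendsto_const_nhds.congr' ?_
  filter_upwards [h] with t ht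
  have h1 : R d * Pt m R (b ^ t) S = Pt m R (b ^ t) S * R d := by
    have e1 : R d * R (b ^ t)⁻¹ = R (b ^ t)⁻¹ * R (b ^ t * d * (b ^ t)⁻¹) := by
      rw [← P.R_mul, ← P.R_mul]
      congr 1
      group
    have e2 : R (b ^ t * d * (b ^ t)⁻¹) * R (b ^ t) = R (b ^ t) * R d := by
      rw [← P.R_mul, ← P.R_mul]
      congr 1
      group
    rw [Pt]
    calc R d * (R (b ^ t)⁻¹ * m S * R (b ^ t)) = (R d * R (b ^ t)⁻¹) * m S * R (b ^ t) := by
          simp only [mul_assoc]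
      _ = R (b ^ t)⁻¹ * (R (b ^ t * d * (b ^ t)⁻¹) * m S) * R (b ^ t) := by
          rw [e1]; simp only [mul_assoc]
      _ = R (b ^ t)⁻¹ * m S * (R (b ^ t * d * (b ^ t)⁻¹) * R (b ^ t)) := by
          rw [ht]; simp only [mul_assoc]
      _ = _ := by rw [e2]; simp only [mul_assoc]
  rw [h1, sub_self]

/-- asymptotic version -/
theorem Eh_R' (hU : (U : Filter ℕ) ≤ atTop) {d : D} {S : Set Γ}
    (h : ∀ ξ : K, Tendsto (fun t : ℕ => (R (b ^ t * d * (b ^ t)⁻¹) * m S -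
      m S * R (b ^ t * d * (b ^ t)⁻¹)) (R (b ^ t) ξ)) atTop (𝓝 0)) :
    R d * Eh m R U b S = Eh m R U b S * R d := by
  refine cl_comm hU (fun t => P.norm_Pt _ S) fun ξ η => ?_
  have h1 : ∀ t : ℕ, ⟪ξ, (R d * Pt m R (b ^ t) S) η⟫_ℂ - ⟪ξ, (Pt m R (b ^ t) S * R d) η⟫_ℂ =
      ⟪R (b ^ t) ξ, (R (b ^ t * d * (b ^ t)⁻¹) * m S - m S * R (b ^ t * d * (b ^ t)⁻¹))
        (R (b ^ t) η)⟫_ℂ := by
    intro t
    have e1 : R d * R (b ^ t)⁻¹ = R (b ^ t)⁻¹ * R (b ^ t * d * (b ^ t)⁻¹) := by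
      rw [← P.R_mul, ← P.R_mul]
      congr 1
      group
    have e2 : R (b ^ t * d * (b ^ t)⁻¹) * R (b ^ t) = R (b ^ t) * R d := by
      rw [← P.R_mul, ← P.R_mul]
      congr 1
      group
    have e3 : R d * Pt m R (b ^ t) S - Pt m R (b ^ t) S * R d = adjoint (R (b ^ t)) *
        ((R (b ^ t * d * (b ^ t)⁻¹) * m S - m S * R (b ^ t * d * (b ^ t)⁻¹)) * R (b ^ t)) := by
      rw [P.R_adj, Pt, sub_mul, mul_sub]
      congr 1
      · calc R d * (R (b ^ t)⁻¹ * m S * R (b ^ t)) = (R d * R (b ^ t)⁻¹) * m S * R (b ^ t) := by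
              simp only [mul_assoc]
          _ = _ := by rw [e1]; simp only [mul_assoc]
      · calc R (b ^ t)⁻¹ * m S * R (b ^ t) * R d = R (b ^ t)⁻¹ * m S * (R (b ^ t) * R d) := by
              simp only [mul_assoc]
          _ = _ := by rw [← e2]; simp only [mul_assoc]
    rw [← inner_sub_right, ← ContinuousLinearMap.sub_apply, e3]
    change ⟪ξ, adjoint (R (b ^ t)) _⟫_ℂ = _
    rw [adjoint_inner_right]
    rfl
  simp only [h1]
  refine squeeze_zero_norm (fun t => (norm_inner_le_norm _ _).trans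
    (mul_le_mul_of_nonneg_right (P.norm_R_apply (b ^ t) ξ) (norm_nonneg _))) ?_
  simpa using (h η).norm.const_mul ‖ξ‖

/-- the limit commutes with `R b` -/
theorem Eh_b (hU : (U : Filter ℕ) ≤ atTop) (S : Set Γ) :
    R b * Eh m R U b S = Eh m R U b S * R b := by
  have h1 : R b⁻¹ * Eh m R U b S * R b = Eh m R U b S := by
    rw [Eh, ← cl_conj (fun t => P.norm_Pt _ S)]
    refine Eq.trans (cl_congr' fun t => ?_) (cl_shift hU (fun t => P.norm_Pt _ S))
    rw [Pt, Pt]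
    have e1 : R b⁻¹ * R (b ^ t)⁻¹ = R (b ^ (t + 1))⁻¹ := by
      rw [← P.R_mul, pow_succ, mul_inv_rev]
    have e2 : R (b ^ t) * R b = R (b ^ (t + 1)) := by
      rw [← P.R_mul, pow_succ]
    rw [← e1, ← e2]
    simp only [mul_assoc]
  have h2 : R 1 * Eh m R U b S = Eh m R U b S := by
    rw [Eh, ← cl_mul_left (fun t => P.norm_Pt _ S)]
    refine cl_congr' fun t => ?_
    rw [Pt, ← mul_assoc, ← mul_assoc, P.one_R]
  calc R b * Eh m R U b S = R b * (R b⁻¹ * Eh m R U b S * R b) := by rw [h1]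
    _ = (R b * R b⁻¹) * Eh m R U b S * R b := by simp only [mul_assoc]
    _ = R 1 * Eh m R U b S * R b := by rw [← P.R_mul, mul_inv_cancel]
    _ = _ := by rw [h2]

theorem Eh_binv (hU : (U : Filter ℕ) ≤ atTop) (S : Set Γ) :
    R b⁻¹ * Eh m R U b S = Eh m R U b S * R b⁻¹ := by
  have h1 := congrArg adjoint (P.Eh_b (b := b) hU S)
  rw [adj_mul, adj_mul, P.R_adj, P.Eh_adj] at h1
  exact h1.symm

/-- strong limits may be taken out (right version) -/
theorem Eh_mul (hU : (U : Filter ℕ) ≤ atTop) {S T : Set Γ} {E : K →L[ℂ] K}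
    (hs : ∀ ξ, Tendsto (fun t : ℕ => Pt m R (b ^ t) T ξ) atTop (𝓝 (E ξ)))
    (hp : ∀ ξ : K, Tendsto (fun t : ℕ => (R 1 * m T - m T * R 1) (R (b ^ t) ξ)) atTop (𝓝 0)) :
    Eh m R U b S * E = Eh m R U b (S ∩ T) := by
  rw [Eh, Eh, ← cl_strong_right hU (fun t => P.norm_Pt _ S) (fun t => P.norm_Pt _ T) hs]
  refine cl_congr hU (C := 1) (C' := 1) (fun t => (norm_mul_le _ _).trans
    (mul_le_one₀ (P.norm_Pt _ _) (norm_nonneg _) (P.norm_Pt _ _))) (fun t => P.norm_Pt _ _)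
    fun ξ η => ?_
  have h1 : ∀ t : ℕ, ⟪ξ, (Pt m R (b ^ t) S * Pt m R (b ^ t) T) η⟫_ℂ -
      ⟪ξ, Pt m R (b ^ t) (S ∩ T) η⟫_ℂ =
      ⟪m S (R (b ^ t) ξ), (R 1 * m T - m T * R 1) (R (b ^ t) η)⟫_ℂ := by
    intro t
    have e3 : Pt m R (b ^ t) S * Pt m R (b ^ t) T - Pt m R (b ^ t) (S ∩ T) =
        adjoint (R (b ^ t)) * (m S * ((R 1 * m T - m T * R 1) * R (b ^ t))) := by
      rw [P.R_adj, Pt, Pt, Pt, sub_mul, mul_sub, mul_sub, P.m_inter]
      congr 1
      · calc R (b ^ t)⁻¹ * m S * R (b ^ t) * (R (b ^ t)⁻¹ * m T * R (b ^ t)) =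
            R (b ^ t)⁻¹ * m S * (R (b ^ t) * R (b ^ t)⁻¹) * m T * R (b ^ t) := by
              simp only [mul_assoc]
          _ = _ := by rw [← P.R_mul, mul_inv_cancel]; simp only [mul_assoc]
      · have : m T * R 1 * R (b ^ t) = m T * R (b ^ t) := by rw [mul_assoc, P.one_R]
        rw [this]
        simp only [mul_assoc]
    rw [← inner_sub_right, ← ContinuousLinearMap.sub_apply, e3]
    change ⟪ξ, adjoint (R (b ^ t)) _⟫_ℂ = _
    rw [adjoint_inner_right]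
    change ⟪R (b ^ t) ξ, m S _⟫_ℂ = _
    rw [← adjoint_inner_left, P.m_adj]
    rfl
  simp only [h1]
  refine squeeze_zero_norm (fun t => (norm_inner_le_norm _ _).trans
    (mul_le_mul_of_nonneg_right ((P.norm_m_apply _ _).trans (P.norm_R_apply (b ^ t) ξ))
    (norm_nonneg _))) ?_
  simpa using (hp η).norm.const_mul ‖ξ‖

theorem adj_strong {T : Set Γ} {E : K →L[ℂ] K}
    (hs : ∀ ξ, Tendsto (fun t : ℕ => Pt m R (b ^ t) T ξ) atTop (𝓝 (E ξ))) : adjoint E = E := by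
  refine (ContinuousLinearMap.ext fun η => ext_inner_left ℂ fun ξ => ?_)
  rw [adjoint_inner_right]
  have h1 : Tendsto (fun t : ℕ => ⟪Pt m R (b ^ t) T ξ, η⟫_ℂ) atTop (𝓝 ⟪E ξ, η⟫_ℂ) :=
    (hs ξ).inner tendsto_const_nhds
  have h2 : Tendsto (fun t : ℕ => ⟪ξ, Pt m R (b ^ t) T η⟫_ℂ) atTop (𝓝 ⟪ξ, E η⟫_ℂ) :=
    tendsto_const_nhds.inner (hs η)
  have h3 : ∀ t : ℕ, ⟪Pt m R (b ^ t) T ξ, η⟫_ℂ = ⟪ξ, Pt m R (b ^ t) T η⟫_ℂ := fun t => by
    rw [← adjoint_inner_right, P.adj_Pt]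
  simp only [h3] at h1
  exact tendsto_nhds_unique h1 h2

theorem Eh_mul' (hU : (U : Filter ℕ) ≤ atTop) {S T : Set Γ} {E : K →L[ℂ] K}
    (hs : ∀ ξ, Tendsto (fun t : ℕ => Pt m R (b ^ t) T ξ) atTop (𝓝 (E ξ)))
    (hp : ∀ ξ : K, Tendsto (fun t : ℕ => (R 1 * m T - m T * R 1) (R (b ^ t) ξ)) atTop (𝓝 0)) :
    E * Eh m R U b S = Eh m R U b (S ∩ T) := by
  have h1 := congrArg adjoint (P.Eh_mul (U := U) (S := S) hU hs hp)
  rw [adj_mul, P.Eh_adj, P.Eh_adj, P.adj_strong hs] at h1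
  exact h1

theorem hp_of_one (h1 : R 1 = 1) (T : Set Γ) (ξ : K) :
    Tendsto (fun t : ℕ => (R 1 * m T - m T * R 1) (R (b ^ t) ξ)) atTop (𝓝 0) := by
  rw [h1, one_mul, mul_one, sub_self]
  simp

/-- positivity from masses -/
theorem le_Eh (hU : (U : Filter ℕ) ≤ atTop) {S : Set Γ} {ξ : K} {c : ℝ}
    (h : ∀ᶠ t : ℕ in atTop, c ≤ ‖m S (R (b ^ t) ξ)‖ ^ 2) : c ≤ (⟪ξ, Eh m R U b S ξ⟫_ℂ).re :=
  le_cl hU (fun t => P.norm_Pt _ S) (h.mono fun t ht => by rw [P.inner_Pt_re]; exact ht)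

end Pic

end Vale.Agent.P092.H242.Hat
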