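import Vale.Agent.P092.H242.Hat
import Vale.Agent.P092.H200.Sheet

/-!
P092 (helper242), Team C, block C-HAT: the positive integrable element `Ê` of the residue algebra
(input (H) of the sheet model).  `CN g` is the cone over the sheet `Y × gU`, `Bs A` the set of
elements of `Γ` with attracting point in `A`.
-/

set_option linter.all false

open scoped InnerProductSpace Pointwise
open Filter Topology ContinuousLinearMap TopologicalSpace

namespace Vale.Agent.P092.H242.Hat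

open Vale.Agent.P092.H242.Ces Vale.Agent.P092.H820 Vale.Agent.P092.H200.Sheet

variable {K : Type} [NormedAddCommGroup K] [InnerProductSpace ℂ K] [CompleteSpace K]
  {Γ D Y G₀ : Type} [Group Γ] [Group D] [TopologicalSpace Y] [MulAction Γ Y]
  [ContinuousConstSMul Γ Y] [Group G₀]
  {lam : Γ →* (K →L[ℂ] K)} {m : Set Γ → (K →L[ℂ] K)} {R : D → (K →L[ℂ] K)}
  {U : Ultrafilter ℕ} {b : D}

theorem re_symm (x y : K) : (⟪x, y⟫_ℂ).re = (⟪y, x⟫_ℂ).re := by
  rw [← inner_conj_symm, Complex.conj_re]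

/-- equality modulo null sets -/
def Eqn (m : Set Γ → (K →L[ℂ] K)) (R : D → (K →L[ℂ] K)) (b : D) (S T : Set Γ) : Prop :=
  Nul m R b (S \ T) ∧ Nul m R b (T \ S)

/-- The geometry of the cones: `Bs A` = attracting point in `A`, `CN g` = cone over the sheet
`Y × gV`, modulo null sets. -/
structure CGeo (m : Set Γ → (K →L[ℂ] K)) (R : D → (K →L[ℂ] K)) (b : D) (c : Γ → Y → G₀)
    (V : Subgroup G₀) (Bs : Clopens Y → Set Γ) (CN : G₀ → Set Γ) : Prop where
  inv : ∀ g, ∀ u ∈ V, Eqn m R b (CN (g * u)) (CN g)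
  disj : ∀ g g', g⁻¹ * g' ∉ V → Nul m R b (CN g ∩ CN g')
  eqv : ∀ γ g g' (A : Clopens Y), (∀ y ∈ A, g'⁻¹ * (c γ y * g) ∈ V) →
    Eqn m R b (γ • (CN g ∩ Bs A)) (CN g' ∩ Bs (tr γ A))

/-- The element `g ↦ Ê(cone over Y × gV)`. -/
noncomputable def hat (m : Set Γ → (K →L[ℂ] K)) (R : D → (K →L[ℂ] K)) (U : Ultrafilter ℕ) (b : D)
    (CN : G₀ → Set Γ) : G₀ → (K →L[ℂ] K) := fun g => Eh m R U b (CN g)

variable {E : Clopens Y → (K →L[ℂ] K)} {S : Set (K →L[ℂ] K)} {c : Γ → Y → G₀} {V : Subgroup G₀}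
  {Bs : Clopens Y → Set Γ} {CN : G₀ → Set Γ}

section main

variable (P : Pic (fun γ => lam γ) m R) (hU : (U : Filter ℕ) ≤ atTop) (G : CGeo m R b c V Bs CN)
  (hlim : ∀ A ξ, Tendsto (fun t : ℕ => Pt m R (b ^ t) (Bs A) ξ) atTop (𝓝 (E A ξ)))
  (hp : ∀ A, ∀ ξ : K, Tendsto (fun t : ℕ => (R 1 * m (Bs A) - m (Bs A) * R 1) (R (b ^ t) ξ)) atTop
    (𝓝 0))
include P hU

include hlim hp in
theorem hat_mul_E (g : G₀) (A : Clopens Y) :
    hat m R U b CN g * E A = Eh m R U b (CN g ∩ Bs A) := P.Eh_mul hU (hlim A) (hp A)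

include hlim hp in
theorem E_mul_hat (g : G₀) (A : Clopens Y) :
    E A * hat m R U b CN g = Eh m R U b (CN g ∩ Bs A) := P.Eh_mul' hU (hlim A) (hp A)

include G hlim hp in
/-- `Ê` is an element of the sheet model of level `V`. -/
theorem hat_sh (hS : ∀ s ∈ S, ∀ T : Set Γ, s * Eh m R U b T = Eh m R U b T * s) :
    Sh lam E S c V (hat m R U b CN) where
  inv g u hu := P.Eh_congr hU (G.inv g u hu).1 (G.inv g u hu).2
  comm g s hs := hS s hs _
  commE g A := by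
    rw [hat_mul_E P hU hlim hp, E_mul_hat P hU hlim hp]
  eqv γ g g' A hA := by
    rw [hat_mul_E P hU hlim hp, hat_mul_E P hU hlim hp]
    rw [← P.Eh_congr hU (G.eqv γ g g' A hA).1 (G.eqv γ g g' A hA).2]
    exact P.Eh_lx γ _

theorem hat_nonneg (g : G₀) (ξ : K) : 0 ≤ (⟪ξ, hat m R U b CN g ξ⟫_ℂ).re := P.Eh_nonneg hU _ ξ

theorem hat_adj (g : G₀) : adjoint (hat m R U b CN g) = hat m R U b CN g := P.Eh_adj _

theorem hat_norm (g : G₀) : ‖hat m R U b CN g‖ ≤ 1 := P.norm_Eh _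

/-- positive in the order of the C*-algebra -/
theorem hat_pos (g : G₀) : 0 ≤ hat m R U b CN g := by
  rw [ContinuousLinearMap.nonneg_iff_isPositive, ContinuousLinearMap.isPositive_def']
  refine ⟨?_, fun ξ => ?_⟩
  · rw [IsSelfAdjoint, star_eq_adjoint, hat_adj P hU]
  · rw [ContinuousLinearMap.reApplyInnerSelf_apply]
    have h1 := hat_nonneg (m := m) (R := R) (U := U) (b := b) (CN := CN) P hU g ξ
    rw [re_symm] at h1
    exact h1

include G in
/-- the sums over finite sets of cosets of `V` are at most one -/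
theorem hat_sum_le (F : Finset G₀) (hF : ∀ g ∈ F, ∀ g' ∈ F, g ≠ g' → g⁻¹ * g' ∉ V) (ξ : K) :
    ∑ g ∈ F, (⟪ξ, hat m R U b CN g ξ⟫_ℂ).re ≤ ‖ξ‖ ^ 2 :=
  P.Eh_sum_le hU F (fun g hg g' hg' hne => G.disj g g' (hF g hg g' hg' hne)) ξ

include G in
/-- operator form -/
theorem hat_sum_le_one (F : Finset G₀) (hF : ∀ g ∈ F, ∀ g' ∈ F, g ≠ g' → g⁻¹ * g' ∉ V) :
    ∑ g ∈ F, hat m R U b CN g ≤ 1 := by
  rw [← sub_nonneg, ContinuousLinearMap.nonneg_iff_isPositive,
    ContinuousLinearMap.isPositive_def']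
  refine ⟨?_, fun ξ => ?_⟩
  · rw [IsSelfAdjoint, star_sub, star_one, star_sum]
    congr 1
    refine Finset.sum_congr rfl fun g _ => ?_
    rw [star_eq_adjoint, hat_adj P hU]
  · rw [ContinuousLinearMap.reApplyInnerSelf_apply]
    have h1 := hat_sum_le P hU G F hF ξ
    have h2 : (⟪ξ, (1 - ∑ g ∈ F, hat m R U b CN g) ξ⟫_ℂ).re =
        ‖ξ‖ ^ 2 - ∑ g ∈ F, (⟪ξ, hat m R U b CN g ξ⟫_ℂ).re := by
      rw [ContinuousLinearMap.sub_apply, inner_sub_right, Complex.sub_re,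
        ContinuousLinearMap.sum_apply, inner_sum, Complex.re_sum]
      congr 1
      rw [ContinuousLinearMap.one_apply, inner_self_eq_norm_sq_to_K]
      norm_cast
    have h3 : 0 ≤ (⟪ξ, (1 - ∑ g ∈ F, hat m R U b CN g) ξ⟫_ℂ).re := by rw [h2]; linarith
    rw [re_symm] at h3
    exact h3

/-- elements of the source group contracted by `b` into the stabiliser of `m` fix `Ê` -/
theorem hat_fix {d : D} (h : ∀ᶠ t : ℕ in atTop, ∀ T : Set Γ,
    R (b ^ t * d * (b ^ t)⁻¹) * m T = m T * R (b ^ t * d * (b ^ t)⁻¹)) (T : Set Γ) :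
    R d * Eh m R U b T = Eh m R U b T * R d :=
  P.Eh_R hU (h.mono fun t ht => ht T)

/-- nonvanishing: if the vectors `R(b^t) ξ` keep mass at least `c > 0` on a set `T` which is covered
by finitely many cones, then some value of `Ê` is nonzero. -/
theorem hat_ne {T : Set Γ} {F : Finset G₀} (hT : Nul m R b (T \ ⋃ g ∈ F, CN g)) {ξ : K} {δ : ℝ}
    (hδ : 0 < δ) (hm : ∀ᶠ t : ℕ in atTop, δ ≤ ‖m T (R (b ^ t) ξ)‖ ^ 2) :
    ∃ g ∈ F, hat m R U b CN g ≠ 0 := by
  classical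
  by_contra hcon
  push Not at hcon
  have h1 : δ ≤ (⟪ξ, Eh m R U b T ξ⟫_ℂ).re := P.le_Eh hU hm
  have h2 := P.Eh_mono (b := b) hU hT ξ
  have h3 : ∀ G : Finset G₀, (⟪ξ, Eh m R U b (⋃ g ∈ G, CN g) ξ⟫_ℂ).re ≤
      ∑ g ∈ G, (⟪ξ, Eh m R U b (CN g) ξ⟫_ℂ).re := by
    intro G
    induction G using Finset.induction_on with
    | empty => simp [P.Eh_empty hU]
    | insert a G ha ih =>
      rw [Finset.sum_insert ha, Finset.set_biUnion_insert]
      have h4 : Eh m R U b (CN a ∪ ⋃ g ∈ G, CN g) =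
          Eh m R U b (CN a) + Eh m R U b ((⋃ g ∈ G, CN g) \ CN a) := by
        rw [← P.Eh_union hU, Set.union_sdiff_self]
        have : CN a ∩ ((⋃ g ∈ G, CN g) \ CN a) = ∅ := by
          ext x
          constructor
          · rintro ⟨h5, _, h6⟩; exact (h6 h5).elim
          · intro h; exact h.elim
        rw [this]; exact P.nul_empty
      have h5 := P.Eh_mono (b := b) hU (S := (⋃ g ∈ G, CN g) \ CN a) (T := ⋃ g ∈ G, CN g) (by
        have : ((⋃ g ∈ G, CN g) \ CN a) \ (⋃ g ∈ G, CN g) = ∅ := by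
          ext x
          constructor
          · rintro ⟨⟨h5, _⟩, h6⟩; exact (h6 h5).elim
          · intro h; exact h.elim
        rw [this]; exact P.nul_empty) ξ
      rw [h4, ContinuousLinearMap.add_apply, inner_add_right, Complex.add_re]
      linarith
  have h4 := h3 F
  have h5 : ∑ g ∈ F, (⟪ξ, Eh m R U b (CN g) ξ⟫_ℂ).re = 0 := by
    refine Finset.sum_eq_zero fun g hg => ?_
    have : Eh m R U b (CN g) = 0 := hcon g hg
    rw [this]
    simp
  linarith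

end main

/-- the masses: if regular elements carry mass at most `ε` uniformly, finite sets are null, and the
elements with bounded first gap are null (type 1), then the second gap is bounded on mass
`‖R 1 ξ‖² - 2ε`. -/
theorem mass_wall (P : Pic (fun γ => lam γ) m R) {G1 G2 : Γ → ℝ} {ξ : K} {r ε : ℝ}
    (hreg : ∀ t : ℕ, ‖m {g | r < G1 g ∧ r < G2 g} (R (b ^ t) ξ)‖ ^ 2 ≤ ε)
    (htype : Tendsto (fun t : ℕ => m {g | G1 g ≤ r ∧ r < G2 g} (R (b ^ t) ξ)) atTop (𝓝 0))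
    {δ : ℝ} (hδ : 0 < δ) :
    ∀ᶠ t : ℕ in atTop, ‖R 1 ξ‖ ^ 2 - ε - δ ≤ ‖m {g | G2 g ≤ r} (R (b ^ t) ξ)‖ ^ 2 := by
  have hsplit : ∀ η : K, ‖η‖ ^ 2 = ‖m {g | G2 g ≤ r} η‖ ^ 2 +
      ‖m {g | r < G1 g ∧ r < G2 g} η‖ ^ 2 + ‖m {g | G1 g ≤ r ∧ r < G2 g} η‖ ^ 2 := by
    intro η
    have h1 : ∀ Z, (⟪η, m Z η⟫_ℂ).re = ‖m Z η‖ ^ 2 := fun Z => P.inner_m Z η
    have h2 : m ({g | G2 g ≤ r} ∪ ({g | r < G1 g ∧ r < G2 g} ∪ {g | G1 g ≤ r ∧ r < G2 g})) = 1 := by
      rw [← P.m_univ]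
      congr 1
      ext g
      simp only [Set.mem_union, Set.mem_setOf_eq, Set.mem_univ, iff_true]
      rcases le_or_gt (G2 g) r with h | h
      · exact Or.inl h
      · rcases le_or_gt (G1 g) r with h' | h'
        · exact Or.inr (Or.inr ⟨h', h⟩)
        · exact Or.inr (Or.inl ⟨h', h⟩)
    rw [P.m_union (Set.disjoint_left.mpr (by
      rintro g hg (h | h)
      · exact absurd h.2 (not_lt.mpr hg)
      · exact absurd h.2 (not_lt.mpr hg))),
      P.m_union (Set.disjoint_left.mpr (by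
      rintro g hg h
      exact absurd hg.1 (not_lt.mpr h.1)))] at h2
    have h3 : (⟪η, (1 : K →L[ℂ] K) η⟫_ℂ).re = ‖η‖ ^ 2 := by
      rw [ContinuousLinearMap.one_apply, inner_self_eq_norm_sq_to_K]
      norm_cast
    rw [← h3, ← h2, ContinuousLinearMap.add_apply, ContinuousLinearMap.add_apply, inner_add_right,
      inner_add_right, Complex.add_re, Complex.add_re, h1, h1, h1]
    ring
  have hnorm : ∀ t : ℕ, ‖R (b ^ t) ξ‖ ^ 2 = ‖R 1 ξ‖ ^ 2 := by
    intro t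
    have h1 : ⟪R (b ^ t) ξ, R (b ^ t) ξ⟫_ℂ = ⟪R 1 ξ, R 1 ξ⟫_ℂ := by
      rw [← adjoint_inner_right, P.R_adj, ← ContinuousLinearMap.mul_apply, P.inv_R,
        ← adjoint_inner_right (R 1), P.R_adj, inv_one, ← ContinuousLinearMap.mul_apply, P.one_R]
    rw [inner_self_eq_norm_sq_to_K, inner_self_eq_norm_sq_to_K] at h1
    exact_mod_cast h1
  have hsm : ∀ᶠ t : ℕ in atTop, ‖m {g | G1 g ≤ r ∧ r < G2 g} (R (b ^ t) ξ)‖ ^ 2 < δ := by
    have h1 := (htype.norm.pow 2)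
    rw [norm_zero, zero_pow two_ne_zero] at h1
    exact h1.eventually (gt_mem_nhds hδ)
  filter_upwards [hsm] with t ht
  have h1 := hsplit (R (b ^ t) ξ)
  rw [hnorm t] at h1
  have h2 := hreg t
  linarith

end Vale.Agent.P092.H242.Hat
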