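import Vale.Agent.P092.H242.Hat3
import Vale.Agent.P092.H242.Avg

/-!
P092 (helper242), Team C, block C-HAT: the Haar average
`a h = ∫_L π(l) Ê(CN h) π(l)⁻¹ dl` over a compact group satisfies all fields of `RC.Hat`, the
trace bound being a hypothesis.
-/

set_option linter.all false

open scoped InnerProductSpace Pointwise
open Filter Topology ContinuousLinearMap TopologicalSpace MeasureTheory

namespace Vale.Agent.P092.H242.Hat

open Vale.Agent.P092.H242.Ces Vale.Agent.P092.H820 Vale.Agent.P092.RC Vale.Agent.P092.H242.Avg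

variable {G Γ Y G₀ K L : Type} [Group G] [TopologicalSpace G] [Group Γ] [TopologicalSpace Y]
  [MulAction G Y] [ContinuousConstSMul G Y] [Group G₀] [TopologicalSpace G₀]
  [NormedAddCommGroup K] [InnerProductSpace ℂ K] [CompleteSpace K]
  [Group L] [TopologicalSpace L] [IsTopologicalGroup L] [CompactSpace L]
  [MeasurableSpace L] [BorelSpace L]
  {π : G →* (K →L[ℂ] K)} {lam : Γ →* (K →L[ℂ] K)} {W W' : Set (K →L[ℂ] K)} {Ω : K}
  {q : Γ →* G} {c : G → Y → G₀} {y₀ : Y} {E : Clopens Y → (K →L[ℂ] K)} {U : Subgroup G₀}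
  {m : Set Γ → (K →L[ℂ] K)} {𝒰 : Ultrafilter ℕ} {b : G} {Bs : Clopens Y → Set Γ}
  {CN : G₀ → Set Γ} {ρ : L →* G} {μ : Measure L} [IsProbabilityMeasure μ] {N : Set G}

theorem ur_of (hP : RC.Pic π lam W Ω) (hρ : Continuous ρ) : Ur (π.comp ρ) where
  adj l := by
    show adjoint (π (ρ l)) = π (ρ l⁻¹)
    rw [hP.adjP, map_inv ρ]
  cont ξ := (hP.contP ξ).comp hρ

/-- the Haar average of `Ê(S)` -/
noncomputable def iE (hu : Ur (π.comp ρ)) (μ : Measure L) [IsProbabilityMeasure μ]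
    (m : Set Γ → (K →L[ℂ] K)) (𝒰 : Ultrafilter ℕ) (b : G) (S : Set Γ) : K →L[ℂ] K :=
  iav hu μ (Eh m (fun g => π g) 𝒰 b S)

/-- the Haar average of the element `Ê` -/
noncomputable def ihat (hu : Ur (π.comp ρ)) (μ : Measure L) [IsProbabilityMeasure μ]
    (m : Set Γ → (K →L[ℂ] K)) (𝒰 : Ultrafilter ℕ) (b : G) (CN : G₀ → Set Γ) (h : G₀) :
    K →L[ℂ] K := iE hu μ m 𝒰 b (CN h)

section comm

variable (hu : Ur (π.comp ρ))

theorem comm_l [μ.IsMulLeftInvariant] (S : Set Γ) (l : L) :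
    π (ρ l) * iE hu μ m 𝒰 b S = iE hu μ m 𝒰 b S * π (ρ l) := iav_inv hu _ l

theorem comm_g {g : G} {S : Set Γ} (hg : ∀ l, π ((ρ l)⁻¹ * g * ρ l) *
      Eh m (fun g => π g) 𝒰 b S = Eh m (fun g => π g) 𝒰 b S * π ((ρ l)⁻¹ * g * ρ l)) :
    π g * iE hu μ m 𝒰 b S = iE hu μ m 𝒰 b S * π g := by
  refine iav_comm hu fun l => ?_
  show π g * (π (ρ l) * Eh m (fun g => π g) 𝒰 b S * π (ρ l⁻¹)) =
    π (ρ l) * Eh m (fun g => π g) 𝒰 b S * π (ρ l⁻¹) * π g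
  obtain ⟨A, hA⟩ : ∃ A, A = Eh m (fun g => π g) 𝒰 b S := ⟨_, rfl⟩
  have h0 := hg l
  rw [← hA] at h0 ⊢
  have e1 : π g * π (ρ l) = π (ρ l) * π ((ρ l)⁻¹ * g * ρ l) := by
    rw [← map_mul, ← map_mul]; congr 1; group
  have e2 : π ((ρ l)⁻¹ * g * ρ l) * π (ρ l⁻¹) = π (ρ l⁻¹) * π g := by
    rw [← map_mul, ← map_mul, map_inv]; congr 1; group
  calc π g * (π (ρ l) * A * π (ρ l⁻¹)) = (π g * π (ρ l)) * A * π (ρ l⁻¹) := by
        simp only [mul_assoc]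
    _ = π (ρ l) * (π ((ρ l)⁻¹ * g * ρ l) * A) * π (ρ l⁻¹) := by
        rw [e1]; simp only [mul_assoc]
    _ = π (ρ l) * A * (π ((ρ l)⁻¹ * g * ρ l) * π (ρ l⁻¹)) := by
        rw [h0]; simp only [mul_assoc]
    _ = _ := by rw [e2]; simp only [mul_assoc]

theorem comm_n (hN : ∀ n ∈ N, ∀ S, π n * Eh m (fun g => π g) 𝒰 b S =
      Eh m (fun g => π g) 𝒰 b S * π n) (hNL : ∀ n ∈ N, ∀ l, (ρ l)⁻¹ * n * ρ l ∈ N) {n : G}
    (hn : n ∈ N) (S : Set Γ) : π n * iE hu μ m 𝒰 b S = iE hu μ m 𝒰 b S * π n :=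
  comm_g hu fun l => hN _ (hNL n hn l) S

theorem zpow_comm {X : K →L[ℂ] K} (h : π b * X = X * π b) (h' : π b⁻¹ * X = X * π b⁻¹) (j : ℤ) :
    π (b ^ j) * X = X * π (b ^ j) := by
  have h4 : ∀ n : ℕ, π (b ^ n) * X = X * π (b ^ n) := by
    intro n
    induction n with
    | zero => rw [pow_zero, map_one, one_mul, mul_one]
    | succ n ih => rw [pow_succ, map_mul, mul_assoc, h, ← mul_assoc, ih, mul_assoc]
  have h5 : ∀ n : ℕ, π (b⁻¹ ^ n) * X = X * π (b⁻¹ ^ n) := by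
    intro n
    induction n with
    | zero => rw [pow_zero, map_one, one_mul, mul_one]
    | succ n ih => rw [pow_succ, map_mul, mul_assoc, h', ← mul_assoc, ih, mul_assoc]
  obtain ⟨n, hn | hn⟩ := j.eq_nat_or_neg
  · rw [hn, zpow_natCast]; exact h4 n
  · rw [hn, zpow_neg, zpow_natCast, ← inv_pow]; exact h5 n

theorem comm_bz (P : Pic (fun γ => lam γ) m (fun g => π g)) (hU : (𝒰 : Filter ℕ) ≤ atTop)
    (hbL : ∀ l, ρ l * b = b * ρ l) (S : Set Γ) (j : ℤ) :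
    π (b ^ j) * iE hu μ m 𝒰 b S = iE hu μ m 𝒰 b S * π (b ^ j) := by
  refine comm_g hu fun l => ?_
  have h1 : (ρ l)⁻¹ * b ^ j * ρ l = b ^ j := by
    have h2 : Commute (ρ l) b := hbL l
    rw [mul_assoc, ← (h2.zpow_right j).eq, inv_mul_cancel_left]
  rw [h1]
  exact zpow_comm (P.Eh_b hU S) (P.Eh_binv hU S) j

end comm

section main

variable (hP : RC.Pic π lam W Ω) (hm : MS lam m) (hU : (𝒰 : Filter ℕ) ≤ atTop)
  (hG : CG m π b q c U Bs CN)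
  (hlim : ∀ A ξ, Tendsto (fun t : ℕ => Pt m (fun g => π g) (b ^ t) (Bs A) ξ) atTop (𝓝 (E A ξ)))
  (hu : Ur (π.comp ρ)) (hρy : ∀ l, ρ l • y₀ = y₀)

include hP hm hU hlim hρy in
theorem ihat_mul (hE : RC.Lim π lam W q y₀ E) (S : Set Γ) (C : Clopens Y) :
    iE hu μ m 𝒰 b S * E C = iE hu μ m 𝒰 b (S ∩ Bs C) := by
  rw [iE, iE, iav_mul hu fun l => hE.par (ρ l) (hρy l) C,
    (pic_of hP hm).Eh_mul (U := 𝒰) (S := S) hU (hlim C) (hp_one hP C)]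

include hP hm hU hlim hρy in
theorem mul_ihat (hE : RC.Lim π lam W q y₀ E) (S : Set Γ) (C : Clopens Y) :
    E C * iE hu μ m 𝒰 b S = iE hu μ m 𝒰 b (S ∩ Bs C) := by
  rw [iE, iE, iav_mul' hu fun l => hE.par (ρ l) (hρy l) C,
    (pic_of hP hm).Eh_mul' (U := 𝒰) (S := S) hU (hlim C) (hp_one hP C)]

include hP hm in
theorem iE_norm (S : Set Γ) : ‖iE hu μ m 𝒰 b S‖ ≤ 1 :=
  (norm_iav_le hu _).trans ((pic_of hP hm).norm_Eh S)

include hP hm in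
theorem iE_adj (S : Set Γ) : adjoint (iE hu μ m 𝒰 b S) = iE hu μ m 𝒰 b S := by
  rw [iE, adj_iav, (pic_of hP hm).Eh_adj]

include hP hm hU in
theorem iE_congr {S T : Set Γ} (h : Eqn m (fun g => π g) b S T) :
    iE hu μ m 𝒰 b S = iE hu μ m 𝒰 b T := by
  rw [iE, iE, (pic_of hP hm).Eh_congr hU h.1 h.2]

include hP hm in
theorem iE_lam (γ : Γ) (S : Set Γ) :
    lam γ * iE hu μ m 𝒰 b S * lam γ⁻¹ = iE hu μ m 𝒰 b (γ • S) := by
  have hc : ∀ (γ : Γ) (l : L), (π.comp ρ) l * lam γ = lam γ * (π.comp ρ) l :=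
    fun γ l => hP.comm (ρ l) γ
  have h6 := (pic_of hP hm).Eh_lx (U := 𝒰) (b := b) γ S
  rw [iE, iE, iav_mul' hu (hc γ), iav_mul hu (hc γ⁻¹), h6]

include hP hm hU in
theorem iE_pos (S : Set Γ) : 0 ≤ iE hu μ m 𝒰 b S := by
  refine iav_nonneg hu ?_
  have := hat_pos (CN := fun _ : Unit => S) (b := b) (pic_of hP hm) hU ()
  exact this

include hP hm hU hG hlim hρy

theorem ihat_res [μ.IsMulLeftInvariant] (hE : RC.Lim π lam W q y₀ E)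
    (hx : RC.Ext π lam W W' y₀ E)
    (hW' : ∀ w ∈ W', ∀ S, w * Eh m (fun g => π g) 𝒰 b S = Eh m (fun g => π g) 𝒰 b S * w)
    (hbL : ∀ l, ρ l * b = b * ρ l)
    (hN : ∀ n ∈ N, ∀ S, π n * Eh m (fun g => π g) 𝒰 b S = Eh m (fun g => π g) 𝒰 b S * π n)
    (hNL : ∀ n ∈ N, ∀ l, (ρ l)⁻¹ * n * ρ l ∈ N)
    (hrad : ∀ r : G, r • y₀ = y₀ → c r y₀ = 1 → ∃ l : L, ∃ j : ℤ, ∃ n ∈ N,
      r = ρ l * b ^ j * n) :
    RC.Res π lam W' q c y₀ E U (ihat hu μ m 𝒰 b CN) where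
  bdd := ⟨1, fun h => iE_norm hP hm hu _⟩
  rinv h u hu' := iE_congr hP hm hU hu (hG.inv h u hu')
  cm h w hw := by
    symm
    refine iav_comm hu fun l => ?_
    show w * (π (ρ l) * Eh m (fun g => π g) 𝒰 b (CN h) * π (ρ l⁻¹)) =
      π (ρ l) * Eh m (fun g => π g) 𝒰 b (CN h) * π (ρ l⁻¹) * w
    have h2 : (ρ l)⁻¹ • y₀ = y₀ := inv_smul_eq_iff.mpr (hρy l).symm
    have h3 := hW' _ (hx.par w hw (ρ l)⁻¹ h2) (CN h)
    rw [inv_inv] at h3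
    obtain ⟨A, hA⟩ : ∃ A, A = Eh m (fun g => π g) 𝒰 b (CN h) := ⟨_, rfl⟩
    rw [← hA] at h3 ⊢
    rw [map_inv]
    have e1 : π (ρ l) * π (ρ l)⁻¹ = 1 := pi_inv' _
    calc w * (π (ρ l) * A * π (ρ l)⁻¹) = (π (ρ l) * π (ρ l)⁻¹) * w * π (ρ l) * A * π (ρ l)⁻¹ := by
          rw [e1]; simp only [mul_assoc, one_mul]
      _ = π (ρ l) * (π (ρ l)⁻¹ * w * π (ρ l) * A) * π (ρ l)⁻¹ := by simp only [mul_assoc]
      _ = π (ρ l) * (A * (π (ρ l)⁻¹ * w * π (ρ l))) * π (ρ l)⁻¹ := by rw [h3]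
      _ = π (ρ l) * A * π (ρ l)⁻¹ * w * (π (ρ l) * π (ρ l)⁻¹) := by simp only [mul_assoc]
      _ = _ := by rw [e1, mul_one]
  rad r hr hc h := by
    obtain ⟨l, j, n, hn, rfl⟩ := hrad r hr hc
    obtain ⟨A, hA⟩ : ∃ A, A = ihat hu μ m 𝒰 b CN h := ⟨_, rfl⟩
    have h1 : π (ρ l) * A = A * π (ρ l) := by rw [hA]; exact comm_l hu _ l
    have h2 : π (b ^ j) * A = A * π (b ^ j) := by
      rw [hA]; exact comm_bz hu (pic_of hP hm) hU hbL _ j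
    have h3 : π n * A = A * π n := by rw [hA]; exact comm_n hu hN hNL hn _
    rw [← hA]
    rw [map_mul, map_mul]
    calc π (ρ l) * π (b ^ j) * π n * A = π (ρ l) * π (b ^ j) * (π n * A) := by
          simp only [mul_assoc]
      _ = π (ρ l) * (π (b ^ j) * A) * π n := by rw [h3]; simp only [mul_assoc]
      _ = (π (ρ l) * A) * π (b ^ j) * π n := by rw [h2]; simp only [mul_assoc]
      _ = _ := by rw [h1]; simp only [mul_assoc]
  cE h C := by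
    rw [ihat, ihat_mul hP hm hU hlim hu hρy hE, mul_ihat hP hm hU hlim hu hρy hE]
  eqv γ h h' C hC := by
    rw [ihat, ihat, ihat_mul hP hm hU hlim hu hρy hE, ihat_mul hP hm hU hlim hu hρy hE,
      iE_lam hP hm hu]
    exact iE_congr hP hm hU hu (hG.eqv γ h h' C hC)

omit hG hlim hρy in
theorem ihat_ne [μ.IsOpenPosMeasure] {T : Set Γ} {H : Finset G₀}
    (hT : Nul m (fun g => π g) b (T \ ⋃ h ∈ H, CN h)) {ξ : K} {δ : ℝ} (hδ : 0 < δ)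
    (hmass : ∀ᶠ t : ℕ in atTop, δ ≤ ‖m T (π (b ^ t) ξ)‖ ^ 2) :
    ihat hu μ m 𝒰 b CN ≠ 0 := by
  intro h0
  obtain ⟨h, hh, hne⟩ := hat_ne (CN := CN) (pic_of hP hm) hU hT hδ hmass
  have h1 := iav_ne (μ := μ) hu (hat_pos (CN := CN) (b := b) (pic_of hP hm) hU h) hne
  exact h1 (congrFun h0 h)

omit hlim hρy in
theorem ihat_sum (H : Finset G₀) (hH : ∀ h ∈ H, ∀ h' ∈ H, h ≠ h' → h⁻¹ * h' ∉ U) :
    ∑ h ∈ H, ihat hu μ m 𝒰 b CN h ≤ 1 := by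
  have h1 : ∑ h ∈ H, hat m (fun g => π g) 𝒰 b CN h ≤ 1 := by
    rw [← sub_nonneg, ContinuousLinearMap.nonneg_iff_isPositive,
      ContinuousLinearMap.isPositive_def']
    refine ⟨?_, fun ξ => ?_⟩
    · rw [IsSelfAdjoint, star_sub, star_one, star_sum]
      congr 1
      refine Finset.sum_congr rfl fun g _ => ?_
      rw [star_eq_adjoint, hat_adj (pic_of hP hm) hU]
    · rw [ContinuousLinearMap.reApplyInnerSelf_apply]
      have h1 := (pic_of hP hm).Eh_sum_le (b := b) hU H (S := CN)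
        (fun g hg g' hg' hne => hG.disj g g' (hH g hg g' hg' hne)) ξ
      have h2 : (⟪ξ, (1 - ∑ g ∈ H, hat m (fun g => π g) 𝒰 b CN g) ξ⟫_ℂ).re =
          ‖ξ‖ ^ 2 - ∑ g ∈ H, (⟪ξ, hat m (fun g => π g) 𝒰 b CN g ξ⟫_ℂ).re := by
        rw [ContinuousLinearMap.sub_apply, inner_sub_right, Complex.sub_re,
          ContinuousLinearMap.sum_apply, inner_sum, Complex.re_sum]
        congr 1
        rw [ContinuousLinearMap.one_apply, inner_self_eq_norm_sq_to_K]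
        norm_cast
      have h3 : 0 ≤ (⟪ξ, (1 - ∑ g ∈ H, hat m (fun g => π g) 𝒰 b CN g) ξ⟫_ℂ).re := by
        rw [h2]
        exact sub_nonneg.mpr h1
      rw [Hat.re_symm] at h3
      exact h3
  have h2 := iav_le_one (μ := μ) hu h1
  rw [iav_sum] at h2
  exact h2

/-- **C-HAT**, all fields of `RC.Hat`; the trace bound is a hypothesis. -/
theorem hat_of' [μ.IsMulLeftInvariant] [μ.IsOpenPosMeasure] (hco : SR.COS U)
    (hE : RC.Lim π lam W q y₀ E) (hx : RC.Ext π lam W W' y₀ E)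
    (hW' : ∀ w ∈ W', ∀ S, w * Eh m (fun g => π g) 𝒰 b S = Eh m (fun g => π g) 𝒰 b S * w)
    (hbL : ∀ l, ρ l * b = b * ρ l)
    (hN : ∀ n ∈ N, ∀ S, π n * Eh m (fun g => π g) 𝒰 b S = Eh m (fun g => π g) 𝒰 b S * π n)
    (hNL : ∀ n ∈ N, ∀ l, (ρ l)⁻¹ * n * ρ l ∈ N)
    (hrad : ∀ r : G, r • y₀ = y₀ → c r y₀ = 1 → ∃ l : L, ∃ j : ℤ, ∃ n ∈ N,
      r = ρ l * b ^ j * n)
    {V : Subgroup G} (hV : IsOpen (V : Set G))
    (hVM : ∀ p ∈ V, p • y₀ = y₀ → ∃ l : L, ∃ n ∈ N, p = ρ l * n)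
    {T : Set Γ} {H : Finset G₀} (hT : Nul m (fun g => π g) b (T \ ⋃ h ∈ H, CN h)) {ξ : K} {δ : ℝ}
    (hδ : 0 < δ) (hmass : ∀ᶠ t : ℕ in atTop, δ ≤ ‖m T (π (b ^ t) ξ)‖ ^ 2)
    (htb : ∀ g : G, g • y₀ ≠ y₀ → ∀ C C' : Clopens Y, Disjoint C C' → ∀ h h' : G₀,
      TRN lam Ω (π g * (ihat hu μ m 𝒰 b CN h' * E C') * π g⁻¹ *
        (ihat hu μ m 𝒰 b CN h * E C)) < ⊤) :
    RC.Hat π lam W' Ω q c y₀ E U (ihat hu μ m 𝒰 b CN) where
  cos := hco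
  res := ihat_res hP hm hU hG hlim hu hρy hE hx hW' hbL hN hNL hrad
  pos := fun h => iE_pos hP hm hU hu _
  ne := ihat_ne hP hm hU hu hT hδ hmass
  sum := ihat_sum hP hm hU hG hu
  smooth := by
    refine ⟨V, hV, fun p hp hpy h => ?_⟩
    obtain ⟨l, n, hn, rfl⟩ := hVM p hp hpy
    obtain ⟨A, hA⟩ : ∃ A, A = ihat hu μ m 𝒰 b CN h := ⟨_, rfl⟩
    have h1 : π (ρ l) * A = A * π (ρ l) := by rw [hA]; exact comm_l hu _ l
    have h3 : π n * A = A * π n := by rw [hA]; exact comm_n hu hN hNL hn _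
    rw [← hA, map_mul, mul_assoc, h3, ← mul_assoc, h1, mul_assoc]
  tb := htb

end main

/-- the elements contracted by `b` to the identity commute with all `Ê(S)` -/
theorem comm_contract (P : Pic (fun γ => lam γ) m (fun g => π g)) (hU : (𝒰 : Filter ℕ) ≤ atTop)
    (hslow : ∀ (u : ℕ → G), Tendsto u atTop (𝓝 1) → ∀ S ξ, Tendsto (fun t : ℕ =>
      (π (u t) * m S - m S * π (u t)) (π (b ^ t) ξ)) atTop (𝓝 0)) {n : G}
    (hn : Tendsto (fun t : ℕ => b ^ t * n * (b ^ t)⁻¹) atTop (𝓝 1)) (S : Set Γ) :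
    π n * Eh m (fun g => π g) 𝒰 b S = Eh m (fun g => π g) 𝒰 b S * π n :=
  P.Eh_R' hU fun ξ => hslow _ hn S ξ

end Vale.Agent.P092.H242.Hat
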