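import Vale.Agent.P092.RC.Pict
import Vale.Agent.P092.H103.PicI
import Vale.Agent.P092.H448.TrI
import Vale.Agent.P092.H43.Slow
import Vale.Agent.P092.H242.Hat4
import Vale.Agent.P092.H242.ConeH

/-!
P092 (helper242), Team C, block C-HAT: the inputs of `hat_of'` on the concrete picture: the
projections `mC S`, slow variation, the Haar measure of a compact subgroup.
-/

set_option linter.all false

open scoped InnerProductSpace ENNReal Pointwise
open Filter Topology ContinuousLinearMap MeasureTheory TopologicalSpace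

namespace Vale.Agent.P092.H242C

open Vale.Agent.P092.SR Vale.Agent.P092.H160 Vale.Agent.P092.RC
open Vale.Agent.P092.H432 (lx ep mp ARep)
open Vale.Agent.P092.H242.Hat (Pt Eh Nul Eqn MS CG)

section con

variable {k : Type} [NontriviallyNormedField k] {m : ℕ} [LocallyCompactSpace (GG k m)]
  [SecondCountableTopology (GG k m)] [MeasurableSpace (GG k m)] [BorelSpace (GG k m)]
  {Γ : Subgroup (GG k m)} [DiscreteTopology Γ] [Countable Γ] [MeasurableSpace (GG k m ⧸ Γ)]
  [BorelSpace (GG k m ⧸ Γ)] {ν : Measure (GG k m ⧸ Γ)} [IsProbabilityMeasure ν]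
  (hν : ∀ g : GG k m, ν.map (fun x => g • x) = ν)
  {Λ : Type} [Group Λ] {α : Γ →* (Ell2 Λ →L[ℂ] Ell2 Λ)} (hα : Frame α)

/-- the projection of a set of positions, in the fibre -/
noncomputable abbrev m0C (S : Set Γ) : Ell2 (Λ × Λ) →L[ℂ] Ell2 (Λ × Λ) :=
  tens (AF hα (H553.ind (fun γ => γ ∈ S))) 1

/-- the projection of a set of positions -/
noncomputable abbrev mC (S : Set Γ) : KC hν Λ →L[ℂ] KC hν Λ := cst hν (m0C hα S)

theorem abs_ind (S : Set Γ) (γ : Γ) : |H553.ind (fun γ => γ ∈ S) γ| ≤ 1 := by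
  unfold H553.ind
  split_ifs <;> simp

/-- the fibre projections are diagonal in the basis of the leg -/
theorem m0C_eq (S : Set Γ) : m0C hα S = H368.m0 (H103.bF₁ hα) Prod.fst S := by
  refine H368.ext_basis (b := H103.bF₁ hα) ?_
  rintro ⟨γ, s⟩
  have h1 : (H103.bF₁ hα (γ, s) : Ell2 (Λ × Λ)) = uR hα (lx (γ, (1 : Γ)) (lx ((1 : Γ), s) (ep ()))) := by
    rw [H103.bF₁_ap, uR_lx₁, uR_lx₂, uR_ep]
    rfl
  have h2 : (lx (γ, (1 : Γ)) (lx ((1 : Γ), s) (ep ())) : Ell2 ((Γ × Γ) × Unit)) =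
      dl ((γ, s), ()) := by
    rw [H432.lx_ep, H432.lx_dl]
    simp
  have h3 := uR_mp hα (abs_ind S) (dl ((γ, s), ()))
  have h4 : mp Unit (fun x : Γ × Γ => H553.ind (fun γ => γ ∈ S) x.1) (dl ((γ, s), ())) =
      ((H553.ind (fun γ => γ ∈ S) γ : ℝ) : ℂ) • (dl ((γ, s), ()) : Ell2 ((Γ × Γ) × Unit)) := by
    classical
    ext x
    rw [mp, H553.mo_apply (F := fun x : (Γ × Γ) × Unit => H553.ind (fun γ => γ ∈ S) x.1.1) (C := 1)
      (fun g => abs_ind S g.1.1)]
    change _ = ((H553.ind (fun γ => γ ∈ S) γ : ℝ) : ℂ) * (dl ((γ, s), ()) : Ell2 ((Γ × Γ) × Unit)) x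
    by_cases hx : x = ((γ, s), ())
    · rw [hx]
    · rw [dl_apply, if_neg hx, mul_zero, mul_zero]
  by_cases hS : γ ∈ S
  · rw [H368.m0_mem (show (γ, s).1 ∈ S from hS), h1, h2, ← h3, h4]
    have : H553.ind (fun γ => γ ∈ S) γ = 1 := if_pos hS
    rw [this, Complex.ofReal_one, one_smul]
  · rw [H368.m0_notMem (show (γ, s).1 ∉ S from hS), h1, h2, ← h3, h4]
    have : H553.ind (fun γ => γ ∈ S) γ = 0 := if_neg hS
    rw [this, Complex.ofReal_zero, zero_smul, map_zero]

theorem sdms : SD.Ms (lamC hν (RR₁ α)) (XC hν Λ ∪ Set.range (lamC hν (RR₂ α))) (OmC hν Λ)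
    (mC hν hα) := by
  have h1 := H103.ms₁ (ν := ν) hα
  have h2 : H103.mS₁ ν hα = mC hν hα := by
    funext S
    exact congrArg (fun T : Ell2 (Λ × Λ) →L[ℂ] Ell2 (Λ × Λ) => T.compLpL 2 ν) (m0C_eq hα S).symm
  rw [h2] at h1
  exact h1

theorem msC : MS (lamC hν (RR₁ α)) (mC hν hα) := H448.Trb.ms_of (sdms hν hα)

theorem msrC : H448.Trb.Msr (lamC hν (RR₁ α)) (XC hν Λ ∪ Set.range (lamC hν (RR₂ α)))
    (OmC hν Λ) (mC hν hα) := H448.Trb.msr_of (sdms hν hα)

theorem norm_m0C (S : Set Γ) : ‖m0C hα S‖ ≤ 1 := by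
  rw [m0C_eq]
  exact H368.m0_norm S

theorem piC_eq (g : GG k m) : piC hν hα g = H790.Ri (H85.cdat ν hν) (VV α) g := rfl

include hα in
theorem norm_VV (v : Γ) : ‖VV α v‖ ≤ 1 := H34.Ind.norm_le_of_adj (H839.adj_VV hα) v

/-- slow variation -/
theorem slowC {u : ℕ → GG k m} (hu : Tendsto u atTop (𝓝 1)) (b : GG k m) (S : Set Γ)
    (ξ : KC hν Λ) : Tendsto (fun t : ℕ => (piC hν hα (u t) * mC hν hα S -
      mC hν hα S * piC hν hα (u t)) (piC hν hα (b ^ t) ξ)) atTop (𝓝 0) := by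
  set B : ℕ → (KC hν Λ →L[ℂ] KC hν Λ) := fun t => piC hν hα (u t) * mC hν hα S -
      mC hν hα S * piC hν hα (u t) with hB
  have hBn : ∀ t, ‖B t‖ ≤ 2 := by
    intro t
    have h1 : ‖mC hν hα S‖ ≤ 1 := (norm_cst_le hν _).trans (norm_m0C hα S)
    have h2 := norm_piC_le hν hα (u t)
    have h3 := norm_mul_le (piC hν hα (u t)) (mC hν hα S)
    have h4 := norm_mul_le (mC hν hα S) (piC hν hα (u t))
    have h5 := norm_sub_le (piC hν hα (u t) * mC hν hα S) (mC hν hα S * piC hν hα (u t))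
    have h6 := norm_nonneg (mC hν hα S)
    have h7 := norm_nonneg (piC hν hα (u t))
    refine h5.trans ?_
    nlinarith
  have key : ∀ η ∈ Submodule.span ℂ {ξ : KC hν Λ | ∃ s ∈ Set.range (H103.bF₁ hα),
      ∃ A, MeasurableSet A ∧ ξ = H790.ind (H85.cdat ν hν).μ _ A
        (Lp.const 2 (H85.cdat ν hν).μ s)},
      Tendsto (fun t : ℕ => B t (piC hν hα (b ^ t) η)) atTop (𝓝 0) := by
    intro η hη
    refine Submodule.span_induction (p := fun η _ =>
      Tendsto (fun t : ℕ => B t (piC hν hα (b ^ t) η)) atTop (𝓝 0)) ?_ ?_ ?_ ?_ hη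
    · rintro _ ⟨s, ⟨i, rfl⟩, A, hA, rfl⟩
      set ζ : KC hν Λ := H790.ind (H85.cdat ν hν).μ _ A
        (Lp.const 2 (H85.cdat ν hν).μ (H103.bF₁ hα i)) with hζ
      have h1 : ∀ᵐ x ∂(H85.cdat ν hν).μ, ‖ζ x‖ ≤ 1 := by
        filter_upwards [H790.ind_ae (μ := (H85.cdat ν hν).μ) hA
            (Lp.const 2 (H85.cdat ν hν).μ (H103.bF₁ hα i)),
          Lp.coeFn_const (p := 2) (μ := (H85.cdat ν hν).μ) (H103.bF₁ hα i)] with x h1 h2
        rw [hζ, h1]
        refine (norm_indicator_le_norm_self _ _).trans ?_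
        rw [h2]
        exact ((H103.bF₁ hα).orthonormal.1 i).le
      have h2 : ∀ g : GG k m, ∀ᵐ x ∂(H85.cdat ν hν).μ, ‖(piC hν hα g ζ) x‖ ≤ 1 := by
        intro g
        filter_upwards [H790.ri_ae (H85.cdat ν hν) (norm_VV hα) g ζ,
          H790.ae_comp ((H85.cdat ν hν).mp g⁻¹) h1] with x h3 h4
        rw [piC_eq, h3]
        exact (((VV α _).le_opNorm _).trans (mul_le_of_le_one_left (norm_nonneg _)
          (norm_VV hα _))).trans h4
      rw [tendsto_zero_iff_norm_tendsto_zero, Metric.tendsto_atTop]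
      intro ε hε
      have h3 := hu.eventually (H43.slow_fam (H85.cdat ν hν) (H43.ccont_cdat ν hν) (norm_VV hα)
        (half_pos hε))
      obtain ⟨N, hN⟩ := eventually_atTop.1 h3
      refine ⟨N, fun t ht => ?_⟩
      have h4 := hN t ht (m0C hα S) (norm_m0C hα S) (by rw [map_one, mul_one, one_mul])
        (piC hν hα (b ^ t) ζ) (h2 _)
      rw [dist_zero_right, norm_norm]
      refine lt_of_le_of_lt ?_ (half_lt_self hε)
      exact h4
    · simp only [map_zero]
      exact tendsto_const_nhds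
    · intro x y _ _ hx hy
      simp only [map_add]
      simpa using hx.add hy
    · intro c x _ hx
      simp only [map_smul]
      simpa using hx.const_smul c
  rw [Metric.tendsto_atTop]
  intro ε hε
  obtain ⟨η, hη, hd⟩ := Metric.mem_closure_iff.1 (H368.dense_basis (ν := (H85.cdat ν hν).μ) (H103.bF₁ hα) ξ)
    (ε / 4) (by positivity)
  obtain ⟨N, hN⟩ := Metric.tendsto_atTop.1 (key η hη) (ε / 2) (by positivity)
  refine ⟨N, fun t ht => ?_⟩
  have h1 := hN t ht
  rw [dist_zero_right] at h1 ⊢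
  have h2 : B t (piC hν hα (b ^ t) ξ) = B t (piC hν hα (b ^ t) (ξ - η)) +
      B t (piC hν hα (b ^ t) η) := by rw [map_sub, map_sub, sub_add_cancel]
  have h3 : ‖B t (piC hν hα (b ^ t) (ξ - η))‖ ≤ 2 * (ε / 4) := by
    have h4 : ‖piC hν hα (b ^ t) (ξ - η)‖ ≤ ε / 4 := by
      refine ((piC hν hα (b ^ t)).le_opNorm _).trans ?_
      refine (mul_le_of_le_one_left (norm_nonneg _) (norm_piC_le hν hα _)).trans ?_
      rw [← dist_eq_norm]
      exact hd.le
    refine ((B t).le_opNorm _).trans ?_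
    exact mul_le_mul (hBn t) h4 (norm_nonneg _) zero_le_two
  rw [h2]
  refine (norm_add_le _ _).trans_lt ?_
  linarith

end con

/-- Haar measure of a compact group -/
theorem exists_haar (L : Type) [Group L] [TopologicalSpace L] [IsTopologicalGroup L]
    [CompactSpace L] [MeasurableSpace L] [BorelSpace L] : ∃ μ : Measure L,
    IsProbabilityMeasure μ ∧ μ.IsMulLeftInvariant ∧ μ.IsOpenPosMeasure := by
  refine ⟨Measure.haarMeasure (⊤ : PositiveCompacts L), ⟨?_⟩, inferInstance, inferInstance⟩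
  have h1 := Measure.haarMeasure_self (K₀ := (⊤ : PositiveCompacts L))
  simpa using h1

end Vale.Agent.P092.H242C
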