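import Vale.Agent.P092.RC.Cc
import Vale.Agent.P092.H575.Geo2

/-!
P092 (helper242), Team C, block C-HAT: facts on the normalised section `sct` and on the cocycle
`cc` of RC/Cc, in the letters of helper575's cones.
-/

set_option linter.all false

open Matrix Topology TopologicalSpace
open scoped LinearAlgebra.Projectivization

namespace Vale.Agent.P092.H242.Sct

open Vale.Agent.P092.RC Vale.Agent.P092.H575 Vale.Agent.P092.H820

section ix

variable {k : Type} [NontriviallyNormedField k] {m : ℕ}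

theorem ix_max (v : Fin (m + 1) → k) (j : Fin (m + 1)) : ‖v j‖ ≤ ‖v (ix v)‖ := by
  classical
  have hne : (Finset.univ.filter fun i => ∀ j, ‖v j‖ ≤ ‖v i‖).Nonempty := by
    obtain ⟨i, hi⟩ := Finite.exists_max fun i => ‖v i‖
    exact ⟨i, Finset.mem_filter.2 ⟨Finset.mem_univ _, hi⟩⟩
  have : ix v ∈ Finset.univ.filter fun i => ∀ j, ‖v j‖ ≤ ‖v i‖ := by
    unfold ix
    rw [dif_pos (by convert hne)]
    convert Finset.min'_mem _ (by convert hne)
  exact (Finset.mem_filter.1 this).2 j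

theorem ix_congr {v w : Fin (m + 1) → k}
    (h : ∀ i, (∀ j, ‖v j‖ ≤ ‖v i‖) ↔ (∀ j, ‖w j‖ ≤ ‖w i‖)) : ix v = ix w := by
  unfold ix
  simp only [h]

variable (y : YY k m)

theorem rep_ix_ne : y.rep (ix y.rep) ≠ 0 := by
  intro h
  apply y.rep_nonzero
  funext j
  have := ix_max y.rep j
  rw [h, norm_zero] at this
  exact norm_le_zero_iff.1 this

theorem nv_ix : nv y (ix y.rep) = 1 := div_self (rep_ix_ne y)

theorem nv_le (j : Fin (m + 1)) : ‖nv y j‖ ≤ 1 := by
  unfold nv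
  rw [norm_div]
  exact div_le_one_of_le₀ (ix_max _ j) (norm_nonneg _)

theorem norm_nv : ‖nv y‖ = 1 := by
  refine le_antisymm ((pi_norm_le_iff_of_nonneg zero_le_one).2 (nv_le y)) ?_
  have := norm_le_pi_norm (nv y) (ix y.rep)
  rwa [nv_ix, norm_one] at this

theorem nv_ne : nv y ≠ 0 := by
  intro h
  have := norm_nv y
  rw [h, norm_zero] at this
  exact zero_ne_one this

theorem rep_eq : y.rep = y.rep (ix y.rep) • nv y := by
  funext j
  rw [Pi.smul_apply, smul_eq_mul]
  unfold nv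
  rw [mul_div_cancel₀ _ (rep_ix_ne y)]

theorem mk_nv : Projectivization.mk k (nv y) (nv_ne y) = y := by
  conv_rhs => rw [← y.mk_rep]
  rw [Projectivization.mk_eq_mk_iff']
  refine ⟨(y.rep (ix y.rep))⁻¹, ?_⟩
  obtain ⟨v, hv⟩ : ∃ v, v = nv y := ⟨_, rfl⟩
  obtain ⟨a, ha⟩ : ∃ a, a = y.rep (ix y.rep) := ⟨_, rfl⟩
  have h1 : y.rep = a • v := by rw [ha, hv]; exact rep_eq y
  have h2 : a ≠ 0 := by rw [ha]; exact rep_ix_ne y
  rw [← ha, ← hv, h1, smul_smul, inv_mul_cancel₀ h2, one_smul]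

theorem pj_nv : pj k (Fin (m + 1)) ⟨nv y, nv_ne y⟩ = y := mk_nv y

/-- the maximal coordinates -/
theorem max_iff (i : Fin (m + 1)) : (∀ j, ‖y.rep j‖ ≤ ‖y.rep i‖) ↔ ‖nv y i‖ = 1 := by
  have h0 : 0 < ‖y.rep (ix y.rep)‖ := norm_pos_iff.2 (rep_ix_ne y)
  unfold nv
  rw [norm_div, div_eq_one_iff_eq h0.ne']
  constructor
  · intro h
    exact le_antisymm (ix_max _ i) (h _)
  · intro h j
    rw [h]
    exact ix_max _ j

theorem ix_eq {y y' : YY k m} (h : ∀ i, ‖nv y i‖ = 1 ↔ ‖nv y' i‖ = 1) :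
    ix y.rep = ix y'.rep :=
  ix_congr fun i => by rw [max_iff, max_iff, h]

/-- the inverse of the section -/
noncomputable def tinv (y : YY k m) : Matrix (Fin (m + 1)) (Fin (m + 1)) k :=
  Matrix.of fun a b => Fin.cases (motive := fun _ => k) (if b = ix y.rep then 1 else 0)
    (fun j => (if b = (ix y.rep).succAbove j then 1 else 0) -
      nv y ((ix y.rep).succAbove j) * (if b = ix y.rep then 1 else 0)) a

theorem tinv_zero (b : Fin (m + 1)) : tinv y 0 b = if b = ix y.rep then 1 else 0 := rfl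

theorem tinv_succ (j : Fin m) (b : Fin (m + 1)) : tinv y j.succ b =
    (if b = (ix y.rep).succAbove j then 1 else 0) -
      nv y ((ix y.rep).succAbove j) * (if b = ix y.rep then 1 else 0) := rfl

theorem sct_zero (a : Fin (m + 1)) : sct y a 0 = nv y a := rfl

theorem sct_succ (a : Fin (m + 1)) (j : Fin m) : sct y a j.succ =
    if a = (ix y.rep).succAbove j then 1 else 0 := rfl

theorem sct_mul_tinv : sct y * tinv y = 1 := by
  ext a b
  rw [Matrix.mul_apply, Fin.sum_univ_succ, sct_zero, tinv_zero]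
  simp only [sct_succ, tinv_succ, ite_mul, one_mul, zero_mul]
  by_cases ha : a = ix y.rep
  · have h1 : ∀ j : Fin m, a ≠ (ix y.rep).succAbove j := fun j h =>
      Fin.succAbove_ne _ j (h.symm.trans ha)
    simp only [h1, if_false, Finset.sum_const_zero, add_zero]
    rw [ha, nv_ix, one_mul, Matrix.one_apply]
    by_cases hb : b = ix y.rep
    · rw [if_pos hb, if_pos hb.symm]
    · rw [if_neg hb, if_neg (fun h => hb h.symm)]
  · obtain ⟨j, hj⟩ := Fin.exists_succAbove_eq ha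
    rw [Finset.sum_eq_single j]
    · rw [if_pos hj.symm, hj, Matrix.one_apply]
      by_cases hb : a = b
      · rw [if_pos hb, if_pos hb.symm]
        ring
      · have hb' : ¬ b = a := fun h => hb h.symm
        simp only [if_neg hb, if_neg hb']
        ring
    · intro l _ hl
      rw [if_neg]
      intro h
      exact hl (Fin.succAbove_right_injective (h.symm.trans hj.symm))
    · intro h
      exact absurd (Finset.mem_univ j) h

/-- the section as a unit -/
noncomputable def sg (y : YY k m) : (Matrix (Fin (m + 1)) (Fin (m + 1)) k)ˣ where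
  val := sct y
  inv := tinv y
  val_inv := sct_mul_tinv y
  inv_val := mul_eq_one_comm.1 (sct_mul_tinv y)

theorem sg_val : (sg y).1 = sct y := rfl

theorem sg_inv_val : ((sg y)⁻¹).1 = tinv y := rfl

theorem sct_inv : (sct y)⁻¹ = ((sg y)⁻¹).1 := by
  rw [← sg_val, Matrix.coe_units_inv]

theorem bd_sg [IsUltrametricDist k] : Bd 1 (sg y) := by
  constructor
  · intro a b
    rw [sg_val]
    refine Fin.cases ?_ (fun j => ?_) b
    · rw [sct_zero]; exact nv_le y a
    · rw [sct_succ]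
      split_ifs
      · rw [norm_one]
      · rw [norm_zero]; exact zero_le_one
  · intro a b
    rw [sg_inv_val]
    refine Fin.cases ?_ (fun j => ?_) a
    · rw [tinv_zero]
      split_ifs
      · rw [norm_one]
      · rw [norm_zero]; exact zero_le_one
    · rw [tinv_succ, sub_eq_add_neg]
      refine (IsUltrametricDist.norm_add_le_max _ _).trans (max_le ?_ ?_)
      · split_ifs
        · rw [norm_one]
        · rw [norm_zero]; exact zero_le_one
      · rw [norm_neg, norm_mul]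
        refine mul_le_one₀ (nv_le y _) (norm_nonneg _) ?_
        split_ifs
        · rw [norm_one]
        · rw [norm_zero]; exact zero_le_one

end ix

section act

variable {k : Type} [NontriviallyNormedField k] [IsUltrametricDist k] {m : ℕ}

/-- `SL → GL` -/
def tg : GG k m →* (Matrix (Fin (m + 1)) (Fin (m + 1)) k)ˣ := Matrix.SpecialLinearGroup.toGL

theorem tg_val (g : GG k m) : (tg g).1 = g.1 := rfl

theorem act_nv (g : GG k m) (y : YY k m) :
    ∃ s : k, s ≠ 0 ∧ g.1 *ᵥ nv y = s • nv (g • y) := by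
  have h1 : g • y = Projectivization.mk k (g • nv y) ((smul_ne_zero_iff_ne g).mpr (nv_ne y)) := by
    conv_lhs => rw [← mk_nv y]
    exact Projectivization.smul_mk g (nv_ne y)
  have h2 := mk_nv (g • y)
  rw [h1] at h2
  have h3 := (Projectivization.mk_eq_mk_iff' k _ _ _ _).1 h2
  rw [← h1] at h3
  obtain ⟨a, ha⟩ := h3
  have hg : g • nv y = g.1 *ᵥ nv y := rfl
  have ha0 : a ≠ 0 := by
    intro h0
    rw [h0, zero_smul] at ha
    exact nv_ne _ ha.symm
  refine ⟨a⁻¹, inv_ne_zero ha0, ?_⟩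
  rw [← hg, ← ha, smul_smul, inv_mul_cancel₀ ha0, one_smul]

theorem mulVec_single (A : Matrix (Fin (m + 1)) (Fin (m + 1)) k) (i j : Fin (m + 1)) :
    A i j = (A *ᵥ Pi.single j 1) i := by
  simp

/-- the element of the stabiliser -/
noncomputable def pc (g : GG k m) (y : YY k m) : (Matrix (Fin (m + 1)) (Fin (m + 1)) k)ˣ :=
  (sg (g • y))⁻¹ * tg g * sg y

theorem col_sg (y : YY k m) : (sg y).1 *ᵥ Pi.single 0 1 = nv y := by
  funext a
  rw [← mulVec_single, sg_val, sct_zero]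

theorem pc_mem (g : GG k m) (y : YY k m) : pc g y ∈ PP (k := k) (0 : Fin (m + 1)) := by
  rw [mem_PP]
  intro i hi
  obtain ⟨s, hs, he⟩ := act_nv g y
  rw [mulVec_single (pc g y).1, pc, Units.val_mul, Units.val_mul, ← Matrix.mulVec_mulVec,
    ← Matrix.mulVec_mulVec, col_sg, tg_val, he, Matrix.mulVec_smul, ← col_sg (g • y),
    Matrix.mulVec_mulVec, Units.inv_mul, Matrix.one_mulVec]
  simp [hi]

theorem sg_pc (g : GG k m) (y : YY k m) : sg (g • y) * pc g y = tg g * sg y := by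
  rw [pc]; group

end act

section block

variable {k : Type} [NormedField k] [IsUltrametricDist k] {m : ℕ}

/-- the lower right block -/
noncomputable def bm : PP (k := k) (0 : Fin (m + 1)) →* Matrix (Fin m) (Fin m) k where
  toFun p := p.1.1.submatrix Fin.succ Fin.succ
  map_one' := by
    ext i j
    show (1 : Matrix (Fin (m + 1)) (Fin (m + 1)) k) i.succ j.succ = _
    rw [Matrix.one_apply, Matrix.one_apply]
    simp only [Fin.succ_inj]
  map_mul' p q := by
    ext i j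
    show (p.1.1 * q.1.1) i.succ j.succ = _
    rw [Matrix.mul_apply, Fin.sum_univ_succ, (mem_PP _).1 p.2 _ (Fin.succ_ne_zero i), zero_mul,
      zero_add, Matrix.mul_apply]
    rfl

/-- the block as a unit -/
noncomputable def bl : PP (k := k) (0 : Fin (m + 1)) →* (Matrix (Fin m) (Fin m) k)ˣ :=
  (bm (k := k) (m := m)).toHomUnits

theorem bl_val (p : PP (k := k) (0 : Fin (m + 1))) (i j : Fin m) :
    (bl p).1 i j = p.1.1 i.succ j.succ := rfl

theorem bl_inv_val (p : PP (k := k) (0 : Fin (m + 1))) (i j : Fin m) :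
    ((bl p)⁻¹).1 i j = (p.1⁻¹).1 i.succ j.succ := by
  rw [← map_inv]; rfl

/-- the block diagonal lift, as a monoid homomorphism -/
def lm : Matrix (Fin m) (Fin m) k →* Matrix (Fin (m + 1)) (Fin (m + 1)) k where
  toFun A := Matrix.of fun i j => Fin.cases (motive := fun _ => k)
    (Fin.cases (motive := fun _ => k) 1 (fun _ => 0) j)
    (fun i' => Fin.cases (motive := fun _ => k) 0 (fun j' => A i' j') j) i
  map_one' := by
    ext i j
    rw [Matrix.of_apply, Matrix.one_apply]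
    refine Fin.cases ?_ (fun i' => ?_) i
    · refine Fin.cases ?_ (fun j' => ?_) j
      · simp
      · simp [(Fin.succ_ne_zero j').symm]
    · refine Fin.cases ?_ (fun j' => ?_) j
      · simp [Fin.succ_ne_zero i']
      · simp [Matrix.one_apply]
  map_mul' A B := by
    ext i j
    rw [Matrix.of_apply, Matrix.mul_apply, Fin.sum_univ_succ]
    simp only [Matrix.of_apply, Fin.cases_zero, Fin.cases_succ]
    refine Fin.cases ?_ (fun i' => ?_) i
    · refine Fin.cases ?_ (fun j' => ?_) j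
      · simp
      · simp
    · refine Fin.cases ?_ (fun j' => ?_) j
      · simp
      · simp [Matrix.mul_apply]

/-- the block diagonal lift -/
def lf : (Matrix (Fin m) (Fin m) k)ˣ →* (Matrix (Fin (m + 1)) (Fin (m + 1)) k)ˣ :=
  Units.map (lm (k := k) (m := m))

theorem lf_val (h : (Matrix (Fin m) (Fin m) k)ˣ) : (lf h).1 = lm h.1 := rfl

theorem lf_inv_val (h : (Matrix (Fin m) (Fin m) k)ˣ) : ((lf h)⁻¹).1 = lm (h⁻¹).1 := rfl

theorem lm_00 (A : Matrix (Fin m) (Fin m) k) : lm A 0 0 = 1 := rfl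

theorem lm_s0 (A : Matrix (Fin m) (Fin m) k) (i : Fin m) : lm A i.succ 0 = 0 := rfl

theorem lm_0s (A : Matrix (Fin m) (Fin m) k) (j : Fin m) : lm A 0 j.succ = 0 := rfl

theorem lm_ss (A : Matrix (Fin m) (Fin m) k) (i j : Fin m) : lm A i.succ j.succ = A i j := rfl

theorem lf_mem (h : (Matrix (Fin m) (Fin m) k)ˣ) : lf h ∈ PP (k := k) (0 : Fin (m + 1)) := by
  rw [mem_PP]
  intro i hi
  obtain ⟨i', rfl⟩ := Fin.exists_succ_eq.2 hi
  rw [lf_val, lm_s0]

theorem bl_lf (h : (Matrix (Fin m) (Fin m) k)ˣ) : bl ⟨lf h, lf_mem h⟩ = h := by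
  ext i j
  rw [bl_val]
  rfl

theorem cl_lm {A : Matrix (Fin m) (Fin m) k} {r : ℝ} (hr : 1 ≤ r) (h : Cl A r) :
    Cl (lm A) r := by
  intro i j
  refine Fin.cases ?_ (fun i' => ?_) i
  · refine Fin.cases ?_ (fun j' => ?_) j
    · rw [lm_00, norm_one]; exact hr
    · rw [lm_0s, norm_zero]; linarith
  · refine Fin.cases ?_ (fun j' => ?_) j
    · rw [lm_s0, norm_zero]; linarith
    · rw [lm_ss]; exact h i' j'

theorem bd_lf {h : (Matrix (Fin m) (Fin m) k)ˣ} {r : ℝ} (hr : 1 ≤ r) (hh : Bd r h) :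
    Bd r (lf h) := ⟨cl_lm hr hh.1, cl_lm hr hh.2⟩

theorem exists_bd {ι : Type*} [Fintype ι] [DecidableEq ι] (g : (Matrix ι ι k)ˣ) :
    ∃ B : ℝ, 1 ≤ B ∧ Bd B g := by
  obtain ⟨C, hC⟩ := (Set.finite_range fun p : ι × ι => ‖g.1 p.1 p.2‖).bddAbove
  obtain ⟨D, hD⟩ := (Set.finite_range fun p : ι × ι => ‖(g⁻¹).1 p.1 p.2‖).bddAbove
  refine ⟨max 1 (max C D), le_max_left _ _, fun i j => ?_, fun i j => ?_⟩
  · exact (hC ⟨(i, j), rfl⟩).trans ((le_max_left _ _).trans (le_max_right _ _))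
  · exact (hD ⟨(i, j), rfl⟩).trans ((le_max_right _ _).trans (le_max_right _ _))

/-- scalars -/
def sc {ι : Type*} [Fintype ι] [DecidableEq ι] : kˣ →* (Matrix ι ι k)ˣ :=
  Units.map (Matrix.scalar ι : k →+* Matrix ι ι k).toMonoidHom

theorem sc_val {ι : Type*} [Fintype ι] [DecidableEq ι] (z : kˣ) :
    (sc z : (Matrix ι ι k)ˣ).1 = Matrix.scalar ι (z : k) := rfl

theorem sc_mul_val {ι : Type*} [Fintype ι] [DecidableEq ι] (z : kˣ) (g : (Matrix ι ι k)ˣ) :
    (sc z * g).1 = (z : k) • g.1 := by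
  rw [Units.val_mul, sc_val, Matrix.scalar_apply, ← Matrix.smul_eq_diagonal_mul]

theorem sc_comm {ι : Type*} [Fintype ι] [DecidableEq ι] (z : kˣ) (g : (Matrix ι ι k)ˣ) :
    sc z * g = g * sc z := by
  ext1
  rw [sc_mul_val, Units.val_mul, sc_val, Matrix.scalar_apply]
  ext i j
  rw [Matrix.mul_diagonal, Matrix.smul_apply, smul_eq_mul, mul_comm]

theorem sc_mem (z : kˣ) : (sc z : (Matrix (Fin m) (Fin m) k)ˣ) ∈
    Subgroup.center (GL (Fin m) k) :=
  Subgroup.mem_center_iff.2 fun g => (sc_comm z g).symm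

theorem exists_sc {g : GL (Fin m) k} (hg : g ∈ Subgroup.center (GL (Fin m) k)) :
    ∃ z : kˣ, g = sc z := by
  rw [Matrix.GeneralLinearGroup.center_eq_range_scalar] at hg
  obtain ⟨z, rfl⟩ := hg
  exact ⟨z, rfl⟩

end block

section level

variable {k : Type} [NontriviallyNormedField k] [IsUltrametricDist k] {m : ℕ}

variable (k m) in
/-- the level: the image of `GL_m(O)` in `PGL_m(k)` -/
noncomputable def UU : Subgroup (PG k m) :=
  (KK k (Fin m)).map (QuotientGroup.mk' (Subgroup.center (GL (Fin m) k)))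

/-- the projection -/
def mkP (g : GL (Fin m) k) : PG k m := QuotientGroup.mk g

theorem mkP_mul (g h : GL (Fin m) k) : mkP (g * h) = mkP g * mkP h := rfl

theorem mkP_inv (g : GL (Fin m) k) : mkP g⁻¹ = (mkP g)⁻¹ := rfl

theorem mkP_sc (z : kˣ) : (mkP (sc z) : PG k m) = 1 := (QuotientGroup.eq_one_iff _).2 (sc_mem z)

theorem mkP_out (h : PG k m) : mkP h.out = h := QuotientGroup.out_eq' h

theorem mkP_mem {g : GL (Fin m) k} : mkP g ∈ UU k m ↔
    ∃ z : kˣ, ∃ κ ∈ KK k (Fin m), g = κ * sc z := by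
  constructor
  · rintro ⟨κ, hκ, e⟩
    have h1 : κ⁻¹ * g ∈ Subgroup.center (GL (Fin m) k) := QuotientGroup.eq.1 e
    obtain ⟨z, hz⟩ := exists_sc h1
    exact ⟨z, κ, hκ, by rw [← hz]; group⟩
  · rintro ⟨z, κ, hκ, rfl⟩
    rw [mkP_mul, mkP_sc, mul_one]
    exact ⟨κ, hκ, rfl⟩

theorem mem_QQ {q : (Matrix (Fin (m + 1)) (Fin (m + 1)) k)ˣ}
    (hq : q ∈ PP (k := k) (0 : Fin (m + 1))) :
    q ∈ QQ (k := k) (0 : Fin (m + 1)) ↔ mkP (bl ⟨q, hq⟩) ∈ UU k m := by
  rw [mkP_mem]
  constructor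
  · rintro ⟨-, z, h1, h2⟩
    have hz0 : 0 < ‖(z : k)‖ := norm_pos_iff.2 z.ne_zero
    refine ⟨z, bl ⟨q, hq⟩ * sc z⁻¹, mem_KK.2 ⟨fun i j => ?_, fun i j => ?_⟩, ?_⟩
    · rw [← sc_comm, sc_mul_val, Matrix.smul_apply, smul_eq_mul, norm_mul, norm_inv_unit, bl_val,
        inv_mul_le_iff₀ hz0, mul_one]
      exact h1 _ _ (Fin.succ_ne_zero i) (Fin.succ_ne_zero j)
    · rw [_root_.mul_inv_rev, ← map_inv, inv_inv, sc_mul_val, Matrix.smul_apply, smul_eq_mul,
        norm_mul, bl_inv_val, ← le_inv_mul_iff₀ hz0, mul_one]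
      exact h2 _ _ (Fin.succ_ne_zero i) (Fin.succ_ne_zero j)
    · rw [mul_assoc, ← map_mul, inv_mul_cancel, map_one, mul_one]
  · rintro ⟨z, κ, hκ, e⟩
    have hκ' := mem_KK.1 hκ
    refine ⟨hq, z, fun i j hi hj => ?_, fun i j hi hj => ?_⟩
    · obtain ⟨i', rfl⟩ := Fin.exists_succ_eq.2 hi
      obtain ⟨j', rfl⟩ := Fin.exists_succ_eq.2 hj
      have h1 := bl_val (⟨q, hq⟩ : PP (k := k) (0 : Fin (m + 1))) i' j'
      rw [e, ← sc_comm, sc_mul_val, Matrix.smul_apply, smul_eq_mul] at h1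
      show ‖q.1 i'.succ j'.succ‖ ≤ _
      rw [← h1, norm_mul]
      exact mul_le_of_le_one_right (norm_nonneg _) (hκ'.1 i' j')
    · obtain ⟨i', rfl⟩ := Fin.exists_succ_eq.2 hi
      obtain ⟨j', rfl⟩ := Fin.exists_succ_eq.2 hj
      have h1 := bl_inv_val (⟨q, hq⟩ : PP (k := k) (0 : Fin (m + 1))) i' j'
      rw [e, _root_.mul_inv_rev, ← map_inv, sc_mul_val, Matrix.smul_apply, smul_eq_mul] at h1
      show ‖(q⁻¹).1 i'.succ j'.succ‖ ≤ _
      rw [← h1, norm_mul, norm_inv_unit]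
      exact mul_le_of_le_one_right (inv_nonneg.2 (norm_nonneg _)) (hκ'.2 i' j')

/-- `U` is compact and open -/
theorem cos_UU [ProperSpace k] : SR.COS (UU k m) := by
  have h1 : KK k (Fin m) = cg k (Fin m) 1 zero_lt_one.le := rfl
  refine ⟨?_, ?_⟩
  · rw [UU, Subgroup.coe_map, h1]
    exact (cg_isCompact one_pos).image QuotientGroup.continuous_mk
  · rw [UU, Subgroup.coe_map, h1]
    exact QuotientGroup.isOpenMap_coe _ (cg_isOpen one_pos)

/-- the cocycle is the class of the block -/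
theorem cc_eq (g : GG k m) (y : YY k m) : cc g y = mkP (bl ⟨pc g y, pc_mem g y⟩) := by
  have h1 : blk g y = (bl ⟨pc g y, pc_mem g y⟩).1 := by
    ext i j
    rw [bl_val, blk, Matrix.submatrix_apply, sct_inv]
    rfl
  have h2 : IsUnit (blk g y) := by rw [h1]; exact Units.isUnit _
  unfold cc
  rw [dif_pos h2, mkP]
  congr 1
  ext1
  rw [IsUnit.unit_spec, h1]

theorem pc_mul (g h : GG k m) (y : YY k m) : pc (g * h) y = pc g (h • y) * pc h y := by
  rw [pc, pc, pc, mul_smul, map_mul]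
  group

/-- the cocycle identity -/
theorem cc_mul (g h : GG k m) (y : YY k m) : cc (g * h) y = cc g (h • y) * cc h y := by
  rw [cc_eq, cc_eq, cc_eq, ← mkP_mul, ← map_mul]
  congr 2
  exact Subtype.ext (pc_mul g h y)

end level

end Vale.Agent.P092.H242.Sct
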