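import Vale.Agent.P092.H242.HatC
import Vale.Agent.P092.H264.GrpC
import Vale.Agent.P092.H231.HatW
import Vale.Agent.P092.H448.TrK
import Vale.Agent.P092.H448.TrJ

/-!
P092 (helper242), Team C, block C-HAT: the field `hat` of `RC.Half` from the output of the engine.
-/

set_option linter.all false

open scoped InnerProductSpace ENNReal Pointwise
open Filter Topology ContinuousLinearMap MeasureTheory TopologicalSpace

namespace Vale.Agent.P092.H242C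

open Vale.Agent.P092.SR Vale.Agent.P092.H160 Vale.Agent.P092.RC
open Vale.Agent.P092.H242.Hat (Pt Eh Nul Eqn MS CG ihat hat_of' ur_of pic_of comm_contract)
open Vale.Agent.P092.H242.ConeG (Bq CN Cn CSt Dsc dsc_of cg_of fq_base eqn_of_fq wall_cover
  hG1_g1 hG2_g2 hG2_inv)
open Vale.Agent.P092.H242.Sct (UU cos_UU)
open Vale.Agent.P092.H575 (g1 g2)

section count

variable {k : Type} [NontriviallyNormedField k] [IsUltrametricDist k] [ProperSpace k] {m : ℕ}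
  {Γ K : Type} [Group Γ] [NormedAddCommGroup K] [InnerProductSpace ℂ K] [CompleteSpace K]
  {π : GG k m →* (K →L[ℂ] K)} {lam : Γ →* (K →L[ℂ] K)} {ms : Set Γ → (K →L[ℂ] K)} {b : GG k m}
  {q : Γ →* GG k m}

/-- the counting bound -/
theorem hcount_of (P : H242.Hat.Pic (fun γ => lam γ) ms (fun g => π g))
    (hn : ∀ γ : Γ, Nul ms (fun g => π g) b {γ}) (hq : Emb q) (hm : 2 ≤ m)
    (C C' : Clopens (YY k m)) (hd : Disjoint C C') (h h' : PG k m) :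
    ∃ (S S' : Set Γ) (N : ℕ),
      Eqn ms (fun g => π g) b
        (CN q h ∩ Bq q (fun γ => g1 (q γ).1) (fun γ => g2 (q γ).1) (C : Set (YY k m))) S ∧
      Eqn ms (fun g => π g) b
        (CN q h' ∩ Bq q (fun γ => g1 (q γ).1) (fun γ => g2 (q γ).1) (C' : Set (YY k m))) S' ∧
      ∀ η : Γ, {γ : Γ | γ ∈ S ∧ γ * η ∈ S'}.encard ≤ N := by
  have hm1 : 1 < m + 1 := by omega
  have hd' : Disjoint (C : Set (YY k m)) (C' : Set (YY k m)) := by
    rw [Set.disjoint_iff_inter_eq_empty, ← Clopens.coe_inf, disjoint_iff.1 hd]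
    rfl
  obtain ⟨N, hN⟩ := H448.Trb.count_inst hm hq C.isClopen.isClosed C'.isClopen.isClosed hd'
    h.out h'.out (le_refl (1 : ℝ)) (le_refl (1 : ℝ))
  exact ⟨Cn q (CSt h.out C), Cn q (CSt h'.out C'), N,
    eqn_of_fq P hn (fq_base (hm1 := hm1) hG1_g1 hG2_g2 (dsc_of hq) C.isClopen h.out),
    eqn_of_fq P hn (fq_base (hm1 := hm1) hG1_g1 hG2_g2 (dsc_of hq) C'.isClopen h'.out), hN⟩

end count

section con

variable {k : Type} [NontriviallyNormedField k] [ProperSpace k] [IsUltrametricDist k] {m : ℕ}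
  [LocallyCompactSpace (GG k m)]
  [SecondCountableTopology (GG k m)] [MeasurableSpace (GG k m)] [BorelSpace (GG k m)]
  {Γ : Subgroup (GG k m)} [DiscreteTopology Γ] [Countable Γ] [MeasurableSpace (GG k m ⧸ Γ)]
  [BorelSpace (GG k m ⧸ Γ)] {ν : Measure (GG k m ⧸ Γ)} [IsProbabilityMeasure ν]
  (hν : ∀ g : GG k m, ν.map (fun x => g • x) = ν)
  {Λ : Type} [Group Λ] {α : Γ →* (Ell2 Λ →L[ℂ] Ell2 Λ)} (hα : Frame α)

/-- **The field `hat` of `RC.Half`.** -/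
theorem hat_fin (hm : 2 ≤ m) {q : Γ →* GG k m} (hq : Emb q) {w : k} (hw : w ≠ 0)
    (hw1 : ‖w‖ < 1) (hun : ∀ s : k, s ≠ 0 → ∃ j : ℤ, ‖s‖ = ‖w‖ ^ j)
    (hp : Pic2 (piC hν hα) (lamC hν (RR₁ α)) (lamC hν (RR₂ α)) (XC hν Λ) (OmC hν Λ))
    {E : Clopens (YY k m) → (KC hν Λ →L[ℂ] KC hν Λ)}
    (hE : Lim (piC hν hα) (lamC hν (RR₁ α)) (XC hν Λ ∪ Set.range (lamC hν (RR₂ α))) q y0 E)
    (hlim : ∀ (C : Clopens (YY k m)) ξ, Tendsto (fun n : ℕ =>
      piC hν hα (H701.tor m hw 0 ^ n)⁻¹ (mC hν hα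
        (Bq q (fun γ => g1 (q γ).1) (fun γ => g2 (q γ).1) (C : Set (YY k m)))
        (piC hν hα (H701.tor m hw 0 ^ n) ξ))) atTop (𝓝 (E C ξ)))
    (hesc : ∀ (γ : Γ) ξ, Tendsto (fun n : ℕ =>
      mC hν hα {γ} (piC hν hα (H701.tor m hw 0 ^ n) ξ)) atTop (𝓝 0))
    (mass : ∃ (ξ : KC hν Λ) (R δ : ℝ), 0 < δ ∧ ∀ᶠ n : ℕ in atTop,
      δ ≤ ‖mC hν hα {γ : Γ | g2 (q γ).1 ≤ R} (piC hν hα (H701.tor m hw 0 ^ n) ξ)‖ ^ 2) :
    ∃ U a, Hat (piC hν hα) (lamC hν (RR₁ α))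
      (XC hν Λ ∪ Set.range (lamC hν (RR₂ α)) ∪ Set.range (flp hν E)) (OmC hν Λ) q cc y0 E U a := by
  have hm1 : 1 < m + 1 := by omega
  set b : GG k m := H701.tor m hw 0 with hb
  set L := H264.GrpC.L m hw with hL
  haveI : CompactSpace L := isCompact_iff_compactSpace.1 (H264.GrpC.isCompact_L hw)
  letI : MeasurableSpace L := borel _
  haveI : BorelSpace L := ⟨rfl⟩
  obtain ⟨μ, hμ1, hμ2, hμ3⟩ := exists_haar L
  obtain ⟨𝒰, hU⟩ : ∃ 𝒰 : Ultrafilter ℕ, (𝒰 : Filter ℕ) ≤ atTop :=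
    ⟨Ultrafilter.of atTop, Ultrafilter.of_le atTop⟩
  have hP := hp.leg₁
  have hms := msC hν hα
  have P := pic_of hP hms
  have hn : ∀ γ : Γ, Nul (mC hν hα) (fun g => piC hν hα g) b {γ} := fun γ ξ => hesc γ ξ
  have hG := cg_of (q := q) (hm1 := hm1) P hn (dsc_of hq) hm hG1_g1 hG2_g2
  have hu := ur_of (ρ := L.subtype) hP continuous_subtype_val
  have hρy : ∀ l : L, L.subtype l • (y0 : YY k m) = y0 := fun l => H264.GrpC.L_y0 hw hw1 l.2
  have hl : ∀ (A : Clopens (YY k m)) ξ, Tendsto (fun t : ℕ => Pt (mC hν hα)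
      (fun g => piC hν hα g) (b ^ t)
      (Bq q (fun γ => g1 (q γ).1) (fun γ => g2 (q γ).1) (A : Set (YY k m))) ξ) atTop
      (𝓝 (E A ξ)) := fun A ξ => hlim A ξ
  obtain ⟨ξ, R, δ, hδ, hmass⟩ := mass
  obtain ⟨H, hH⟩ := wall_cover (q := q) (hm1 := hm1) (G2 := fun γ => g2 (q γ).1) (r := R)
    (dsc_of hq) (fun γ h => hG2_inv R γ h)
  have hsl : ∀ (u : ℕ → GG k m), Tendsto u atTop (𝓝 1) → ∀ (S : Set Γ) ξ,
      Tendsto (fun t : ℕ => (piC hν hα (u t) * mC hν hα S - mC hν hα S * piC hν hα (u t))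
        (piC hν hα (b ^ t) ξ)) atTop (𝓝 0) := fun u hu S ξ => slowC hν hα hu b S ξ
  refine ⟨UU k m, ihat hu μ (mC hν hα) 𝒰 b (CN q), ?_⟩
  refine hat_of' (N := (H264.GrpC.N k m : Set (GG k m))) (H := H) hP hms hU hG hl hu hρy cos_UU hE
    (H231.HatW.ext_ms hν hα hp hms hE hl)
    (H231.HatW.comm_ms hν hα hp hms hE hl hU)
    (fun l => H264.GrpC.L_b hw l.2) (fun n hn' S => ?_) (fun n hn' l => ?_) (fun r hr hc => ?_)
    (H264.GrpC.isOpen_V (k := k) (m := m)) (fun p hp' hpy => ?_) ?_ hδ hmass ?_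
  · exact comm_contract P hU hsl (H264.GrpC.N_tendsto hw hw1 hn') S
  · exact H264.GrpC.N_L hw hw1 hn' l.2
  · obtain ⟨l, hl', j, n, hn', e⟩ := H264.GrpC.G3 hw hw1 hun hr hc
    exact ⟨⟨l, hl'⟩, j, n, hn', e⟩
  · obtain ⟨l, hl', n, hn', e⟩ := H264.GrpC.G4 hw hw1 hp' hpy
    exact ⟨⟨l, hl'⟩, n, hn', e⟩
  · exact P.nul_finite hn hH
  · exact H448.Trb.ihat_tb hP hms (msrC hν hα) hU hl hu hρy hE
      fun C C' hd h h' => hcount_of P hn hq hm C C' hd h h'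

end con

end Vale.Agent.P092.H242C
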