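import Vale.Agent.P092.H242.TPair
import Vale.Agent.P092.H432.EFam

/-!
P092 (helper242): the row model `ℓ²(Γ × ι)` is an instance of `Base`, amplified representations are
instances of `TRep`, and the pairing lemma in the row model.
-/

set_option linter.all false

open scoped InnerProductSpace
open Filter Topology ContinuousLinearMap

namespace Vale.Agent.P092.H242

open Vale.Agent.P092.H160 Vale.Agent.P092.H553 Vale.Agent.P092.H432 Vale.Agent.P092.H132
open Vale.Agent.P092.H538 (Usm EFam)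

section base

variable {Γ ι : Type} [Group Γ]

theorem raof_iff {T : Ell2 (Γ × ι) →L[ℂ] Ell2 (Γ × ι)} :
    RAof H432.lx ({1} : Set (Ell2 (Γ × ι) →L[ℂ] Ell2 (Γ × ι))) T ↔ H432.RA T := by
  constructor
  · rintro ⟨h1, -⟩ s
    exact h1 s
  · intro h
    refine ⟨fun s => h s, ?_⟩
    rintro a ha
    rw [Set.mem_singleton_iff] at ha
    rw [ha, mul_one, one_mul]

/-- the discrete identity behind the trace property -/
theorem row_exch [Fintype ι] {a a' b b' : ι → Ell2 (Γ × ι)}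
    (h1 : ∀ g i j, a i (g, j) = (starRingEnd ℂ) (a' j (g⁻¹, i)))
    (h2 : ∀ g i j, b' i (g, j) = (starRingEnd ℂ) (b j (g⁻¹, i)))
    {q : Γ → ℝ} {C : ℝ} (hq : ∀ g, |q g| ≤ C) :
    ∑ i, ⟪a i, mp ι q (b i)⟫_ℂ = ∑ i, ⟪b' i, mp ι (fun g => q g⁻¹) (a' i)⟫_ℂ := by
  have e1 : HasSum (fun g : Γ => ∑ i, ∑ j, (q g : ℂ) * b i (g, j) * a' j (g⁻¹, i))
      (∑ i, ⟪a i, mp ι q (b i)⟫_ℂ) := by
    refine hasSum_sum fun i _ => ?_
    have h := hasSum_inner' (a i) (mp ι q (b i))
    have h3 := HasSum.prod_fiberwise h fun g => hasSum_fintype _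
    refine h3.congr_fun fun g => Finset.sum_congr rfl fun j _ => ?_
    rw [h1, Complex.conj_conj, mp, mo_apply (F := fun x : Γ × ι => q x.1) (fun x => hq _)]
  have e2 : HasSum (fun g : Γ => ∑ i, ∑ j, (q g⁻¹ : ℂ) * a' i (g, j) * b j (g⁻¹, i))
      (∑ i, ⟪b' i, mp ι (fun g => q g⁻¹) (a' i)⟫_ℂ) := by
    refine hasSum_sum fun i _ => ?_
    have h := hasSum_inner' (b' i) (mp ι (fun g => q g⁻¹) (a' i))
    have h3 := HasSum.prod_fiberwise h fun g => hasSum_fintype _
    refine h3.congr_fun fun g => Finset.sum_congr rfl fun j _ => ?_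
    rw [h2, Complex.conj_conj, mp, mo_apply (F := fun x : Γ × ι => q x.1⁻¹) (fun x => hq _)]
  rw [← (Equiv.inv Γ).hasSum_iff] at e2
  refine e1.unique (e2.congr_fun fun g => ?_)
  rw [Function.comp_apply, Equiv.inv_apply, inv_inv, Finset.sum_comm]
  refine Finset.sum_congr rfl fun i _ => Finset.sum_congr rfl fun j _ => ?_
  ring

variable (Γ ι) [Fintype ι]

/-- The row model. -/
noncomputable def baseR : Base Γ ι (Ell2 (Γ × ι)) where
  lx := H432.lx
  mp := mp ι
  sc := {1}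
  ep := H432.ep
  lx_mul := H432.lx_mul
  lx_one := H432.lx_one
  lx_adj := H432.adjoint_lx
  mp_one := ContinuousLinearMap.ext fun ξ => mo_one ξ
  mp_add := fun {F G C D} hF hG => ContinuousLinearMap.ext fun ξ =>
    mo_add (F := fun x : Γ × ι => F x.1) (G := fun x : Γ × ι => G x.1) (fun x => hF _)
      (fun x => hG _) ξ
  mp_smul := fun c {F C} hF => ContinuousLinearMap.ext fun ξ =>
    mo_smul c (F := fun x : Γ × ι => F x.1) (fun x => hF _) ξ
  mp_mul := fun {F G C D} hF hG => by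
    refine ContinuousLinearMap.ext fun ξ => ?_
    ext x
    have hFG : ∀ x : Γ × ι, |F x.1 * G x.1| ≤ C * D := fun x => by
      rw [abs_mul]
      exact mul_le_mul (hF _) (hG _) (abs_nonneg _) ((abs_nonneg _).trans (hF x.1))
    rw [mul_ap, mp, mp, mp, mo_apply (F := fun x : Γ × ι => F x.1 * G x.1) hFG,
      mo_apply (F := fun x : Γ × ι => F x.1) (fun x => hF _),
      mo_apply (F := fun x : Γ × ι => G x.1) (fun x => hG _)]
    push_cast
    ring
  mp_adj := fun {F C} hF => adjoint_mo (F := fun x : Γ × ι => F x.1) (fun x => hF _)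
  lx_mp := fun {F C} hF s => ContinuousLinearMap.ext fun ξ => H432.lx_mp hF s ξ
  sc_one := rfl
  sc_adj := by
    rintro a ha
    rw [Set.mem_singleton_iff] at ha
    rw [ha, ← star_eq_adjoint, star_one]
  sc_le := by
    rintro a ha
    rw [Set.mem_singleton_iff] at ha
    rw [ha]
    exact ContinuousLinearMap.norm_id_le
  sc_lx := by
    rintro a ha s
    rw [Set.mem_singleton_iff] at ha
    rw [ha, one_mul, mul_one]
  sc_mp := by
    rintro a ha F C hF
    rw [Set.mem_singleton_iff] at ha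
    rw [ha, one_mul, mul_one]
  total := fun ξ h => by
    have h1 : ∀ x : Γ × ι, (ξ : Ell2 (Γ × ι)) x = 0 := by
      intro x
      have h2 := h x.1 1 rfl x.2
      rw [show (1 : Ell2 (Γ × ι) →L[ℂ] Ell2 (Γ × ι)) (H432.ep x.2) = H432.ep x.2 from rfl,
        lx_ep, inner_dl] at h2
      exact h2
    ext x
    exact h1 x
  exch := fun {S T} hS hT {q C} hq => by
    have hS' := raof_iff.1 hS
    have hT' := raof_iff.1 hT
    exact row_exch (a := fun i => adjoint S (H432.ep i)) (a' := fun i => S (H432.ep i))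
      (b := fun i => T (H432.ep i)) (b' := fun i => adjoint T (H432.ep i))
      (fun g i j => hS'.coef g i j) (fun g i j => hT'.coef g i j) hq
  appr := fun {T} hT {ε} hε => by
    classical
    obtain ⟨A, hA⟩ := exists_appr T (ε := ε) hε
    obtain ⟨e⟩ : Nonempty ((Fin (Fintype.card (ι × A))) ≃ (ι × A)) := ⟨(Fintype.equivFin _).symm⟩
    refine ⟨Fintype.card (ι × A), fun j => (T (H432.ep (e j).1) : Ell2 (Γ × ι)) (e j).2.1 •
      ex (e j).1 (e j).2.1.2 (e j).2.1.1, fun j => (e j).2.1.1, fun j => ?_, fun j F C hF => ?_, ?_⟩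
    · exact raof_iff.2 ((ex_ra _ _ _).smul _)
    · refine ContinuousLinearMap.ext fun ξ => ?_
      rw [mul_ap, mul_ap, smul_apply, smul_apply, map_smul, mp_ex hF]
    · have h1 : (∑ j, (T (H432.ep (e j).1) : Ell2 (Γ × ι)) (e j).2.1 •
          (ex (e j).1 (e j).2.1.2 (e j).2.1.1 : Ell2 (Γ × ι) →L[ℂ] Ell2 (Γ × ι))) =
          H432.appr T A := by
        rw [H432.appr, e.sum_comp (fun p : ι × A => (T (H432.ep p.1) : Ell2 (Γ × ι)) p.2.1 •
          (ex p.1 p.2.1.2 p.2.1.1 : Ell2 (Γ × ι) →L[ℂ] Ell2 (Γ × ι))), Fintype.sum_prod_type]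
        refine Finset.sum_congr rfl fun i _ => ?_
        exact Finset.sum_coe_sort A (fun x => (T (H432.ep i) : Ell2 (Γ × ι)) x •
          (ex i x.2 x.1 : Ell2 (Γ × ι) →L[ℂ] Ell2 (Γ × ι)))
      rw [h1]
      exact hA

variable {Γ ι}

theorem baseR_ra {T : Ell2 (Γ × ι) →L[ℂ] Ell2 (Γ × ι)} : (baseR Γ ι).RA T ↔ H432.RA T := raof_iff

end base

section trep

variable {Γ ι Λ : Type} [Group Γ] [Group Λ] [Fintype ι] {t : ℝ}
  {R : Λ → (Ell2 (Γ × ι) →L[ℂ] Ell2 (Γ × ι))}

/-- Amplified representations in the abstract row model. -/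
theorem trepR (hR : ARep t R) : TRep (baseR Γ ι) t R where
  nr := fun v => ⟨R v, 1, baseR_ra.2 (hR.ra v), Koop.one, (mul_one _).symm⟩
  mul := hR.mul
  adj := hR.adj
  one := baseR_ra.2 (hR.ra 1)
  pos := hR.pos
  tr_one := hR.tr_one

theorem efamR {E : Set Λ → (Ell2 (Γ × ι) →L[ℂ] Ell2 (Γ × ι))} (hE : EFam R E) :
    EFamT (baseR Γ ι) R E where
  nonneg := hE.nonneg
  add := hE.add
  univ := hE.univ
  cov := hE.cov
  sc := fun A a ha => by
    have h1 : a = 1 := ha
    rw [h1, mul_one, one_mul]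

/-- **Pairing lemma in the row model.** -/
theorem pairing_row [Countable Γ] (hR : ARep t R) (U : Ultrafilter ℕ) (z : ℕ → Λ)
    (K : Subgroup Λ) (hz : ∀ k, ∀ v ∈ K, z k * v = v * z k) {c : ℝ} (hc : 0 < c)
    (h : ∀ (S : Finset Γ) (ε : ℝ), 0 < ε → ∃ (B : Finset Γ) (α β : ℕ → Γ → Γ → ℝ),
      PData U S ε B α β ∧ ∀ v ∈ K, c ≤ ∑ i, (⟪R v (H432.ep i),
        H432.PiA U R z (fun k g => ∑ b ∈ B, α k b g * β k b g) (R v (H432.ep i))⟫_ℂ).re) :
    ∃ m : Set Λ → ℝ, H200.IsInvMean K m := by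
  classical
  obtain ⟨E, hE⟩ := exists_efam hR
  exact pairing (Bs := baseR Γ ι) (trepR hR) (efamR hE) K hz hc h

end trep

end Vale.Agent.P092.H242
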