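import Vale.Agent.P092.H242.Row
import Vale.Agent.P092.H242.Conv
import Vale.Agent.P092.H175.RowMass

/-!
P092 (helper242): block [R5] of the rank theorem completed: the pairing property of the masses in
the row model.
-/

set_option linter.all false

open scoped InnerProductSpace
open Filter Topology ContinuousLinearMap

namespace Vale.Agent.P092.H242

open Vale.Agent.P092.H160 Vale.Agent.P092.H553 Vale.Agent.P092.H200 Vale.Agent.P092.H432
open Vale.Agent.P092.H538 (Usm)
open Vale.Agent.P092.H761 (PairFam MassData massR RowMass)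
open Vale.Agent.P092.H175 (PairStmt rowMass_of_pair massR_tendsto)

/-- The pairing property. -/
theorem pairStmt {Γ Λ ι : Type} [Group Γ] [DecidableEq Γ] [Countable Γ] [Group Λ] [Fintype ι]
    {t : ℝ} {R : Λ → (Ell2 (Γ × ι) →L[ℂ] Ell2 (Γ × ι))} (hR : ARep t R) : PairStmt R := by
  intro K hK U z hz c hc h
  refine hK (pairing_row hR U z K hz hc fun S ε hε => ?_)
  obtain ⟨B, F, H, hP, hl⟩ := h S ε hε
  have hD := pdata_of_pairFam hP
  refine ⟨B, F, H, hD, fun v hv => ?_⟩
  have hb : ∀ k g, |∑ b ∈ B, F k b g * H k b g| ≤ (B.card : ℝ) * 1 := by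
    intro k g
    refine (Finset.abs_sum_le_sum_abs _ _).trans ?_
    rw [← nsmul_eq_mul, ← Finset.sum_const]
    refine Finset.sum_le_sum fun b _ => ?_
    rw [abs_mul]
    calc |F k b g| * |H k b g| ≤ 1 * 1 :=
          mul_le_mul (hD.a_abs k b g) (hD.b_abs k b g) (abs_nonneg _) zero_le_one
      _ = 1 := one_mul 1
  exact ge_of_tendsto (massR_tendsto hR U z v hb) (hl v hv)

/-- **[R5]** The row model satisfies `MassData`. -/
theorem rowMass : RowMass := fun _ _ _ _ _ _ _ _ _ _ _ hR => rowMass_of_pair hR (pairStmt hR)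

end Vale.Agent.P092.H242
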