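import Vale.Agent.P092.H859.Mean
import Vale.Agent.P092.H132.TRep

/-!
P092 (helper242), abstract row model (helper132's `Base`/`TRep`): asymptotically covariant families
of operators, the trace property for their masses, and two endgames: an invariant mean (a port of
helper859's `mean_of_maps`) and a finite ping-pong estimate (helper261).
-/

set_option linter.all false

open scoped InnerProductSpace
open Filter Topology ContinuousLinearMap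

namespace Vale.Agent.P092.H242

open Vale.Agent.P092.H160 Vale.Agent.P092.H553 Vale.Agent.P092.H132
open Vale.Agent.P092.H859 (ul ul_spec ul_eq mean_of_convex BB sum_BB_left sum_BB_right sum_inner_le
  sq_add_le half_sq_le half_par sqrt_sum_sub_le)

variable {Γ ι H D κ : Type} [Group Γ] [Group D] [Fintype ι] [NormedAddCommGroup H]
  [InnerProductSpace ℂ H] [CompleteSpace H] {Bs : Base Γ ι H} {t : ℝ} {R : D → (H →L[ℂ] H)}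
  {E : Set D → (H →L[ℂ] H)}

section roots

/-- Positive contractions in the commutant of the scalars have roots there. -/
theorem root_sc {G : H →L[ℂ] H} (hG : 0 ≤ G) (hs : ∀ a ∈ Bs.sc, G * a = a * G) :
    ∃ g : H →L[ℂ] H, (∀ ξ, ‖g ξ‖ ^ 2 = (⟪ξ, G ξ⟫_ℂ).re) ∧ (∀ ξ η, ⟪g ξ, g η⟫_ℂ = ⟪ξ, G η⟫_ℂ) ∧
      ∀ a ∈ Bs.sc, g * a = a * g := by
  obtain ⟨g, hg, hc⟩ := H108.exists_sqrt hG
  have h1 : ∀ ξ η, ⟪g ξ, g η⟫_ℂ = ⟪ξ, G η⟫_ℂ := by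
    intro ξ η
    rw [← hg, mul_ap, star_eq_adjoint, adjoint_inner_right]
  refine ⟨g, fun ξ => ?_, h1, fun a ha => (hc a (hs a ha).symm).symm⟩
  rw [← h1, inner_self_eq_norm_sq_to_K]
  norm_cast

theorem norm_le_of_root {G g : H →L[ℂ] H} (h1 : ∀ ξ, (⟪ξ, G ξ⟫_ℂ).re ≤ ‖ξ‖ ^ 2)
    (hg : ∀ ξ, ‖g ξ‖ ^ 2 = (⟪ξ, G ξ⟫_ℂ).re) (ξ : H) : ‖g ξ‖ ≤ ‖ξ‖ := by
  refine (sq_le_sq₀ (norm_nonneg _) (norm_nonneg _)).mp ?_
  rw [hg]; exact h1 ξ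

end roots

section index

theorem sum_BJ_left {M : Type} [AddCommMonoid M] {B : Finset Γ} (J : Finset κ) (s : Γ)
    (f : Γ × κ → M) (hf : ∀ p : Γ × κ, p.1 ∉ B → f p = 0) :
    ∑ p ∈ BB B s ×ˢ J, f p = ∑ p ∈ B ×ˢ J, f p := by
  rw [Finset.sum_product, Finset.sum_product]
  exact sum_BB_left s (fun b => ∑ j ∈ J, f (b, j)) fun b hb =>
    Finset.sum_eq_zero fun j _ => hf (b, j) hb

theorem sum_BJ_right {M : Type} [AddCommMonoid M] {B : Finset Γ} (J : Finset κ) (s : Γ)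
    (f : Γ × κ → M) (hf : ∀ p : Γ × κ, p.1 ∉ B → f p = 0) :
    ∑ p ∈ BB B s ×ˢ J, f (s * p.1, p.2) = ∑ p ∈ B ×ˢ J, f p := by
  rw [Finset.sum_product, Finset.sum_product]
  exact sum_BB_right s (fun b => ∑ j ∈ J, f (b, j)) fun b hb =>
    Finset.sum_eq_zero fun j _ => hf (b, j) hb

end index

/-- Families of operators with finitely many members, of row norm at most one, in the corner,
commuting with the scalars. -/
structure TFam (Bs : Base Γ ι H) (R : D → (H →L[ℂ] H)) (B : ℕ → Finset Γ) (J : ℕ → Finset κ)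
    (P : ℕ → Γ × κ → (H →L[ℂ] H)) : Prop where
  off : ∀ n, ∀ p : Γ × κ, p.1 ∉ B n → P n p = 0
  bdd : ∀ n (ξ : H), ∑ p ∈ B n ×ˢ J n, ‖P n p ξ‖ ^ 2 ≤ ‖ξ‖ ^ 2
  oneL : ∀ n p, R 1 * P n p = P n p
  oneR : ∀ n p, P n p * R 1 = P n p
  sc : ∀ n p, ∀ a ∈ Bs.sc, P n p * a = a * P n p

/-- Asymptotic left covariance. -/
def TCov (Bs : Base Γ ι H) (U : Ultrafilter ℕ) (B : ℕ → Finset Γ) (J : ℕ → Finset κ)
    (P : ℕ → Γ × κ → (H →L[ℂ] H)) : Prop :=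
  ∀ (s : Γ) (ξ : H), Tendsto (fun n => ∑ p ∈ BB (B n) s ×ˢ J n,
    ‖P n (s * p.1, p.2) ξ - Bs.lx s (P n p (Bs.lx s⁻¹ ξ))‖ ^ 2) U (𝓝 0)

/-- The lower bound at `v`. -/
def TLowAt (Bs : Base Γ ι H) (R : D → (H →L[ℂ] H)) (U : Ultrafilter ℕ)
    (B : ℕ → Finset Γ) (J : ℕ → Finset κ) (Y P : ℕ → Γ × κ → (H →L[ℂ] H)) (c : ℝ) (u : D) :
    Prop :=
  ∀ᶠ n in U, c ≤ ∑ i, (∑ p ∈ B n ×ˢ J n,
    ⟪Y n p (R u (Bs.ep i)), P n p (R u (Bs.ep i))⟫_ℂ).re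

section basic

variable {B : ℕ → Finset Γ} {J : ℕ → Finset κ}
  {P Q Y : ℕ → Γ × κ → (H →L[ℂ] H)} {U : Ultrafilter ℕ}

theorem TFam.bdd_BB (hP : TFam Bs R B J P) (s : Γ) (n : ℕ) (ξ : H) :
    ∑ p ∈ BB (B n) s ×ˢ J n, ‖P n p ξ‖ ^ 2 ≤ ‖ξ‖ ^ 2 := by
  rw [sum_BJ_left (J n) s (fun p => ‖P n p ξ‖ ^ 2) (fun p hp => by rw [hP.off n p hp]; simp)]
  exact hP.bdd n ξ

theorem TFam.bdd_BB' (hP : TFam Bs R B J P) (s : Γ) (n : ℕ) (ξ : H) :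
    ∑ p ∈ BB (B n) s ×ˢ J n, ‖P n (s * p.1, p.2) ξ‖ ^ 2 ≤ ‖ξ‖ ^ 2 := by
  rw [sum_BJ_right (J n) s (fun p => ‖P n p ξ‖ ^ 2) (fun p hp => by rw [hP.off n p hp]; simp)]
  exact hP.bdd n ξ

/-- The midpoint of two families. -/
noncomputable def tmid (P Q : ℕ → Γ × κ → (H →L[ℂ] H)) : ℕ → Γ × κ → (H →L[ℂ] H) :=
  fun n p => (1 / 2 : ℂ) • (P n p + Q n p)

theorem tmid_apply (P Q : ℕ → Γ × κ → (H →L[ℂ] H)) (n : ℕ) (p : Γ × κ)
    (ξ : H) : tmid P Q n p ξ = (1 / 2 : ℂ) • (P n p ξ + Q n p ξ) := rfl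

/-- Conjugation by the representation. -/
noncomputable def tact (R : D → (H →L[ℂ] H)) (u : D) (P : ℕ → Γ × κ → (H →L[ℂ] H)) :
    ℕ → Γ × κ → (H →L[ℂ] H) :=
  fun n p => R u⁻¹ * (P n p * R u)

theorem tact_apply (u : D) (P : ℕ → Γ × κ → (H →L[ℂ] H)) (n : ℕ)
    (p : Γ × κ) (ξ : H) : tact R u P n p ξ = R u⁻¹ (P n p (R u ξ)) := rfl

theorem TFam.mid (hP : TFam Bs R B J P) (hQ : TFam Bs R B J Q) : TFam Bs R B J (tmid P Q) where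
  off n p hp := by rw [tmid, hP.off n p hp, hQ.off n p hp, add_zero, smul_zero]
  bdd n ξ := by
    have h1 : ∑ p ∈ B n ×ˢ J n, ‖tmid P Q n p ξ‖ ^ 2 ≤
        ∑ p ∈ B n ×ˢ J n, (‖P n p ξ‖ ^ 2 + ‖Q n p ξ‖ ^ 2) / 2 :=
      Finset.sum_le_sum fun p _ => half_sq_le _ _
    rw [← Finset.sum_div, Finset.sum_add_distrib] at h1
    have := hP.bdd n ξ
    have := hQ.bdd n ξ
    linarith
  oneL n p := by
    rw [tmid, mul_smul_comm, mul_add, hP.oneL, hQ.oneL]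
  oneR n p := by
    rw [tmid, smul_mul_assoc, add_mul, hP.oneR, hQ.oneR]
  sc n p a ha := by
    rw [tmid, smul_mul_assoc, mul_smul_comm, add_mul, mul_add, hP.sc n p a ha, hQ.sc n p a ha]

theorem TCov.mid (hP : TCov Bs U B J P) (hQ : TCov Bs U B J Q) : TCov Bs U B J (tmid P Q) := by
  intro s ξ
  have h1 := ((hP s ξ).add (hQ s ξ)).div_const 2
  rw [add_zero, zero_div] at h1
  refine squeeze_zero (fun n => Finset.sum_nonneg fun b _ => by positivity) (fun n => ?_) h1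
  rw [← Finset.sum_add_distrib, Finset.sum_div]
  refine Finset.sum_le_sum fun p _ => ?_
  have e1 : tmid P Q n (s * p.1, p.2) ξ - Bs.lx s (tmid P Q n p (Bs.lx s⁻¹ ξ)) =
      (1 / 2 : ℂ) • ((P n (s * p.1, p.2) ξ - Bs.lx s (P n p (Bs.lx s⁻¹ ξ))) +
        (Q n (s * p.1, p.2) ξ - Bs.lx s (Q n p (Bs.lx s⁻¹ ξ)))) := by
    rw [tmid_apply, tmid_apply, map_smul, ← smul_sub, map_add]
    congr 1
    abel
  rw [e1]
  exact half_sq_le _ _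

theorem TLowAt.mid {c : ℝ} {u : D} (hP : TLowAt Bs R U B J Y P c u)
    (hQ : TLowAt Bs R U B J Y Q c u) : TLowAt Bs R U B J Y (tmid P Q) c u := by
  filter_upwards [hP, hQ] with n h1 h2
  have e1 : ∑ i, (∑ p ∈ B n ×ˢ J n,
      ⟪Y n p (R u (Bs.ep i)), tmid P Q n p (R u (Bs.ep i))⟫_ℂ).re =
      (1 / 2 : ℝ) *
        (∑ i, (∑ p ∈ B n ×ˢ J n, ⟪Y n p (R u (Bs.ep i)), P n p (R u (Bs.ep i))⟫_ℂ).re +
        ∑ i, (∑ p ∈ B n ×ˢ J n, ⟪Y n p (R u (Bs.ep i)), Q n p (R u (Bs.ep i))⟫_ℂ).re) := by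
    rw [← Finset.sum_add_distrib, Finset.mul_sum]
    refine Finset.sum_congr rfl fun i _ => ?_
    rw [← Complex.add_re, ← Finset.sum_add_distrib, ← Complex.re_ofReal_mul, Finset.mul_sum]
    congr 1
    refine Finset.sum_congr rfl fun p _ => ?_
    rw [tmid_apply, inner_smul_right, inner_add_right]
    push_cast
    ring
  rw [e1]
  linarith

section act

variable (hR : TRep Bs t R)

include hR

/-- scalars move through `R v⁻¹` in the other direction -/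
theorem sc_pair (v : D) {a : H →L[ℂ] H} (ha : a ∈ Bs.sc) :
    ∃ a' ∈ Bs.sc, R v * a = a' * R v ∧ R v⁻¹ * a' = a * R v⁻¹ := by
  obtain ⟨a', ha', h1⟩ := hR.sc v ha
  refine ⟨a', ha', h1, ?_⟩
  have h2 := congrArg adjoint h1
  rw [H132.adj_mul, H132.adj_mul, Bs.sc_adj a ha, Bs.sc_adj a' ha', hR.adj] at h2
  exact h2.symm

theorem TFam.act (hP : TFam Bs R B J P) (u : D) : TFam Bs R B J (tact R u P) where
  off n p hp := by rw [tact, hP.off n p hp, zero_mul, mul_zero]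
  bdd n ξ := by
    have h1 := hP.bdd n (R u ξ)
    have h0 : ‖R u ξ‖ ^ 2 ≤ ‖ξ‖ ^ 2 := pow_le_pow_left₀ (norm_nonneg _) (hR.norm_le u ξ) 2
    refine le_trans (Finset.sum_le_sum fun p _ => ?_) (h1.trans h0)
    rw [tact_apply]
    exact pow_le_pow_left₀ (norm_nonneg _) (hR.norm_le u⁻¹ (P n p (R u ξ))) 2
  oneL n p := by rw [tact, ← mul_assoc, hR.one_mul]
  oneR n p := by rw [tact, mul_assoc, mul_assoc, hR.mul_one]
  sc n p a ha := by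
    obtain ⟨a', ha', h1, h2⟩ := sc_pair hR u ha
    calc tact R u P n p * a = R u⁻¹ * (P n p * (R u * a)) := by
          rw [tact]; simp only [mul_assoc]
      _ = R u⁻¹ * ((P n p * a') * R u) := by rw [h1]; simp only [mul_assoc]
      _ = (R u⁻¹ * a') * (P n p * R u) := by rw [hP.sc n p a' ha']; simp only [mul_assoc]
      _ = a * tact R u P n p := by rw [h2, tact]; simp only [mul_assoc]

theorem TCov.act (hP : TCov Bs U B J P) (u : D) : TCov Bs U B J (tact R u P) := by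
  intro s ξ
  refine squeeze_zero (fun n => Finset.sum_nonneg fun b _ => by positivity) (fun n => ?_)
    (hP s (R u ξ))
  refine Finset.sum_le_sum fun p _ => ?_
  rw [tact_apply, tact_apply, ← hR.lx u⁻¹ s, ← map_sub, hR.lx u s⁻¹]
  exact pow_le_pow_left₀ (norm_nonneg _) (hR.norm_le u⁻¹
    (P n (s * p.1, p.2) (R u ξ) - Bs.lx s (P n p (Bs.lx s⁻¹ (R u ξ))))) 2

theorem TLowAt.act {c : ℝ} {u v : D} (hP : TLowAt Bs R U B J Y P c (v * u))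
    (hYW : ∀ n p, Y n p * R v = R v * Y n p) : TLowAt Bs R U B J Y (tact R v P) c u := by
  filter_upwards [hP] with n h1
  refine h1.trans (le_of_eq ?_)
  refine Finset.sum_congr rfl fun i _ => ?_
  congr 1
  refine Finset.sum_congr rfl fun p _ => ?_
  rw [tact_apply, hR.inner_right, inv_inv]
  have e1 : R v (Y n p (R u (Bs.ep i))) = Y n p (R v (R u (Bs.ep i))) :=
    congrArg (fun T : H →L[ℂ] H => T (R u (Bs.ep i))) (hYW n p).symm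
  rw [e1, hR.app]

end act

end basic

section inv

section abs

/-- `∑ X_p* X_p`. -/
noncomputable def gram {σ : Type} (s : Finset σ) (X : σ → (H →L[ℂ] H)) : H →L[ℂ] H :=
  ∑ p ∈ s, adjoint (X p) * X p

theorem gram_inner {σ : Type} (s : Finset σ) (X : σ → (H →L[ℂ] H)) (ζ ξ : H) :
    ⟪ζ, gram s X ξ⟫_ℂ = ∑ p ∈ s, ⟪X p ζ, X p ξ⟫_ℂ := by
  rw [gram]
  simp only [ContinuousLinearMap.sum_apply, inner_sum]
  refine Finset.sum_congr rfl fun p _ => ?_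
  change ⟪ζ, adjoint (X p) (X p ξ)⟫_ℂ = _
  rw [adjoint_inner_right]

theorem gram_norm_le {σ : Type} (s : Finset σ) (X : σ → (H →L[ℂ] H))
    (hX : ∀ ξ, ∑ p ∈ s, ‖X p ξ‖ ^ 2 ≤ ‖ξ‖ ^ 2) : ‖gram s X‖ ≤ 1 := by
  refine ContinuousLinearMap.opNorm_le_bound _ zero_le_one fun ξ => ?_
  rw [one_mul]
  obtain ⟨η, hη⟩ : ∃ η, η = gram s X ξ := ⟨_, rfl⟩
  have h1 : ‖⟪η, gram s X ξ⟫_ℂ‖ ≤ ‖η‖ * ‖ξ‖ := by
    rw [gram_inner]
    refine (sum_inner_le _ _ _).trans ?_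
    have a1 : Real.sqrt (∑ p ∈ s, ‖X p η‖ ^ 2) ≤ ‖η‖ :=
      Real.sqrt_le_iff.mpr ⟨norm_nonneg _, hX _⟩
    have a2 : Real.sqrt (∑ p ∈ s, ‖X p ξ‖ ^ 2) ≤ ‖ξ‖ :=
      Real.sqrt_le_iff.mpr ⟨norm_nonneg _, hX _⟩
    exact mul_le_mul a1 a2 (Real.sqrt_nonneg _) (norm_nonneg _)
  rw [← hη, inner_self_eq_norm_sq_to_K] at h1
  rw [← hη]
  have h2 : ‖((‖η‖ : ℂ)) ^ 2‖ = ‖η‖ ^ 2 := by
    rw [norm_pow, Complex.norm_real, norm_norm]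
  have h3 : ‖η‖ ^ 2 ≤ ‖η‖ * ‖ξ‖ := by
    rw [← h2]; exact h1
  by_cases h0 : ‖η‖ = 0
  · rw [h0]; exact norm_nonneg _
  · have hpos : 0 < ‖η‖ := lt_of_le_of_ne (norm_nonneg _) (Ne.symm h0)
    nlinarith

end abs

variable {B : ℕ → Finset Γ} {J : ℕ → Finset κ}
  {P X : ℕ → Γ × κ → (H →L[ℂ] H)} {U : Ultrafilter ℕ}

/-- Limits of Gram operators of asymptotically covariant families are in the right algebra. -/
theorem ra_limit (off : ∀ n, ∀ p : Γ × κ, p.1 ∉ B n → X n p = 0)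
    (bdd : ∀ n (ξ : H), ∑ p ∈ B n ×ˢ J n, ‖X n p ξ‖ ^ 2 ≤ ‖ξ‖ ^ 2)
    (hsc : ∀ n p, ∀ a ∈ Bs.sc, X n p * a = a * X n p)
    (cov : ∀ (s : Γ) (ξ : H), Tendsto (fun n => ∑ p ∈ BB (B n) s ×ˢ J n,
      ‖X n (s * p.1, p.2) ξ - X n p (Bs.lx s⁻¹ ξ)‖ ^ 2) U (𝓝 0)) :
    Bs.RA (wl U (fun n => gram (B n ×ˢ J n) (X n))) := by
  have hLs : ∀ ζ ξ, Tendsto (fun n => ⟪ζ, gram (B n ×ˢ J n) (X n) ξ⟫_ℂ) U
      (𝓝 ⟪ζ, wl U (fun n => gram (B n ×ˢ J n) (X n)) ξ⟫_ℂ) := by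
    intro ζ ξ; exact wl_spec U (fun n => gram_norm_le _ _ (bdd n)) ζ ξ
  obtain ⟨L, hL⟩ : ∃ L, L = wl U (fun n => gram (B n ×ˢ J n) (X n)) := ⟨_, rfl⟩
  rw [← hL] at hLs ⊢
  refine ⟨fun s => ?_, fun a ha => ?_⟩
  · refine op_ext_inner fun ζ ξ => ?_
    change ⟪ζ, L (Bs.lx s ξ)⟫_ℂ = ⟪ζ, Bs.lx s (L ξ)⟫_ℂ
    rw [Bs.inner_lx_right]
    refine sub_eq_zero.mp (tendsto_nhds_unique
      ((hLs ζ (Bs.lx s ξ)).sub (hLs (Bs.lx s⁻¹ ζ) ξ)) ?_)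
    obtain ⟨d, hd⟩ : ∃ d : H → ℕ → ℝ, d = fun η n => ∑ p ∈ BB (B n) s ×ˢ J n,
      ‖X n (s * p.1, p.2) η - X n p (Bs.lx s⁻¹ η)‖ ^ 2 := ⟨_, rfl⟩
    have hdt : ∀ η, Tendsto (d η) U (𝓝 0) := by
      intro η; rw [hd]; exact cov s η
    have hlim : Tendsto (fun n => Real.sqrt (d ζ n) * ‖ξ‖ +
        ‖ζ‖ * Real.sqrt (d (Bs.lx s ξ) n)) U (𝓝 0) := by
      have h1 := ((Real.continuous_sqrt.tendsto 0).comp (hdt ζ)).mul_const ‖ξ‖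
      have h2 := ((Real.continuous_sqrt.tendsto 0).comp (hdt (Bs.lx s ξ))).const_mul ‖ζ‖
      have h3 := h1.add h2
      rw [Real.sqrt_zero, zero_mul, mul_zero, add_zero] at h3
      exact h3
    refine squeeze_zero_norm (fun n => ?_) hlim
    have e4 : ⟪ζ, gram (B n ×ˢ J n) (X n) (Bs.lx s ξ)⟫_ℂ -
        ⟪Bs.lx s⁻¹ ζ, gram (B n ×ˢ J n) (X n) ξ⟫_ℂ =
        ∑ p ∈ BB (B n) s ×ˢ J n,
          ⟪X n (s * p.1, p.2) ζ - X n p (Bs.lx s⁻¹ ζ), X n (s * p.1, p.2) (Bs.lx s ξ)⟫_ℂ +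
        ∑ p ∈ BB (B n) s ×ˢ J n, ⟪X n p (Bs.lx s⁻¹ ζ), X n (s * p.1, p.2) (Bs.lx s ξ) -
          X n p (Bs.lx s⁻¹ (Bs.lx s ξ))⟫_ℂ := by
      rw [gram_inner, gram_inner,
        ← sum_BJ_right (J n) s (fun p => ⟪X n p ζ, X n p (Bs.lx s ξ)⟫_ℂ),
        ← sum_BJ_left (J n) s (fun p => ⟪X n p (Bs.lx s⁻¹ ζ), X n p ξ⟫_ℂ),
        ← Finset.sum_sub_distrib, ← Finset.sum_add_distrib]
      · refine Finset.sum_congr rfl fun p _ => ?_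
        rw [Bs.lx_inv_apply, inner_sub_left, inner_sub_right]
        ring
      · intro p hp
        rw [off n p hp]; simp
      · intro p hp
        rw [off n p hp]; simp
    rw [e4]
    have b1 : Real.sqrt (∑ p ∈ BB (B n) s ×ˢ J n, ‖X n (s * p.1, p.2) (Bs.lx s ξ)‖ ^ 2) ≤
        ‖ξ‖ := by
      refine Real.sqrt_le_iff.mpr ⟨norm_nonneg _, ?_⟩
      rw [sum_BJ_right (J n) s (fun p => ‖X n p (Bs.lx s ξ)‖ ^ 2)
        (fun p hp => by rw [off n p hp]; simp)]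
      have h1 := bdd n (Bs.lx s ξ)
      rwa [Bs.norm_lx] at h1
    have b2 : Real.sqrt (∑ p ∈ BB (B n) s ×ˢ J n, ‖X n p (Bs.lx s⁻¹ ζ)‖ ^ 2) ≤ ‖ζ‖ := by
      refine Real.sqrt_le_iff.mpr ⟨norm_nonneg _, ?_⟩
      rw [sum_BJ_left (J n) s (fun p => ‖X n p (Bs.lx s⁻¹ ζ)‖ ^ 2)
        (fun p hp => by rw [off n p hp]; simp)]
      have h1 := bdd n (Bs.lx s⁻¹ ζ)
      rwa [Bs.norm_lx] at h1
    have c1 : ‖∑ p ∈ BB (B n) s ×ˢ J n,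
        ⟪X n (s * p.1, p.2) ζ - X n p (Bs.lx s⁻¹ ζ), X n (s * p.1, p.2) (Bs.lx s ξ)⟫_ℂ‖ ≤
        Real.sqrt (d ζ n) * ‖ξ‖ := by
      refine (sum_inner_le _ _ _).trans ?_
      rw [hd]
      exact mul_le_mul_of_nonneg_left b1 (Real.sqrt_nonneg _)
    have c2 : ‖∑ p ∈ BB (B n) s ×ˢ J n, ⟪X n p (Bs.lx s⁻¹ ζ), X n (s * p.1, p.2) (Bs.lx s ξ) -
          X n p (Bs.lx s⁻¹ (Bs.lx s ξ))⟫_ℂ‖ ≤ ‖ζ‖ * Real.sqrt (d (Bs.lx s ξ) n) := by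
      refine (sum_inner_le _ _ _).trans ?_
      rw [hd]
      exact mul_le_mul_of_nonneg_right b2 (Real.sqrt_nonneg _)
    exact (norm_add_le _ _).trans (add_le_add c1 c2)
  · refine op_ext_inner fun ζ ξ => ?_
    change ⟪ζ, L (a ξ)⟫_ℂ = ⟪ζ, a (L ξ)⟫_ℂ
    have e1 : ⟪ζ, a (L ξ)⟫_ℂ = ⟪a ζ, L ξ⟫_ℂ := by
      conv_rhs => rw [← Bs.sc_adj a ha, adjoint_inner_left]
    rw [e1]
    refine tendsto_nhds_unique (hLs ζ (a ξ)) ((hLs (a ζ) ξ).congr fun n => ?_)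
    rw [gram_inner, gram_inner]
    refine Finset.sum_congr rfl fun p _ => ?_
    have e2 : ∀ η, X n p (a η) = a (X n p η) := fun η =>
      congrArg (fun T : H →L[ℂ] H => T η) (hsc n p a ha)
    rw [e2, e2]
    conv_lhs => rw [← Bs.sc_adj a ha, adjoint_inner_left]

/-- The masses of an asymptotically covariant family are invariant. -/
theorem tinv_limit (hR : TRep Bs t R) (hP : TFam Bs R B J P) (hc : TCov Bs U B J P)
    {g : H →L[ℂ] H} (hg : ∀ ξ, ‖g ξ‖ ≤ ‖ξ‖) (hgs : ∀ a ∈ Bs.sc, g * a = a * g) (u : D) :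
    ul U (fun n => ∑ i, ∑ p ∈ B n ×ˢ J n, ‖g (Bs.lx p.1⁻¹ (P n p (R u (Bs.ep i))))‖ ^ 2) =
      ul U (fun n => ∑ i, ∑ p ∈ B n ×ˢ J n, ‖g (Bs.lx p.1⁻¹ (P n p (Bs.ep i)))‖ ^ 2) := by
  obtain ⟨X, hX⟩ : ∃ X : ℕ → Γ × κ → (H →L[ℂ] H), X = fun n p =>
    g * (Bs.lx p.1⁻¹ * P n p) := ⟨_, rfl⟩
  have hXa : ∀ n p ξ, X n p ξ = g (Bs.lx p.1⁻¹ (P n p ξ)) := by
    intro n p ξ; rw [hX]; rfl
  have hXle : ∀ n p ξ, ‖X n p ξ‖ ≤ ‖P n p ξ‖ := by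
    intro n p ξ
    rw [hXa]
    refine (hg _).trans ?_
    rw [Bs.norm_lx]
  have hX0 : ∀ n, ∀ p : Γ × κ, p.1 ∉ B n → X n p = 0 := by
    intro n p hp
    rw [hX]; simp only [hP.off n p hp, mul_zero]
  have hXb : ∀ n ξ, ∑ p ∈ B n ×ˢ J n, ‖X n p ξ‖ ^ 2 ≤ ‖ξ‖ ^ 2 := by
    intro n ξ
    refine le_trans (Finset.sum_le_sum fun p _ => ?_) (hP.bdd n ξ)
    exact pow_le_pow_left₀ (norm_nonneg _) (hXle n p ξ) 2
  have hXs : ∀ n p, ∀ a ∈ Bs.sc, X n p * a = a * X n p := by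
    intro n p a ha
    rw [hX]
    calc g * (Bs.lx p.1⁻¹ * P n p) * a = g * (Bs.lx p.1⁻¹ * (P n p * a)) := by
          simp only [mul_assoc]
      _ = g * ((Bs.lx p.1⁻¹ * a) * P n p) := by rw [hP.sc n p a ha]; simp only [mul_assoc]
      _ = (g * a) * (Bs.lx p.1⁻¹ * P n p) := by rw [← Bs.sc_lx a ha]; simp only [mul_assoc]
      _ = a * (g * (Bs.lx p.1⁻¹ * P n p)) := by rw [hgs a ha]; simp only [mul_assoc]
  have hXc : ∀ (s : Γ) (ξ : H), Tendsto (fun n => ∑ p ∈ BB (B n) s ×ˢ J n,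
      ‖X n (s * p.1, p.2) ξ - X n p (Bs.lx s⁻¹ ξ)‖ ^ 2) U (𝓝 0) := by
    intro s η
    refine squeeze_zero (fun n => Finset.sum_nonneg fun p _ => by positivity) (fun n => ?_)
      (hc s η)
    refine Finset.sum_le_sum fun p _ => ?_
    refine pow_le_pow_left₀ (norm_nonneg _) ?_ 2
    rw [hXa, hXa, ← map_sub]
    refine (hg _).trans ?_
    have e2 : Bs.lx (s * p.1)⁻¹ (P n (s * p.1, p.2) η) - Bs.lx p.1⁻¹ (P n p (Bs.lx s⁻¹ η)) =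
        Bs.lx p.1⁻¹ (Bs.lx s⁻¹ (P n (s * p.1, p.2) η - Bs.lx s (P n p (Bs.lx s⁻¹ η)))) := by
      rw [map_sub, Bs.lx_inv_apply, map_sub, mul_inv_rev, Bs.lx_mul_apply]
    rw [e2, Bs.norm_lx, Bs.norm_lx]
  have hcomm := ra_limit (U := U) hX0 hXb hXs hXc
  have hLs : ∀ ζ ξ, Tendsto (fun n => ⟪ζ, gram (B n ×ˢ J n) (X n) ξ⟫_ℂ) U
      (𝓝 ⟪ζ, wl U (fun n => gram (B n ×ˢ J n) (X n)) ξ⟫_ℂ) := by
    intro ζ ξ; exact wl_spec U (fun n => gram_norm_le _ _ (hXb n)) ζ ξ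
  obtain ⟨L, hL⟩ : ∃ L, L = wl U (fun n => gram (B n ×ˢ J n) (X n)) := ⟨_, rfl⟩
  rw [← hL] at hLs hcomm
  -- `P L = L`, `L P = L`
  have hLone : L * R 1 = L := by
    refine op_ext_inner fun ζ ξ => ?_
    rw [mul_ap]
    refine tendsto_nhds_unique (hLs ζ (R 1 ξ)) ((hLs ζ ξ).congr fun n => ?_)
    rw [gram_inner, gram_inner]
    refine Finset.sum_congr rfl fun p _ => ?_
    congr 1
    rw [hXa, hXa, ← mul_ap (P n p), hP.oneR]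
  have hLone' : R 1 * L = L := by
    refine op_ext_inner fun ζ ξ => ?_
    rw [mul_ap, hR.inner_right, inv_one]
    refine tendsto_nhds_unique (hLs (R 1 ζ) ξ) ((hLs ζ ξ).congr fun n => ?_)
    rw [gram_inner, gram_inner]
    refine Finset.sum_congr rfl fun p _ => ?_
    congr 1
    rw [hXa, hXa, ← mul_ap (P n p), hP.oneR]
  have htr : ∑ i, (⟪R u (Bs.ep i), L (R u (Bs.ep i))⟫_ℂ).re =
      ∑ i, (⟪Bs.ep i, L (Bs.ep i)⟫_ℂ).re := by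
    have h1 : Bs.trA (R u⁻¹ * L * R u) = Bs.trA L := by
      have h2 := hR.trA_conj u⁻¹ hcomm
      rw [inv_inv, hLone'] at h2
      exact h2
    have h3 := congrArg Complex.re h1
    rw [Base.trA, Base.trA, Complex.re_sum, Complex.re_sum] at h3
    rw [← h3]
    refine Finset.sum_congr rfl fun i _ => ?_
    rw [mul_ap, mul_ap, hR.inner_left u]
  have hre : ∀ ξ : H, Tendsto (fun n => ∑ p ∈ B n ×ˢ J n,
      ‖g (Bs.lx p.1⁻¹ (P n p ξ))‖ ^ 2) U (𝓝 (⟪ξ, L ξ⟫_ℂ).re) := by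
    intro ξ
    refine ((Complex.continuous_re.tendsto _).comp (hLs ξ ξ)).congr fun n => ?_
    rw [Function.comp_apply, gram_inner, Complex.re_sum]
    refine Finset.sum_congr rfl fun p _ => ?_
    rw [inner_self_eq_norm_sq_to_K, hXa]
    norm_cast
  rw [ul_eq U (tendsto_finsetSum Finset.univ fun i _ => hre (R u (Bs.ep i))),
    ul_eq U (tendsto_finsetSum Finset.univ fun i _ => hre (Bs.ep i)), htr]

end inv

/-- The mass functional. -/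
noncomputable def TN (Bs : Base Γ ι H) (U : Ultrafilter ℕ) (B : ℕ → Finset Γ) (J : ℕ → Finset κ)
    (g : H →L[ℂ] H) (P : ℕ → Γ × κ → (H →L[ℂ] H)) : ℝ :=
  ul U (fun n => ∑ i, ∑ p ∈ B n ×ˢ J n, ‖g (Bs.lx p.1⁻¹ (P n p (Bs.ep i)))‖ ^ 2)

theorem tn_bound {B : ℕ → Finset Γ} {J : ℕ → Finset κ} {P : ℕ → Γ × κ → (H →L[ℂ] H)}
    {C : ℝ} (hP : ∀ n (ξ : H), ∑ p ∈ B n ×ˢ J n, ‖P n p ξ‖ ^ 2 ≤ C * ‖ξ‖ ^ 2)
    {g : H →L[ℂ] H} (hg : ∀ ξ, ‖g ξ‖ ≤ ‖ξ‖) (n : ℕ) :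
    ∑ i, ∑ p ∈ B n ×ˢ J n, ‖g (Bs.lx p.1⁻¹ (P n p (Bs.ep i)))‖ ^ 2 ≤
      C * ∑ i, ‖Bs.ep i‖ ^ 2 := by
  rw [Finset.mul_sum]
  refine Finset.sum_le_sum fun i _ => ?_
  refine le_trans (Finset.sum_le_sum fun p _ => ?_) (hP n (Bs.ep i))
  refine pow_le_pow_left₀ (norm_nonneg _) ((hg _).trans ?_) 2
  rw [Bs.norm_lx]

theorem tn_spec {B : ℕ → Finset Γ} {J : ℕ → Finset κ} {P : ℕ → Γ × κ → (H →L[ℂ] H)}
    (U : Ultrafilter ℕ)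
    {C : ℝ} (hP : ∀ n (ξ : H), ∑ p ∈ B n ×ˢ J n, ‖P n p ξ‖ ^ 2 ≤ C * ‖ξ‖ ^ 2)
    {g : H →L[ℂ] H} (hg : ∀ ξ, ‖g ξ‖ ≤ ‖ξ‖) :
    Tendsto (fun n => ∑ i, ∑ p ∈ B n ×ˢ J n, ‖g (Bs.lx p.1⁻¹ (P n p (Bs.ep i)))‖ ^ 2) U
      (𝓝 (TN Bs U B J g P)) := by
  refine ul_spec U (C := C * ∑ i, ‖Bs.ep i‖ ^ 2) fun n => ?_
  rw [abs_of_nonneg (Finset.sum_nonneg fun i _ => Finset.sum_nonneg fun b _ => by positivity)]
  exact tn_bound hP hg n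

section gA

variable (hE : EFamT Bs R E)

/-- A square root of `E A` in the commutant of the scalars. -/
noncomputable def gA (hE : EFamT Bs R E) (A : Set D) : H →L[ℂ] H :=
  (root_sc (hE.nonneg A) (hE.sc A)).choose

theorem norm_gA_sq (hE : EFamT Bs R E) (A : Set D) (ξ : H) :
    ‖gA hE A ξ‖ ^ 2 = (⟪ξ, E A ξ⟫_ℂ).re :=
  (root_sc (hE.nonneg A) (hE.sc A)).choose_spec.1 ξ

theorem gA_sc (hE : EFamT Bs R E) (A : Set D) : ∀ a ∈ Bs.sc, gA hE A * a = a * gA hE A :=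
  (root_sc (hE.nonneg A) (hE.sc A)).choose_spec.2.2

theorem norm_gA_univ (hR : TRep Bs t R) (hE : EFamT Bs R E) (ξ : H) :
    ‖gA hE Set.univ ξ‖ = ‖R 1 ξ‖ := by
  have h1 := norm_gA_sq hE Set.univ ξ
  rw [hE.univ, hR.one_re] at h1
  exact (pow_left_inj₀ (norm_nonneg _) (norm_nonneg _) two_ne_zero).mp h1

theorem norm_gA_union (hE : EFamT Bs R E) {A B : Set D} (h : Disjoint A B) (ξ : H) :
    ‖gA hE (A ∪ B) ξ‖ ^ 2 = ‖gA hE A ξ‖ ^ 2 + ‖gA hE B ξ‖ ^ 2 := by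
  rw [norm_gA_sq, norm_gA_sq, norm_gA_sq, hE.add A B h, add_apply, inner_add_right,
    Complex.add_re]

theorem norm_gA_le (hR : TRep Bs t R) (hE : EFamT Bs R E) (A : Set D) (ξ : H) :
    ‖gA hE A ξ‖ ≤ ‖ξ‖ := by
  have h1 := norm_gA_union hE (disjoint_compl_right (a := A)) ξ
  rw [Set.union_compl_self, norm_gA_univ hR] at h1
  have h2 : ‖gA hE A ξ‖ ^ 2 ≤ ‖ξ‖ ^ 2 := by
    have h3 := pow_le_pow_left₀ (norm_nonneg _) (hR.norm_one_le ξ) 2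
    nlinarith [sq_nonneg ‖gA hE Aᶜ ξ‖]
  exact (sq_le_sq₀ (norm_nonneg _) (norm_nonneg _)).mp h2

theorem norm_gA_R (hR : TRep Bs t R) (hE : EFamT Bs R E) (A : Set D) (u : D) (ξ : H) :
    ‖gA hE {w | w * u ∈ A} ξ‖ = ‖gA hE A (R u⁻¹ ξ)‖ := by
  refine (pow_left_inj₀ (norm_nonneg _) (norm_nonneg _) two_ne_zero).mp ?_
  rw [norm_gA_sq, norm_gA_sq, ← hE.cov u A, mul_ap, mul_ap, hR.inner_right]

end gA

section ends

variable {U : Ultrafilter ℕ} {B : ℕ → Finset Γ} {J : ℕ → Finset κ}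
  {P P0 Q Y : ℕ → Γ × κ → (H →L[ℂ] H)}

theorem TFam.bdd' (hP : TFam Bs R B J P) (n : ℕ) (ξ : H) :
    ∑ p ∈ B n ×ˢ J n, ‖P n p ξ‖ ^ 2 ≤ 1 * ‖ξ‖ ^ 2 := by
  rw [one_mul]; exact hP.bdd n ξ

theorem sum_prod' (F : ι → Γ × κ → ℝ) (s : Finset (Γ × κ)) : ∑ i, ∑ p ∈ s, F i p =
    ∑ q ∈ (Finset.univ : Finset ι) ×ˢ s, F q.1 q.2 := by
  rw [Finset.sum_product]

/-- Asymptotically covariant families which are uniformly non-orthogonal to families commuting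
with `R_K` give invariant means. -/
theorem t_mean (hR : TRep Bs t R) (hE : EFamT Bs R E) (K : Subgroup D)
    (hP0 : TFam Bs R B J P0) (hc0 : TCov Bs U B J P0)
    (hY : ∀ n (ξ : H), ∑ p ∈ B n ×ˢ J n, ‖Y n p ξ‖ ^ 2 ≤ 2 * ‖ξ‖ ^ 2)
    (hYW : ∀ u ∈ K, ∀ n p, Y n p * R u = R u * Y n p)
    {c : ℝ} (hc : 0 < c) (h3 : ∀ u ∈ K, TLowAt Bs R U B J Y P0 c u) :
    ∃ m : Set D → ℝ, H200.IsInvMean K m := by
  obtain ⟨d, hd⟩ : ∃ d : ℝ, d = ∑ i, ‖Bs.ep i‖ ^ 2 := ⟨_, rfl⟩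
  have hd0 : 0 ≤ d := by rw [hd]; exact Finset.sum_nonneg fun i _ => by positivity
  have hid : ∀ ξ : H, ‖(1 : H →L[ℂ] H) ξ‖ ≤ ‖ξ‖ := fun ξ => le_rfl
  have hNs : ∀ (A : Set D) (P : ℕ → Γ × κ → (H →L[ℂ] H)), TFam Bs R B J P →
      Tendsto (fun n => ∑ i, ∑ p ∈ B n ×ˢ J n, ‖gA hE A (Bs.lx p.1⁻¹ (P n p (Bs.ep i)))‖ ^ 2) U
        (𝓝 (TN Bs U B J (gA hE A) P)) := fun A P hP => tn_spec U hP.bdd' (norm_gA_le hR hE A)
  have hDle : ∀ (P Q : ℕ → Γ × κ → (H →L[ℂ] H)), TFam Bs R B J P →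
      TFam Bs R B J Q → ∀ n,
      |∑ i, ∑ p ∈ B n ×ˢ J n, ‖P n p (Bs.ep i) - Q n p (Bs.ep i)‖ ^ 2| ≤ 4 * d := by
    intro P Q hP hQ n
    rw [abs_of_nonneg (Finset.sum_nonneg fun i _ => Finset.sum_nonneg fun b _ => by positivity),
      hd, Finset.mul_sum]
    refine Finset.sum_le_sum fun i _ => ?_
    have h1 := hP.bdd n (Bs.ep i)
    have h2 := hQ.bdd n (Bs.ep i)
    have h4 : ∑ p ∈ B n ×ˢ J n, ‖P n p (Bs.ep i) - Q n p (Bs.ep i)‖ ^ 2 ≤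
        ∑ p ∈ B n ×ˢ J n, (2 * ‖P n p (Bs.ep i)‖ ^ 2 + 2 * ‖Q n p (Bs.ep i)‖ ^ 2) := by
      refine Finset.sum_le_sum fun p _ => ?_
      have := sq_add_le (P n p (Bs.ep i)) (-Q n p (Bs.ep i))
      rwa [norm_neg, ← sub_eq_add_neg] at this
    rw [Finset.sum_add_distrib, ← Finset.mul_sum, ← Finset.mul_sum] at h4
    linarith
  have hDs : ∀ (P Q : ℕ → Γ × κ → (H →L[ℂ] H)), TFam Bs R B J P →
      TFam Bs R B J Q →
      Tendsto (fun n => ∑ i, ∑ p ∈ B n ×ˢ J n, ‖P n p (Bs.ep i) - Q n p (Bs.ep i)‖ ^ 2) U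
        (𝓝 (ul U (fun n => ∑ i, ∑ p ∈ B n ×ˢ J n, ‖P n p (Bs.ep i) - Q n p (Bs.ep i)‖ ^ 2))) :=
    fun P Q hP hQ => ul_spec U (hDle P Q hP hQ)
  have huniv : ∀ (P : ℕ → Γ × κ → (H →L[ℂ] H)), TFam Bs R B J P → ∀ n,
      ∑ i, ∑ p ∈ B n ×ˢ J n, ‖gA hE Set.univ (Bs.lx p.1⁻¹ (P n p (Bs.ep i)))‖ ^ 2 =
        ∑ i, ∑ p ∈ B n ×ˢ J n, ‖P n p (Bs.ep i)‖ ^ 2 := by
    intro P hP n
    refine Finset.sum_congr rfl fun i _ => Finset.sum_congr rfl fun p _ => ?_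
    rw [norm_gA_univ hR, hR.lx, Bs.norm_lx, ← mul_ap (R 1), hP.oneL]
  refine mean_of_convex K tmid
    {P | TFam Bs R B J P ∧ TCov Bs U B J P ∧ ∀ u ∈ K, TLowAt Bs R U B J Y P c u} ?_
    ⟨P0, hP0, hc0, h3⟩ (tact R) ?_ (fun A => TN Bs U B J (gA hE A))
    (fun P Q => ul U (fun n => ∑ i, ∑ p ∈ B n ×ˢ J n, ‖P n p (Bs.ep i) - Q n p (Bs.ep i)‖ ^ 2))
    ?_ ?_ ?_ ?_ ?_ (c := c ^ 2 / (2 * (d + 1))) (by positivity) ?_
  · rintro P ⟨p1, p2, p3⟩ Q ⟨q1, q2, q3⟩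
    exact ⟨p1.mid q1, p2.mid q2, fun u hu => (p3 u hu).mid (q3 u hu)⟩
  · rintro u hu P ⟨p1, p2, p3⟩
    exact ⟨TFam.act hR p1 u, TCov.act hR p2 u, fun v hv =>
      TLowAt.act hR (p3 (u * v) (K.mul_mem hu hv)) (hYW u hu)⟩
  · rintro A P ⟨p1, p2, p3⟩
    exact ge_of_tendsto (hNs A P p1) (Eventually.of_forall fun n =>
      Finset.sum_nonneg fun i _ => Finset.sum_nonneg fun b _ => by positivity)
  · rintro A A' hAA P ⟨p1, p2, p3⟩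
    refine ul_eq U (((hNs A P p1).add (hNs A' P p1)).congr fun n => ?_)
    rw [← Finset.sum_add_distrib]
    refine Finset.sum_congr rfl fun i _ => ?_
    rw [← Finset.sum_add_distrib]
    refine Finset.sum_congr rfl fun p _ => ?_
    rw [norm_gA_union hE hAA]
  · rintro P ⟨p1, p2, p3⟩ Q ⟨q1, q2, q3⟩
    refine ul_eq U ?_
    have h1 := ((((hNs Set.univ P p1).add (hNs Set.univ Q q1)).div_const 2).sub
      ((hDs P Q p1 q1).div_const 4))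
    refine h1.congr fun n => ?_
    rw [huniv P p1, huniv Q q1, huniv (tmid P Q) (p1.mid q1), ← Finset.sum_add_distrib,
      Finset.sum_div, Finset.sum_div, ← Finset.sum_sub_distrib]
    refine Finset.sum_congr rfl fun i _ => ?_
    rw [← Finset.sum_add_distrib, Finset.sum_div, Finset.sum_div, ← Finset.sum_sub_distrib]
    refine Finset.sum_congr rfl fun p _ => ?_
    rw [tmid_apply, half_par]
  · rintro A P ⟨p1, p2, p3⟩ Q ⟨q1, q2, q3⟩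
    have h1 := (Real.continuous_sqrt.tendsto _).comp (hNs A P p1)
    have h2 := (Real.continuous_sqrt.tendsto _).comp (hNs A Q q1)
    have h4 := (Real.continuous_sqrt.tendsto _).comp (hDs P Q p1 q1)
    refine le_of_tendsto_of_tendsto (h1.sub h2).abs h4 (Eventually.of_forall fun n => ?_)
    change |Real.sqrt (∑ i, ∑ p ∈ B n ×ˢ J n, ‖gA hE A (Bs.lx p.1⁻¹ (P n p (Bs.ep i)))‖ ^ 2) -
      Real.sqrt (∑ i, ∑ p ∈ B n ×ˢ J n, ‖gA hE A (Bs.lx p.1⁻¹ (Q n p (Bs.ep i)))‖ ^ 2)| ≤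
      Real.sqrt (∑ i, ∑ p ∈ B n ×ˢ J n, ‖P n p (Bs.ep i) - Q n p (Bs.ep i)‖ ^ 2)
    rw [sum_prod' (fun i p => ‖gA hE A (Bs.lx p.1⁻¹ (P n p (Bs.ep i)))‖ ^ 2),
      sum_prod' (fun i p => ‖gA hE A (Bs.lx p.1⁻¹ (Q n p (Bs.ep i)))‖ ^ 2),
      sum_prod' (fun i p => ‖P n p (Bs.ep i) - Q n p (Bs.ep i)‖ ^ 2)]
    refine (sqrt_sum_sub_le _ (fun q : ι × (Γ × κ) => gA hE A (Bs.lx q.2.1⁻¹
      (P n q.2 (Bs.ep q.1)))) (fun q : ι × (Γ × κ) => gA hE A (Bs.lx q.2.1⁻¹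
      (Q n q.2 (Bs.ep q.1))))).trans (Real.sqrt_le_sqrt (Finset.sum_le_sum fun q _ => ?_))
    refine pow_le_pow_left₀ (norm_nonneg _) ?_ 2
    rw [← map_sub, ← map_sub]
    refine (norm_gA_le hR hE A _).trans ?_
    rw [Bs.norm_lx]
  · rintro A u hu P ⟨p1, p2, p3⟩
    change ul U (fun n => ∑ i, ∑ p ∈ B n ×ˢ J n,
      ‖gA hE {w | w * u ∈ A} (Bs.lx p.1⁻¹ (P n p (Bs.ep i)))‖ ^ 2) =
      ul U (fun n => ∑ i, ∑ p ∈ B n ×ˢ J n,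
        ‖gA hE A (Bs.lx p.1⁻¹ (tact R u P n p (Bs.ep i)))‖ ^ 2)
    rw [← tinv_limit hR p1 p2 (norm_gA_le hR hE {w | w * u ∈ A}) (gA_sc hE _) u]
    congr 1
    funext n
    refine Finset.sum_congr rfl fun i _ => Finset.sum_congr rfl fun p _ => ?_
    rw [tact_apply, norm_gA_R hR, hR.lx]
  · rintro P ⟨p1, p2, p3⟩
    have h1 := p3 1 K.one_mem
    refine ge_of_tendsto (hNs Set.univ P p1) ?_
    filter_upwards [h1] with n hn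
    rw [huniv P p1]
    have h2 : ∑ i, (∑ p ∈ B n ×ˢ J n, ⟪Y n p (R 1 (Bs.ep i)), P n p (R 1 (Bs.ep i))⟫_ℂ).re ≤
        Real.sqrt (∑ i, ∑ p ∈ B n ×ˢ J n, ‖Y n p (R 1 (Bs.ep i))‖ ^ 2) *
        Real.sqrt (∑ i, ∑ p ∈ B n ×ˢ J n, ‖P n p (Bs.ep i)‖ ^ 2) := by
      rw [sum_prod' (fun i p => ‖Y n p (R 1 (Bs.ep i))‖ ^ 2),
        sum_prod' (fun i p => ‖P n p (Bs.ep i)‖ ^ 2)]
      have e1 : ∑ i, (∑ p ∈ B n ×ˢ J n, ⟪Y n p (R 1 (Bs.ep i)), P n p (R 1 (Bs.ep i))⟫_ℂ).re =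
          (∑ q ∈ (Finset.univ : Finset ι) ×ˢ (B n ×ˢ J n),
            ⟪Y n q.2 (R 1 (Bs.ep q.1)), P n q.2 (Bs.ep q.1)⟫_ℂ).re := by
        rw [Finset.sum_product, Complex.re_sum]
        refine Finset.sum_congr rfl fun i _ => ?_
        congr 1
        refine Finset.sum_congr rfl fun p _ => ?_
        rw [← mul_ap (P n p), p1.oneR]
      rw [e1]
      exact (Complex.re_le_norm _).trans (sum_inner_le _
        (fun q : ι × (Γ × κ) => Y n q.2 (R 1 (Bs.ep q.1))) (fun q => P n q.2 (Bs.ep q.1)))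
    have h4 : ∑ i, ∑ p ∈ B n ×ˢ J n, ‖Y n p (R 1 (Bs.ep i))‖ ^ 2 ≤ 2 * d := by
      rw [hd, Finset.mul_sum]
      refine Finset.sum_le_sum fun i _ => (hY n _).trans ?_
      have := pow_le_pow_left₀ (norm_nonneg _) (hR.norm_one_le (Bs.ep i)) 2
      linarith
    have h5 : 0 ≤ ∑ i, ∑ p ∈ B n ×ˢ J n, ‖P n p (Bs.ep i)‖ ^ 2 :=
      Finset.sum_nonneg fun i _ => Finset.sum_nonneg fun p _ => by positivity
    have h6 : 0 ≤ ∑ i, ∑ p ∈ B n ×ˢ J n, ‖Y n p (R 1 (Bs.ep i))‖ ^ 2 :=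
      Finset.sum_nonneg fun i _ => Finset.sum_nonneg fun p _ => by positivity
    have h7 : c ^ 2 ≤ (2 * (d + 1)) * ∑ i, ∑ p ∈ B n ×ˢ J n, ‖P n p (Bs.ep i)‖ ^ 2 := by
      have h8 := hn.trans h2
      calc c ^ 2 ≤ (Real.sqrt (∑ i, ∑ p ∈ B n ×ˢ J n, ‖Y n p (R 1 (Bs.ep i))‖ ^ 2) *
            Real.sqrt (∑ i, ∑ p ∈ B n ×ˢ J n, ‖P n p (Bs.ep i)‖ ^ 2)) ^ 2 := by gcongr
        _ = (∑ i, ∑ p ∈ B n ×ˢ J n, ‖Y n p (R 1 (Bs.ep i))‖ ^ 2) *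
            ∑ i, ∑ p ∈ B n ×ˢ J n, ‖P n p (Bs.ep i)‖ ^ 2 := by
          rw [mul_pow, Real.sq_sqrt h6, Real.sq_sqrt h5]
        _ ≤ _ := by
          refine mul_le_mul_of_nonneg_right ?_ h5
          linarith
    rw [div_le_iff₀ (by positivity)]
    linarith

/-- **Ping-pong endgame.**  An asymptotically covariant family which is uniformly non-orthogonal,
along `R (v l)`, `l ∈ σ`, to a family commuting with the `R (v l)`, and a ping-pong table for the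
`v l` of multiplicity `q`: then `c |σ| ≤ 2 √2 d √(|σ| q)`. -/
theorem t_pp (hR : TRep Bs t R) {σ : Type} [Fintype σ] (v : σ → D)
    (hP0 : TFam Bs R B J P0) (hc0 : TCov Bs U B J P0)
    (hY : ∀ n (ξ : H), ∑ p ∈ B n ×ˢ J n, ‖Y n p ξ‖ ^ 2 ≤ 2 * ‖ξ‖ ^ 2)
    (hYW : ∀ l n p, Y n p * R (v l) = R (v l) * Y n p)
    (Ep Em : σ → (H →L[ℂ] H)) (hEp : ∀ l, 0 ≤ Ep l) (hEp1 : ∀ l, 0 ≤ R 1 - Ep l)
    (hEm : ∀ l, 0 ≤ Em l)
    (hEpsc : ∀ l, ∀ a ∈ Bs.sc, Ep l * a = a * Ep l) (hEmsc : ∀ l, ∀ a ∈ Bs.sc, Em l * a = a * Em l)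
    (hEm1 : ∀ l ξ, (⟪ξ, Em l ξ⟫_ℂ).re ≤ ‖ξ‖ ^ 2)
    {q : ℝ} (hsp : ∀ ξ, ∑ l, (⟪ξ, Ep l ξ⟫_ℂ).re ≤ q * ‖ξ‖ ^ 2)
    (hsm : ∀ ξ, ∑ l, (⟪ξ, Em l ξ⟫_ℂ).re ≤ q * ‖ξ‖ ^ 2)
    (hpp : ∀ l ξ, (⟪R (v l)⁻¹ ξ, (R 1 - Ep l) (R (v l)⁻¹ ξ)⟫_ℂ).re ≤ (⟪ξ, Em l ξ⟫_ℂ).re)
    {c : ℝ} (h3 : ∀ l, TLowAt Bs R U B J Y P0 c (v l)) :
    Fintype.card σ * c ≤
      2 * Real.sqrt 2 * (∑ i, ‖Bs.ep i‖ ^ 2) * Real.sqrt (Fintype.card σ * q) := by
  obtain ⟨d, hd⟩ : ∃ d : ℝ, d = ∑ i, ‖Bs.ep i‖ ^ 2 := ⟨_, rfl⟩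
  have hd0 : 0 ≤ d := by rw [hd]; exact Finset.sum_nonneg fun i _ => by positivity
  rw [← hd]
  -- roots
  choose gp hgp1 hgp2 hgp3 using fun l => root_sc (hEp l) (hEpsc l)
  have hsc1 : ∀ l, ∀ a ∈ Bs.sc, (R 1 - Ep l) * a = a * (R 1 - Ep l) := fun l a ha => by
    rw [sub_mul, mul_sub, hEpsc l a ha, hR.one.2 a ha]
  choose gq hgq1 hgq2 hgq3 using fun l => root_sc (hEp1 l) (hsc1 l)
  choose gm hgm1 hgm2 hgm3 using fun l => root_sc (hEm l) (hEmsc l)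
  have hpos : ∀ {G : H →L[ℂ] H}, 0 ≤ G → ∀ ξ, 0 ≤ (⟪ξ, G ξ⟫_ℂ).re := fun hG ξ =>
    H108.inner_nonneg_of_nonneg hG ξ
  have hsplit : ∀ l ξ, (⟪ξ, R 1 ξ⟫_ℂ).re = (⟪ξ, Ep l ξ⟫_ℂ).re + (⟪ξ, (R 1 - Ep l) ξ⟫_ℂ).re := by
    intro l ξ
    rw [← Complex.add_re, ← inner_add_right, ← add_apply, add_sub_cancel]
  have hone : ∀ ξ, (⟪ξ, R 1 ξ⟫_ℂ).re ≤ ‖ξ‖ ^ 2 := fun ξ => by
    rw [hR.one_re]; exact pow_le_pow_left₀ (norm_nonneg _) (hR.norm_one_le ξ) 2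
  have ngp : ∀ l ξ, ‖gp l ξ‖ ≤ ‖ξ‖ := fun l => norm_le_of_root (fun ξ => by
    have h1 := hsplit l ξ
    have h2 := hpos (hEp1 l) ξ
    have h4 := hone ξ
    linarith) (hgp1 l)
  have ngq : ∀ l ξ, ‖gq l ξ‖ ≤ ‖ξ‖ := fun l => norm_le_of_root (fun ξ => by
    have h1 := hsplit l ξ
    have h2 := hpos (hEp l) ξ
    have h4 := hone ξ
    linarith) (hgq1 l)
  have ngm : ∀ l ξ, ‖gm l ξ‖ ≤ ‖ξ‖ := fun l => norm_le_of_root (hEm1 l) (hgm1 l)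
  obtain ⟨Y1, hY1⟩ : ∃ Y1 : ℕ → Γ × κ → (H →L[ℂ] H), Y1 = fun n p => Y n p * R 1 := ⟨_, rfl⟩
  have hY1a : ∀ n p ξ, Y1 n p ξ = Y n p (R 1 ξ) := fun n p ξ => by rw [hY1]; rfl
  have hY1b : ∀ n (ξ : H), ∑ p ∈ B n ×ˢ J n, ‖Y1 n p ξ‖ ^ 2 ≤ 2 * ‖ξ‖ ^ 2 := by
    intro n ξ
    have h1 := hY n (R 1 ξ)
    have h2 := pow_le_pow_left₀ (norm_nonneg _) (hR.norm_one_le ξ) 2
    calc _ = ∑ p ∈ B n ×ˢ J n, ‖Y n p (R 1 ξ)‖ ^ 2 :=
          Finset.sum_congr rfl fun p _ => by rw [hY1a]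
      _ ≤ 2 * ‖R 1 ξ‖ ^ 2 := h1
      _ ≤ _ := by linarith
  have hP1 : ∀ l, TFam Bs R B J (tact R (v l) P0) := fun l => TFam.act hR hP0 (v l)
  have sp := fun l => tn_spec (Bs := Bs) (B := B) (J := J) U hY1b (ngp l)
  have sq := fun l => tn_spec (Bs := Bs) (B := B) (J := J) U (hP1 l).bdd' (ngq l)
  have sm := fun l => tn_spec (Bs := Bs) (B := B) (J := J) U hP0.bdd' (ngm l)
  -- the estimate for one `l`
  have key : ∀ l, c ≤ Real.sqrt (TN Bs U B J (gp l) Y1) * Real.sqrt d +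
      Real.sqrt (2 * d) * Real.sqrt (TN Bs U B J (gq l) (tact R (v l) P0)) := by
    intro l
    have h0 : TLowAt Bs R U B J Y (tact R (v l) P0) c 1 :=
      TLowAt.act hR (by rw [mul_one]; exact h3 l) (hYW l)
    have hlim := ((((Real.continuous_sqrt.tendsto _).comp (sp l)).mul_const (Real.sqrt d)).add
      (((Real.continuous_sqrt.tendsto _).comp (sq l)).const_mul (Real.sqrt (2 * d))))
    refine ge_of_tendsto hlim ?_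
    filter_upwards [h0] with n hn
    refine hn.trans ?_
    rw [Function.comp_apply, Function.comp_apply]
    have e1 : ∑ i, (∑ p ∈ B n ×ˢ J n,
        ⟪Y n p (R 1 (Bs.ep i)), tact R (v l) P0 n p (R 1 (Bs.ep i))⟫_ℂ).re =
        ∑ i, ∑ p ∈ B n ×ˢ J n,
          ((⟪gp l (Bs.lx p.1⁻¹ (Y1 n p (Bs.ep i))),
            gp l (Bs.lx p.1⁻¹ (tact R (v l) P0 n p (Bs.ep i)))⟫_ℂ).re +
          (⟪gq l (Bs.lx p.1⁻¹ (Y1 n p (Bs.ep i))),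
            gq l (Bs.lx p.1⁻¹ (tact R (v l) P0 n p (Bs.ep i)))⟫_ℂ).re) := by
      refine Finset.sum_congr rfl fun i _ => ?_
      rw [Complex.re_sum]
      refine Finset.sum_congr rfl fun p _ => ?_
      rw [hgp2, hgq2, ← Complex.add_re, ← inner_add_right, ← add_apply, add_sub_cancel, hR.lx,
        ← mul_ap (R 1), (hP1 l).oneL, Bs.inner_lx, hY1a, ← mul_ap (tact R (v l) P0 n p) (R 1),
        (hP1 l).oneR]
    rw [e1]
    have e2 : ∀ (g : H →L[ℂ] H), ∑ i, ∑ p ∈ B n ×ˢ J n,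
        (⟪g (Bs.lx p.1⁻¹ (Y1 n p (Bs.ep i))),
            g (Bs.lx p.1⁻¹ (tact R (v l) P0 n p (Bs.ep i)))⟫_ℂ).re ≤
        Real.sqrt (∑ i, ∑ p ∈ B n ×ˢ J n, ‖g (Bs.lx p.1⁻¹ (Y1 n p (Bs.ep i)))‖ ^ 2) *
        Real.sqrt (∑ i, ∑ p ∈ B n ×ˢ J n,
          ‖g (Bs.lx p.1⁻¹ (tact R (v l) P0 n p (Bs.ep i)))‖ ^ 2) := by
      intro g
      rw [sum_prod' (fun i p => ‖g (Bs.lx p.1⁻¹ (Y1 n p (Bs.ep i)))‖ ^ 2),
        sum_prod' (fun i p => ‖g (Bs.lx p.1⁻¹ (tact R (v l) P0 n p (Bs.ep i)))‖ ^ 2),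
        sum_prod' (fun i p => (⟪g (Bs.lx p.1⁻¹ (Y1 n p (Bs.ep i))),
            g (Bs.lx p.1⁻¹ (tact R (v l) P0 n p (Bs.ep i)))⟫_ℂ).re), ← Complex.re_sum]
      exact (Complex.re_le_norm _).trans (sum_inner_le _
        (fun x : ι × (Γ × κ) => g (Bs.lx x.2.1⁻¹ (Y1 n x.2 (Bs.ep x.1))))
        (fun x => g (Bs.lx x.2.1⁻¹ (tact R (v l) P0 n x.2 (Bs.ep x.1)))))
    simp only [Finset.sum_add_distrib]
    refine add_le_add ((e2 (gp l)).trans ?_) ((e2 (gq l)).trans ?_)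
    · refine mul_le_mul_of_nonneg_left (Real.sqrt_le_sqrt ?_) (Real.sqrt_nonneg _)
      have := tn_bound (Bs := Bs) (hP1 l).bdd' (ngp l) n
      rw [one_mul] at this
      rw [hd]; exact this
    · refine mul_le_mul_of_nonneg_right (Real.sqrt_le_sqrt ?_) (Real.sqrt_nonneg _)
      have := tn_bound (Bs := Bs) hY1b (ngq l) n
      rw [hd]; exact this
  -- comparison of the masses
  have hcmp : ∀ l, TN Bs U B J (gq l) (tact R (v l) P0) ≤ TN Bs U B J (gm l) P0 := by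
    intro l
    have h1 := tinv_limit hR hP0 hc0 (ngm l) (hgm3 l) (v l)
    have h2 : Tendsto (fun n => ∑ i, ∑ p ∈ B n ×ˢ J n,
        ‖gm l (Bs.lx p.1⁻¹ (P0 n p (R (v l) (Bs.ep i))))‖ ^ 2) U (𝓝 (TN Bs U B J (gm l) P0)) := by
      rw [TN, ← h1]
      refine ul_spec U (C := d) fun n => ?_
      rw [abs_of_nonneg (Finset.sum_nonneg fun i _ => Finset.sum_nonneg fun b _ => by positivity),
        hd]
      refine Finset.sum_le_sum fun i _ => ?_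
      have h4 := pow_le_pow_left₀ (norm_nonneg _) (hR.norm_le (v l) (Bs.ep i)) 2
      refine le_trans (Finset.sum_le_sum fun p _ => ?_) ((hP0.bdd n (R (v l) (Bs.ep i))).trans h4)
      refine pow_le_pow_left₀ (norm_nonneg _) ((ngm l _).trans ?_) 2
      rw [Bs.norm_lx]
    refine le_of_tendsto_of_tendsto (sq l) h2 (Eventually.of_forall fun n => ?_)
    refine Finset.sum_le_sum fun i _ => Finset.sum_le_sum fun p _ => ?_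
    rw [tact_apply, ← hR.lx, hgq1, hgm1]
    exact hpp l _
  -- the sums over `l`
  have hsum1 : ∑ l, TN Bs U B J (gp l) Y1 ≤ q * (2 * d) := by
    refine le_of_tendsto (tendsto_finsetSum Finset.univ fun l _ => sp l)
      (Eventually.of_forall fun n => ?_)
    rw [Finset.sum_comm, hd, Finset.mul_sum, Finset.mul_sum]
    refine Finset.sum_le_sum fun i _ => ?_
    rw [Finset.sum_comm]
    have h1 := hY1b n (Bs.ep i)
    have hq : ∑ p ∈ B n ×ˢ J n, ∑ l, ‖gp l (Bs.lx p.1⁻¹ (Y1 n p (Bs.ep i)))‖ ^ 2 ≤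
        ∑ p ∈ B n ×ˢ J n, q * ‖Y1 n p (Bs.ep i)‖ ^ 2 := by
      refine Finset.sum_le_sum fun p _ => ?_
      have h2 := hsp (Bs.lx p.1⁻¹ (Y1 n p (Bs.ep i)))
      rw [Bs.norm_lx] at h2
      refine le_trans (le_of_eq ?_) h2
      exact Finset.sum_congr rfl fun l _ => hgp1 l _
    rw [← Finset.mul_sum] at hq
    refine hq.trans ?_
    rcases (Finset.sum_nonneg fun p (_ : p ∈ B n ×ˢ J n) =>
      sq_nonneg ‖Y1 n p (Bs.ep i)‖).eq_or_lt with h0 | h0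
    · rw [← h0, mul_zero]
      by_cases he : ‖Bs.ep i‖ = 0
      · rw [he]; simp
      · have h2 := hsp (Bs.ep i)
        have h4 : 0 ≤ q * ‖Bs.ep i‖ ^ 2 := le_trans (Finset.sum_nonneg fun l _ =>
          hpos (hEp l) _) h2
        nlinarith
    · have h4 : 0 ≤ q := by
        by_contra hneg
        push Not at hneg
        have h5 : 0 ≤ ∑ p ∈ B n ×ˢ J n, ∑ l, ‖gp l (Bs.lx p.1⁻¹ (Y1 n p (Bs.ep i)))‖ ^ 2 :=
          Finset.sum_nonneg fun p _ => Finset.sum_nonneg fun l _ => by positivity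
        nlinarith
      nlinarith
  have hsum2 : ∑ l, TN Bs U B J (gm l) P0 ≤ q * d := by
    refine le_of_tendsto (tendsto_finsetSum Finset.univ fun l _ => sm l)
      (Eventually.of_forall fun n => ?_)
    rw [Finset.sum_comm, hd, Finset.mul_sum]
    refine Finset.sum_le_sum fun i _ => ?_
    rw [Finset.sum_comm]
    have h1 := hP0.bdd n (Bs.ep i)
    have hq : ∑ p ∈ B n ×ˢ J n, ∑ l, ‖gm l (Bs.lx p.1⁻¹ (P0 n p (Bs.ep i)))‖ ^ 2 ≤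
        ∑ p ∈ B n ×ˢ J n, q * ‖P0 n p (Bs.ep i)‖ ^ 2 := by
      refine Finset.sum_le_sum fun p _ => ?_
      have h2 := hsm (Bs.lx p.1⁻¹ (P0 n p (Bs.ep i)))
      rw [Bs.norm_lx] at h2
      refine le_trans (le_of_eq ?_) h2
      exact Finset.sum_congr rfl fun l _ => hgm1 l _
    rw [← Finset.mul_sum] at hq
    refine hq.trans ?_
    rcases (Finset.sum_nonneg fun p (_ : p ∈ B n ×ˢ J n) =>
      sq_nonneg ‖P0 n p (Bs.ep i)‖).eq_or_lt with h0 | h0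
    · rw [← h0, mul_zero]
      have h2 := hsm (Bs.ep i)
      exact le_trans (Finset.sum_nonneg fun l _ => hpos (hEm l) _) h2
    · have h4 : 0 ≤ q := by
        by_contra hneg
        push Not at hneg
        have h5 : 0 ≤ ∑ p ∈ B n ×ˢ J n, ∑ l, ‖gm l (Bs.lx p.1⁻¹ (P0 n p (Bs.ep i)))‖ ^ 2 :=
          Finset.sum_nonneg fun p _ => Finset.sum_nonneg fun l _ => by positivity
        nlinarith
      nlinarith
  -- conclusion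
  obtain ⟨m, hm⟩ : ∃ m : ℝ, m = Fintype.card σ := ⟨_, rfl⟩
  have hm0 : 0 ≤ m := by rw [hm]; positivity
  have hcs : ∀ x : σ → ℝ, (∀ l, 0 ≤ x l) → ∑ l, Real.sqrt (x l) ≤
      Real.sqrt m * Real.sqrt (∑ l, x l) := by
    intro x hx
    have h1 := Real.sum_mul_le_sqrt_mul_sqrt Finset.univ (fun _ : σ => (1 : ℝ))
      (fun l => Real.sqrt (x l))
    simp only [one_mul, one_pow, Finset.sum_const, Finset.card_univ, nsmul_eq_mul, mul_one] at h1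
    rw [hm]
    refine h1.trans (le_of_eq ?_)
    congr 2
    exact Finset.sum_congr rfl fun l _ => Real.sq_sqrt (hx l)
  have hn1 : ∀ l, 0 ≤ TN Bs U B J (gp l) Y1 := fun l =>
    ge_of_tendsto (sp l) (Eventually.of_forall fun n =>
      Finset.sum_nonneg fun i _ => Finset.sum_nonneg fun b _ => by positivity)
  have hn2 : ∀ l, 0 ≤ TN Bs U B J (gm l) P0 := fun l =>
    ge_of_tendsto (sm l) (Eventually.of_forall fun n =>
      Finset.sum_nonneg fun i _ => Finset.sum_nonneg fun b _ => by positivity)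
  have htot : m * c ≤ Real.sqrt d * (Real.sqrt m * Real.sqrt (q * (2 * d))) +
      Real.sqrt (2 * d) * (Real.sqrt m * Real.sqrt (q * d)) := by
    have h1 : ∑ l : σ, c ≤ ∑ l, (Real.sqrt d * Real.sqrt (TN Bs U B J (gp l) Y1) +
        Real.sqrt (2 * d) * Real.sqrt (TN Bs U B J (gm l) P0)) := by
      refine Finset.sum_le_sum fun l _ => (key l).trans ?_
      rw [mul_comm (Real.sqrt d)]
      refine add_le_add le_rfl (mul_le_mul_of_nonneg_left (Real.sqrt_le_sqrt (hcmp l))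
        (Real.sqrt_nonneg _))
    rw [Finset.sum_const, Finset.card_univ, nsmul_eq_mul, ← hm, Finset.sum_add_distrib,
      ← Finset.mul_sum, ← Finset.mul_sum] at h1
    refine h1.trans (add_le_add ?_ ?_)
    · refine mul_le_mul_of_nonneg_left ((hcs _ hn1).trans ?_) (Real.sqrt_nonneg _)
      exact mul_le_mul_of_nonneg_left (Real.sqrt_le_sqrt hsum1) (Real.sqrt_nonneg _)
    · refine mul_le_mul_of_nonneg_left ((hcs _ hn2).trans ?_) (Real.sqrt_nonneg _)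
      exact mul_le_mul_of_nonneg_left (Real.sqrt_le_sqrt hsum2) (Real.sqrt_nonneg _)
  rw [← hm]
  refine htot.trans (le_of_eq ?_)
  rw [show q * (2 * d) = 2 * (d * q) by ring, show q * d = d * q by ring,
    Real.sqrt_mul (by norm_num : (0 : ℝ) ≤ 2) (d * q), Real.sqrt_mul hd0 q,
    Real.sqrt_mul (by norm_num : (0 : ℝ) ≤ 2) d, Real.sqrt_mul hm0 q]
  have hdd := Real.mul_self_sqrt hd0
  calc _ = 2 * Real.sqrt 2 * (Real.sqrt d * Real.sqrt d) * (Real.sqrt m * Real.sqrt q) := by ring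
    _ = _ := by rw [hdd]

end ends

end Vale.Agent.P092.H242
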