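import Vale.Agent.P092.H242.Blk
import Vale.Agent.P092.H242.TMean

/-!
P092 (helper242): the asymptotically covariant family of operators and its right invariant
partner, from geometric functions `α_b`, `β_b`; abstract row model.
-/

set_option linter.all false

open scoped InnerProductSpace
open Filter Topology ContinuousLinearMap

namespace Vale.Agent.P092.H242

open Vale.Agent.P092.H160 Vale.Agent.P092.H553 Vale.Agent.P092.H132
open Vale.Agent.P092.H538 (Usm)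
open Vale.Agent.P092.H859 (BB sum_BB_left sum_BB_right)

variable {Γ ι H D : Type} [Group Γ] [Group D] [Fintype ι] [NormedAddCommGroup H]
  [InnerProductSpace ℂ H] [CompleteSpace H] {Bs : Base Γ ι H} {t : ℝ} {R : D → (H →L[ℂ] H)}
  {U : Ultrafilter ℕ} {z : ℕ → D}

/-- Geometric data at level `(S, ε)`: `α` is left equivariant up to `ε` for `S`, `β` is
asymptotically right invariant. -/
structure PData (U : Ultrafilter ℕ) (S : Finset Γ) (ε : ℝ) (B : Finset Γ)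
    (α β : ℕ → Γ → Γ → ℝ) : Prop where
  a0 : ∀ k b g, 0 ≤ α k b g
  b0 : ∀ k b g, 0 ≤ β k b g
  aoff : ∀ k, ∀ b ∉ B, ∀ g, α k b g = 0
  boff : ∀ k, ∀ b ∉ B, ∀ g, β k b g = 0
  a1 : ∀ k g, ∑ b ∈ B, α k b g ^ 2 ≤ 1
  b1 : ∀ k g, ∑ b ∈ B, β k b g ^ 2 ≤ 1
  left : ∀ s ∈ S, ∀ᶠ k in U, ∀ g, ∑ b ∈ BB B s, (α k (s * b) (s * g) - α k b g) ^ 2 ≤ ε
  right : ∀ b u : Γ, Usm U (fun k g => β k b (g * u) - β k b g)

theorem abs_le_of_sum {B : Finset Γ} {f : Γ → ℝ} (h0 : ∀ b, 0 ≤ f b) (hoff : ∀ b ∉ B, f b = 0)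
    (h1 : ∑ b ∈ B, f b ^ 2 ≤ 1) (b : Γ) : |f b| ≤ 1 := by
  rw [abs_of_nonneg (h0 b)]
  by_cases hb : b ∈ B
  · have h2 : f b ^ 2 ≤ ∑ b ∈ B, f b ^ 2 :=
      Finset.single_le_sum (f := fun b => f b ^ 2) (fun b _ => sq_nonneg _) hb
    nlinarith [h0 b]
  · rw [hoff b hb]; exact zero_le_one

theorem PData.a_abs {S B : Finset Γ} {ε : ℝ} {α β : ℕ → Γ → Γ → ℝ} (h : PData U S ε B α β)
    (k : ℕ) (b g : Γ) : |α k b g| ≤ 1 :=
  abs_le_of_sum (f := fun b => α k b g) (fun b => h.a0 k b g) (fun b hb => h.aoff k b hb g)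
    (h.a1 k g) b

theorem PData.b_abs {S B : Finset Γ} {ε : ℝ} {α β : ℕ → Γ → Γ → ℝ} (h : PData U S ε B α β)
    (k : ℕ) (b g : Γ) : |β k b g| ≤ 1 :=
  abs_le_of_sum (f := fun b => β k b g) (fun b => h.b0 k b g) (fun b hb => h.boff k b hb g)
    (h.b1 k g) b

section cal

theorem re_self {H' : Type} [NormedAddCommGroup H'] [InnerProductSpace ℂ H'] (x : H') :
    (⟪x, x⟫_ℂ).re = ‖x‖ ^ 2 := by
  rw [inner_self_eq_norm_sq_to_K]; norm_cast

theorem abs_mul_le' {x y C C' : ℝ} (hx : |x| ≤ C) (hy : |y| ≤ C') : |x * y| ≤ C * C' := by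
  rw [abs_mul]
  exact mul_le_mul hx hy (abs_nonneg _) ((abs_nonneg _).trans hx)

theorem inner_mp_mp {F G : Γ → ℝ} {C C' : ℝ} (hF : ∀ g, |F g| ≤ C) (hG : ∀ g, |G g| ≤ C')
    (ξ η : H) : ⟪Bs.mp F ξ, Bs.mp G η⟫_ℂ = ⟪ξ, Bs.mp (fun g => F g * G g) η⟫_ℂ := by
  rw [Bs.inner_mp_left hF, Bs.mp_mul_apply hF hG]

variable (hR : TRep Bs t R)

include hR

theorem pa_sub {F F' : ℕ → Γ → ℝ} {C C' : ℝ} (hF : ∀ k g, |F k g| ≤ C)
    (hF' : ∀ k g, |F' k g| ≤ C') :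
    Bs.PiA U R z (fun k g => F k g - F' k g) = Bs.PiA U R z F - Bs.PiA U R z F' := by
  refine op_ext_inner fun ξ η => ?_
  have h : ∀ k g, |F k g - F' k g| ≤ C + C' := fun k g =>
    (abs_sub _ _).trans (add_le_add (hF k g) (hF' k g))
  refine tendsto_nhds_unique (pa_spec hR h ξ η) ?_
  rw [sub_apply, inner_sub_right]
  refine ((pa_spec hR hF ξ η).sub (pa_spec hR hF' ξ η)).congr fun k => ?_
  rw [Bs.mp_sub_apply (hF k) (hF' k), inner_sub_right]

theorem pa_gram_nonneg {σ : Type} (s : Finset σ) {f : σ → ℕ → Γ → ℝ} {C : ℝ}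
    (hf : ∀ i k g, |f i k g| ≤ C) (v : σ → H) :
    0 ≤ (∑ i ∈ s, ∑ j ∈ s, ⟪v i, Bs.PiA U R z (fun k g => f i k g * f j k g) (v j)⟫_ℂ).re := by
  have hff : ∀ i j k g, |f i k g * f j k g| ≤ C * C := fun i j k g =>
    abs_mul_le' (hf i k g) (hf j k g)
  refine ge_of_tendsto ((Complex.continuous_re.tendsto _).comp (tendsto_finsetSum s fun i _ =>
    tendsto_finsetSum s fun j _ => pa_spec (U := U) (z := z) hR (hff i j) (v i) (v j)))
    (Eventually.of_forall fun k => ?_)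
  rw [Function.comp_apply]
  have e1 : ∑ i ∈ s, ∑ j ∈ s,
      ⟪R (z k) (v i), Bs.mp (fun g => f i k g * f j k g) (R (z k) (v j))⟫_ℂ =
      ⟪∑ i ∈ s, Bs.mp (f i k) (R (z k) (v i)), ∑ i ∈ s, Bs.mp (f i k) (R (z k) (v i))⟫_ℂ := by
    rw [sum_inner]
    refine Finset.sum_congr rfl fun i _ => ?_
    rw [inner_sum]
    refine Finset.sum_congr rfl fun j _ => ?_
    rw [inner_mp_mp (hf i k) (hf j k)]
  rw [e1, re_self]
  positivity

/-- sums of forms at translated vectors -/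
theorem tA_sum_lx {σ : Type} (s : Finset σ) (b : σ → Γ) {G : σ → ℕ → Γ → ℝ} {C : ℝ}
    (hG : ∀ j k g, |G j k g| ≤ C) (ξ : H) :
    ∑ j ∈ s, Bs.tA U R z (G j) (Bs.lx (b j)⁻¹ ξ) =
      Bs.tA U R z (fun k g => ∑ j ∈ s, 1 * G j k ((b j)⁻¹ * g)) ξ := by
  rw [tA_sum hR s (fun _ => 1) (G := fun j k g => G j k ((b j)⁻¹ * g)) (E := fun _ => C)
    (fun j k g => hG j k _)]
  refine Finset.sum_congr rfl fun j _ => ?_
  rw [one_mul, tA_lx hR (hG j)]

end cal

section col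

/-- the Gram matrix of the functions `β_b(b ·)` -/
noncomputable def GG (Bs : Base Γ ι H) (U : Ultrafilter ℕ) (R : D → (H →L[ℂ] H)) (z : ℕ → D)
    (β : ℕ → Γ → Γ → ℝ) (b' b : Γ) : H →L[ℂ] H :=
  Bs.PiA U R z (fun k g => β k b' (b' * g) * β k b (b * g))

/-- the column of the operators `Π(β_b(b ·) F)` -/
noncomputable def col (Bs : Base Γ ι H) (U : Ultrafilter ℕ) (R : D → (H →L[ℂ] H)) (z : ℕ → D)
    (B : Finset Γ) (β : ℕ → Γ → Γ → ℝ) (F : ℕ → Γ → ℝ) : H →L[ℂ] HB H B :=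
  ∑ b' ∈ B, (sg B b').comp (Bs.PiA U R z (fun k g => β k b' (b' * g) * F k g))

variable {B : Finset Γ} {β : ℕ → Γ → Γ → ℝ} {F F' : ℕ → Γ → ℝ} {C : ℝ}

theorem pr_col {b : Γ} (hb : b ∈ B) (ξ : H) :
    pr B b (col Bs U R z B β F ξ) = Bs.PiA U R z (fun k g => β k b (b * g) * F k g) ξ := by
  classical
  rw [col]
  simp only [ContinuousLinearMap.sum_apply, map_sum, comp_apply]
  rw [Finset.sum_eq_single b]
  · rw [pr_sg hb, if_pos rfl]
  · intro c _ hc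
    rw [pr_sg hb, if_neg (Ne.symm hc)]
  · intro h; exact absurd hb h

theorem inner_col (x : HB H B) (ξ : H) : ⟪x, col Bs U R z B β F ξ⟫_ℂ =
    ∑ b ∈ B, ⟪pr B b x, Bs.PiA U R z (fun k g => β k b (b * g) * F k g) ξ⟫_ℂ := by
  rw [← sum_pr]
  exact Finset.sum_congr rfl fun b hb => by rw [pr_col hb]

/-- operators commuting with all `Π` pass through the column -/
theorem col_comm {T : H →L[ℂ] H} (hT : ∀ b ∈ B, Bs.PiA U R z (fun k g => β k b (b * g) * F k g) * T =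
    T * Bs.PiA U R z (fun k g => β k b (b * g) * F k g)) (ξ : H) :
    col Bs U R z B β F (T ξ) = dg B T (col Bs U R z B β F ξ) := by
  refine HB_ext fun b hb => ?_
  rw [pr_dg, pr_col hb, pr_col hb]
  exact congrArg (fun A : H →L[ℂ] H => A ξ) (hT b hb)

variable (hR : TRep Bs t R) (hβ : ∀ k b g, |β k b g| ≤ 1)

include hR hβ

theorem bF_abs (hF : ∀ k g, |F k g| ≤ C) (b : Γ) (k : ℕ) (g : Γ) :
    |β k b (b * g) * F k g| ≤ 1 * C := abs_mul_le' (hβ k b _) (hF k g)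

theorem GG_adj (b b' : Γ) : adjoint (GG Bs U R z β b b') = GG Bs U R z β b' b := by
  rw [GG, pa_adjoint hR (C := 1 * 1) (fun k g => abs_mul_le' (hβ k b _) (hβ k b' _)), GG]
  congr 1
  funext k g
  rw [mul_comm]

theorem GG_comm {v : D} (hv : ∀ k, z k * v = v * z k)
    (hr : ∀ b u : Γ, Usm U (fun k g => β k b (g * u) - β k b g)) (b' b : Γ) :
    GG Bs U R z β b' b * R v = R v * GG Bs U R z β b' b := by
  refine pa_comm hR (C := 1 * 1) (fun k g => abs_mul_le' (hβ k b' _) (hβ k b _)) v hv fun u => ?_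
  refine small_of_usmA hR fun δ hδ => ?_
  filter_upwards [hr b' u (δ / 2) (by positivity), hr b u (δ / 2) (by positivity)] with k h1 h2 g
  have e1 : β k b' (b' * (g * u)) * β k b (b * (g * u)) - β k b' (b' * g) * β k b (b * g) =
      (β k b' (b' * g * u) - β k b' (b' * g)) * β k b (b * g * u) +
      β k b' (b' * g) * (β k b (b * g * u) - β k b (b * g)) := by
    rw [mul_assoc b' g u, mul_assoc b g u]; ring
  rw [e1]
  refine (abs_add_le _ _).trans ?_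
  have h3 := abs_mul_le' (h1 (b' * g)) (hβ k b (b * g * u))
  have h4 := abs_mul_le' (hβ k b' (b' * g)) (h2 (b * g))
  linarith

/-- the Schur complement estimate for the columns -/
theorem col_le (hC : 1 ≤ C) (hF : ∀ k g, |F k g| ≤ C) {η : ℝ} (hη : 0 < η)
    {S Q : HB H B →L[ℂ] HB H B} (hSS : S * S = blk B (GG Bs U R z β) + (η : ℂ) • 1)
    (hSQ : S * Q = 1) (hQ : ∀ x y, ⟪Q x, y⟫_ℂ = ⟪x, Q y⟫_ℂ) (ξ : H) :
    ‖Q (col Bs U R z B β F ξ)‖ ^ 2 ≤ Bs.tA U R z (fun k g => F k g * F k g) ξ := by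
  refine schur_le hη hSS hSQ hQ _ fun x => ?_
  obtain ⟨f, hf⟩ : ∃ f : Option Γ → ℕ → Γ → ℝ, f = fun o k g =>
    o.elim (F k g) (fun b => β k b (b * g)) := ⟨_, rfl⟩
  obtain ⟨v, hv⟩ : ∃ v : Option Γ → H, v = fun o => o.elim ξ (fun b => -(pr B b x)) := ⟨_, rfl⟩
  have hfb : ∀ o k g, |f o k g| ≤ C := by
    intro o k g
    rw [hf]
    cases o with
    | none => exact hF k g
    | some b => exact (hβ k b _).trans hC
  have h1 := pa_gram_nonneg (U := U) (z := z) hR (Finset.insertNone B) hfb v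
  simp only [Finset.sum_insertNone, Complex.add_re, Complex.re_sum] at h1
  simp only [hf, hv, Option.elim_none, Option.elim_some, map_neg, inner_neg_left,
    inner_neg_right, neg_neg, Complex.neg_re] at h1
  rw [inner_col, inner_blk, Complex.re_sum, Complex.re_sum]
  have e1 : ∀ b, (⟪ξ, Bs.PiA U R z (fun k g => F k g * β k b (b * g)) (pr B b x)⟫_ℂ).re =
      (⟪pr B b x, Bs.PiA U R z (fun k g => β k b (b * g) * F k g) ξ⟫_ℂ).re := by
    intro b
    have e2 : (fun (k : ℕ) (g : Γ) => F k g * β k b (b * g)) =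
        fun k g => β k b (b * g) * F k g := by
      funext k g; rw [mul_comm]
    rw [e2, ← pa_sym hR (bF_abs hR hβ hF b), ← inner_conj_symm, Complex.conj_re]
  simp only [e1] at h1
  rw [Finset.sum_add_distrib, Finset.sum_neg_distrib] at h1
  have e3 : ∀ b', (∑ b ∈ B, ⟪pr B b' x, GG Bs U R z β b' b (pr B b x)⟫_ℂ).re =
      ∑ b ∈ B, (⟪pr B b' x, Bs.PiA U R z (fun k g => β k b' (b' * g) * β k b (b * g))
        (pr B b x)⟫_ℂ).re := fun b' => by rw [Complex.re_sum]; rfl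
  simp only [e3]
  have e4 : Bs.tA U R z (fun k g => F k g * F k g) ξ =
      (⟪ξ, Bs.PiA U R z (fun k g => F k g * F k g) ξ⟫_ℂ).re := rfl
  rw [e4]
  linarith

end col

end Vale.Agent.P092.H242
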