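import Vale.Agent.P092.H242.TGram

/-!
P092 (helper242): the pairing lemma in the abstract row model, in two forms: invariant means
(`pairing`) and finite ping-pong families (`pairF`).
-/

set_option linter.all false

open scoped InnerProductSpace
open Filter Topology ContinuousLinearMap

namespace Vale.Agent.P092.H242

open Vale.Agent.P092.H160 Vale.Agent.P092.H553 Vale.Agent.P092.H132
open Vale.Agent.P092.H538 (Usm)
open Vale.Agent.P092.H859 (BB sum_BB_left sum_BB_right)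

variable {Γ ι H D : Type} [Group Γ] [Group D] [Fintype ι] [NormedAddCommGroup H]
  [InnerProductSpace ℂ H] [CompleteSpace H] {Bs : Base Γ ι H} {t : ℝ} {R : D → (H →L[ℂ] H)}
  {U : Ultrafilter ℕ} {z : ℕ → D}

section level

variable {S B : Finset Γ} {ε : ℝ} {α β : ℕ → Γ → Γ → ℝ}

/-- the operators `P_(b,j)` -/
noncomputable def PP (Bs : Base Γ ι H) (U : Ultrafilter ℕ) (R : D → (H →L[ℂ] H)) (z : ℕ → D)
    (B : Finset Γ) (α β : ℕ → Γ → Γ → ℝ) (Q : HB H B →L[ℂ] HB H B) (p : Γ × Γ) : H →L[ℂ] H :=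
  Bs.lx p.1 * (((pr B p.2).comp (Q.comp
    (col Bs U R z B β (fun k g => α k p.1 (p.1 * g))))) * Bs.lx p.1⁻¹)

/-- the operators `Y_(b,j)` -/
noncomputable def YY (Bs : Base Γ ι H) (B : Finset Γ) (S' : HB H B →L[ℂ] HB H B) (p : Γ × Γ) :
    H →L[ℂ] H :=
  Bs.lx p.1 * (((pr B p.2).comp (S'.comp (sg B p.1))) * Bs.lx p.1⁻¹)

theorem PP_apply (Q : HB H B →L[ℂ] HB H B) (p : Γ × Γ) (ξ : H) :
    PP Bs U R z B α β Q p ξ = Bs.lx p.1 (pr B p.2 (Q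
      (col Bs U R z B β (fun k g => α k p.1 (p.1 * g)) (Bs.lx p.1⁻¹ ξ)))) := rfl

theorem YY_apply (S' : HB H B →L[ℂ] HB H B) (p : Γ × Γ) (ξ : H) :
    YY Bs B S' p ξ = Bs.lx p.1 (pr B p.2 (S' (sg B p.1 (Bs.lx p.1⁻¹ ξ)))) := rfl

theorem sum_lx_pr (b : Γ → Γ) (s : Finset Γ) (y : Γ → HB H B) :
    ∑ p ∈ s ×ˢ B, ‖Bs.lx (b p.1) (pr B p.2 (y p.1))‖ ^ 2 = ∑ c ∈ s, ‖y c‖ ^ 2 := by
  rw [Finset.sum_product]
  refine Finset.sum_congr rfl fun c _ => ?_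
  rw [← sum_pr_norm]
  refine Finset.sum_congr rfl fun j _ => ?_
  rw [Bs.norm_lx]

variable (hR : TRep Bs t R) (hD : PData U S ε B α β)

include hR hD

theorem col_sub {F F' : ℕ → Γ → ℝ} {C C' : ℝ} (hF : ∀ k g, |F k g| ≤ C)
    (hF' : ∀ k g, |F' k g| ≤ C') (ξ : H) :
    col Bs U R z B β (fun k g => F k g - F' k g) ξ =
      col Bs U R z B β F ξ - col Bs U R z B β F' ξ := by
  refine HB_ext fun b hb => ?_
  rw [map_sub, pr_col hb, pr_col hb, pr_col hb, ← sub_apply,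
    ← pa_sub hR (bF_abs hR hD.b_abs hF b) (bF_abs hR hD.b_abs hF' b)]
  congr 2
  funext k g
  rw [mul_sub]

/-- The two families at one level. -/
theorem level (hε : 0 ≤ ε) {η : ℝ} (hη : 0 < η) (hηB : η * B.card ≤ 1) :
    ∃ P Y : Γ × Γ → (H →L[ℂ] H),
      (∀ p : Γ × Γ, p.1 ∉ B → P p = 0) ∧
      (∀ ξ, ∑ p ∈ B ×ˢ B, ‖P p ξ‖ ^ 2 ≤ ‖ξ‖ ^ 2) ∧
      (∀ p, R 1 * P p = P p) ∧ (∀ p, P p * R 1 = P p) ∧
      (∀ p, ∀ a ∈ Bs.sc, P p * a = a * P p) ∧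
      (∀ s ∈ S, ∀ ξ, ∑ p ∈ BB B s ×ˢ B,
        ‖P (s * p.1, p.2) ξ - Bs.lx s (P p (Bs.lx s⁻¹ ξ))‖ ^ 2 ≤ ε * ‖ξ‖ ^ 2) ∧
      (∀ ξ, ∑ p ∈ B ×ˢ B, ‖Y p ξ‖ ^ 2 ≤ 2 * ‖ξ‖ ^ 2) ∧
      (∀ v, (∀ k, z k * v = v * z k) → ∀ p, Y p * R v = R v * Y p) ∧
      (∀ ξ, (∑ p ∈ B ×ˢ B, ⟪Y p ξ, P p ξ⟫_ℂ).re =
        Bs.tA U R z (fun k g => ∑ b ∈ B, α k b g * β k b g) ξ) := by
  have hb1 := hD.b_abs
  have hpos : ∀ x : HB H B,
      0 ≤ (∑ b' ∈ B, ∑ b ∈ B, ⟪pr B b' x, GG Bs U R z β b' b (pr B b x)⟫_ℂ).re := fun x =>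
    pa_gram_nonneg hR B (f := fun b k g => β k b (b * g)) (C := 1) (fun b k g => hb1 k b _)
      (fun b => pr B b x)
  obtain ⟨S', Q, hSS, hSQ, hQS, hS, hQ, hcomm⟩ :=
    exists_root (B := B) (GG Bs U R z β) (GG_adj hR hb1) hpos hη
  have ha : ∀ b k g, |α k b (b * g)| ≤ 2 := fun b k g => (hD.a_abs k b _).trans one_le_two
  -- the main estimate
  have hle : ∀ {F : ℕ → Γ → ℝ}, (∀ k g, |F k g| ≤ 2) → ∀ ξ,
      ‖Q (col Bs U R z B β F ξ)‖ ^ 2 ≤ Bs.tA U R z (fun k g => F k g * F k g) ξ := fun hF ξ =>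
    col_le hR hb1 one_le_two hF hη hSS hSQ hQ ξ
  -- operators passing through
  have hthru : ∀ T : H →L[ℂ] H, (∀ {F : ℕ → Γ → ℝ} {C : ℝ}, (∀ k g, |F k g| ≤ C) →
      Bs.PiA U R z F * T = T * Bs.PiA U R z F) → (∀ s ξ, T (Bs.lx s ξ) = Bs.lx s (T ξ)) →
      ∀ p, PP Bs U R z B α β Q p * T = T * PP Bs U R z B α β Q p := by
    intro T hT hTl p
    ext1 ξ
    rw [mul_ap, mul_ap, PP_apply, PP_apply, ← hTl p.1⁻¹, hTl p.1,
      col_comm (fun b _ => hT (bF_abs hR hb1 (ha p.1) b))]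
    have h1 := (hcomm T fun b' _ b _ => hT (C := 1 * 1)
      (fun k g => abs_mul_le' (hb1 k b' _) (hb1 k b _))).2
    have h2 : ∀ x, Q (dg B T x) = dg B T (Q x) := fun x =>
      congrArg (fun A : HB H B →L[ℂ] HB H B => A x) h1
    rw [h2, pr_dg]
  have hcolone : ∀ (p : Γ × Γ) (ζ : H), col Bs U R z B β (fun k g => α k p.1 (p.1 * g)) (R 1 ζ) =
      col Bs U R z B β (fun k g => α k p.1 (p.1 * g)) ζ := by
    intro p ζ
    refine HB_ext fun b hb => ?_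
    rw [pr_col hb, pr_col hb, ← mul_ap, pa_mul_one hR (bF_abs hR hb1 (ha p.1) b)]
  refine ⟨PP Bs U R z B α β Q, YY Bs B S', ?_, ?_, ?_, ?_, ?_, ?_, ?_, ?_, ?_⟩
  · -- off
    intro p hp
    ext1 ξ
    rw [PP_apply]
    have h1 := hle (F := fun k g => α k p.1 (p.1 * g)) (ha p.1) (Bs.lx p.1⁻¹ ξ)
    have h2 : (fun (k : ℕ) (g : Γ) => α k p.1 (p.1 * g) * α k p.1 (p.1 * g)) =
        fun _ _ => (0 : ℝ) := by
      funext k g
      rw [hD.aoff k p.1 hp, mul_zero]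
    rw [h2, tA_const hR, zero_mul] at h1
    have h3 : Q (col Bs U R z B β (fun k g => α k p.1 (p.1 * g)) (Bs.lx p.1⁻¹ ξ)) = 0 := by
      rw [← norm_eq_zero]
      nlinarith [norm_nonneg (Q (col Bs U R z B β (fun k g => α k p.1 (p.1 * g))
        (Bs.lx p.1⁻¹ ξ)))]
    rw [h3, map_zero, map_zero]
    rfl
  · -- bdd
    intro ξ
    have e1 : ∑ p ∈ B ×ˢ B, ‖PP Bs U R z B α β Q p ξ‖ ^ 2 =
        ∑ b ∈ B, ‖Q (col Bs U R z B β (fun k g => α k b (b * g)) (Bs.lx b⁻¹ ξ))‖ ^ 2 :=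
      sum_lx_pr (Bs := Bs) (fun b => b) B
        (fun b => Q (col Bs U R z B β (fun k g => α k b (b * g)) (Bs.lx b⁻¹ ξ)))
    rw [e1]
    refine (Finset.sum_le_sum fun b _ => hle (ha b) (Bs.lx b⁻¹ ξ)).trans ?_
    rw [tA_sum_lx hR B (fun b => b) (G := fun b k g => α k b (b * g) * α k b (b * g))
      (C := 2 * 2) (fun b k g => abs_mul_le' (ha b k g) (ha b k g))]
    have e2 : (fun (k : ℕ) (g : Γ) => ∑ b ∈ B, 1 * (α k b (b * (b⁻¹ * g)) *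
        α k b (b * (b⁻¹ * g)))) = fun k g => ∑ b ∈ B, α k b g ^ 2 := by
      funext k g
      refine Finset.sum_congr rfl fun b _ => ?_
      rw [mul_inv_cancel_left, one_mul, sq]
    rw [e2]
    refine (tA_le hR (C := 1) (fun k g => ?_) zero_le_one
      (fun δ hδ => Eventually.of_forall fun k g => ?_) ξ).trans (by rw [one_mul])
    · rw [abs_of_nonneg (Finset.sum_nonneg fun b _ => sq_nonneg _)]
      exact hD.a1 k g
    · exact (hD.a1 k g).trans (by linarith)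
  · -- oneL
    intro p
    have h1 := hthru (R 1) (fun hF => by rw [pa_mul_one hR hF, pa_one_mul hR hF])
      (fun s ξ => hR.lx 1 s ξ) p
    rw [← h1]
    ext1 ξ
    rw [mul_ap, PP_apply, PP_apply, ← hR.lx, hcolone]
  · -- oneR
    intro p
    ext1 ξ
    rw [mul_ap, PP_apply, PP_apply, ← hR.lx, hcolone]
  · -- sc
    intro p a has
    exact hthru a (fun hF => pa_sc hR hF has) (fun s ξ =>
      congrArg (fun A : H →L[ℂ] H => A ξ) (Bs.sc_lx a has s)) p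
  · -- cov
    intro s hs ξ
    have e1 : ∀ p ∈ BB B s ×ˢ B, ‖PP Bs U R z B α β Q (s * p.1, p.2) ξ -
        Bs.lx s (PP Bs U R z B α β Q p (Bs.lx s⁻¹ ξ))‖ ^ 2 =
        ‖Bs.lx (s * p.1) (pr B p.2 (Q (col Bs U R z B β
          (fun k g => α k (s * p.1) (s * p.1 * g) - α k p.1 (p.1 * g))
          (Bs.lx (s * p.1)⁻¹ ξ))))‖ ^ 2 := by
      intro p _
      have e2 : Bs.lx (s * p.1)⁻¹ ξ = Bs.lx p.1⁻¹ (Bs.lx s⁻¹ ξ) := by
        rw [mul_inv_rev, Bs.lx_mul_apply]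
      rw [PP_apply, PP_apply, col_sub hR hD (F := fun k g => α k (s * p.1) (s * p.1 * g))
        (F' := fun k g => α k p.1 (p.1 * g)) (ha (s * p.1)) (ha p.1), map_sub, map_sub, map_sub,
        e2, Bs.lx_mul_apply, Bs.lx_mul_apply]
    rw [Finset.sum_congr rfl e1, sum_lx_pr (Bs := Bs) (fun b => s * b) (BB B s)
      (fun b => Q (col Bs U R z B β (fun k g => α k (s * b) (s * b * g) - α k b (b * g))
          (Bs.lx (s * b)⁻¹ ξ)))]
    have hd : ∀ b k g, |α k (s * b) (s * b * g) - α k b (b * g)| ≤ 2 := fun b k g => by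
      refine (abs_sub _ _).trans ?_
      have h1 := hD.a_abs k (s * b) (s * b * g)
      have h2 := hD.a_abs k b (b * g)
      linarith
    refine (Finset.sum_le_sum fun b _ => hle (hd b) (Bs.lx (s * b)⁻¹ ξ)).trans ?_
    rw [tA_sum_lx hR (BB B s) (fun b => s * b)
      (G := fun b k g => (α k (s * b) (s * b * g) - α k b (b * g)) *
        (α k (s * b) (s * b * g) - α k b (b * g)))
      (C := 2 * 2) (fun b k g => abs_mul_le' (hd b k g) (hd b k g))]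
    refine tA_le hR (C := (BB B s).card * (2 * 2)) (fun k g => ?_) hε (fun δ hδ => ?_) ξ
    · refine (Finset.abs_sum_le_sum_abs _ _).trans ?_
      rw [← nsmul_eq_mul, ← Finset.sum_const]
      refine Finset.sum_le_sum fun b _ => ?_
      rw [one_mul]
      exact abs_mul_le' (hd b k _) (hd b k _)
    · filter_upwards [hD.left s hs] with k hk g
      have h1 := hk (s⁻¹ * g)
      refine (le_trans (le_of_eq ?_) h1).trans (by linarith)
      refine Finset.sum_congr rfl fun b _ => ?_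
      rw [one_mul, ← sq, mul_inv_cancel_left, mul_inv_cancel_left, mul_inv_rev, ← mul_assoc b,
        ← mul_assoc b, mul_inv_cancel, one_mul]
  · -- the norm of Y
    intro ξ
    have e1 : ∑ p ∈ B ×ˢ B, ‖YY Bs B S' p ξ‖ ^ 2 =
        ∑ b ∈ B, ‖S' (sg B b (Bs.lx b⁻¹ ξ))‖ ^ 2 :=
      sum_lx_pr (Bs := Bs) (fun b => b) B (fun b => S' (sg B b (Bs.lx b⁻¹ ξ)))
    rw [e1]
    have e2 : ∀ b ∈ B, ‖S' (sg B b (Bs.lx b⁻¹ ξ))‖ ^ 2 ≤
        Bs.tA U R z (fun k g => β k b (b * g) * β k b (b * g)) (Bs.lx b⁻¹ ξ) + η * ‖ξ‖ ^ 2 := by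
      classical
      intro b hb
      obtain ⟨x, hx⟩ : ∃ x : HB H B, x = sg B b (Bs.lx b⁻¹ ξ) := ⟨_, rfl⟩
      have h1 : ‖S' x‖ ^ 2 = (⟪x, blk B (GG Bs U R z β) x⟫_ℂ).re + η * ‖x‖ ^ 2 := by
        rw [← re_self, hS]
        have h2 : S' (S' x) = blk B (GG Bs U R z β) x + (η : ℂ) • x :=
          congrArg (fun A : HB H B →L[ℂ] HB H B => A x) hSS
        rw [h2, inner_add_right, Complex.add_re, inner_smul_right, Complex.re_ofReal_mul, re_self]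
      rw [← hx, h1]
      have h3 : (⟪x, blk B (GG Bs U R z β) x⟫_ℂ).re =
          Bs.tA U R z (fun k g => β k b (b * g) * β k b (b * g)) (Bs.lx b⁻¹ ξ) := by
        rw [hx, inner_sg_left, pr_blk _ hb, Finset.sum_eq_single b]
        · rw [pr_sg hb, if_pos rfl]; rfl
        · intro c hc hcb
          rw [pr_sg hc, if_neg hcb, map_zero]
        · intro h; exact absurd hb h
      rw [h3]
      have h4 : ‖x‖ ^ 2 ≤ ‖ξ‖ ^ 2 := by
        refine pow_le_pow_left₀ (norm_nonneg _) ?_ 2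
        rw [hx]
        refine (norm_sg_le _ _).trans ?_
        rw [Bs.norm_lx]
      have h5 : η * ‖x‖ ^ 2 ≤ η * ‖ξ‖ ^ 2 := mul_le_mul_of_nonneg_left h4 hη.le
      linarith
    refine (Finset.sum_le_sum e2).trans ?_
    rw [Finset.sum_add_distrib, Finset.sum_const, nsmul_eq_mul, tA_sum_lx hR B (fun b => b)
      (G := fun b k g => β k b (b * g) * β k b (b * g)) (C := 1 * 1)
      (fun b k g => abs_mul_le' (hb1 k b _) (hb1 k b _))]
    have e3 : (fun (k : ℕ) (g : Γ) => ∑ b ∈ B, 1 * (β k b (b * (b⁻¹ * g)) *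
        β k b (b * (b⁻¹ * g)))) = fun k g => ∑ b ∈ B, β k b g ^ 2 := by
      funext k g
      refine Finset.sum_congr rfl fun b _ => ?_
      rw [mul_inv_cancel_left, one_mul, sq]
    rw [e3]
    have h1 := tA_le (U := U) (z := z) hR (F := fun k g => ∑ b ∈ B, β k b g ^ 2) (C := 1)
      (fun k g => by
        rw [abs_of_nonneg (Finset.sum_nonneg fun b _ => sq_nonneg _)]
        exact hD.b1 k g) zero_le_one
      (fun δ hδ => Eventually.of_forall fun k g => (hD.b1 k g).trans (by linarith)) ξ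
    have h2 : (B.card : ℝ) * (η * ‖ξ‖ ^ 2) ≤ 1 * ‖ξ‖ ^ 2 := by
      rw [← mul_assoc, mul_comm (B.card : ℝ)]
      exact mul_le_mul_of_nonneg_right hηB (sq_nonneg _)
    linarith
  · -- Y commutes
    intro v hv p
    ext1 ξ
    have h1 := (hcomm (R v) fun b' _ b _ => GG_comm hR hb1 hv hD.right b' b).1
    have h2 : ∀ x, S' (dg B (R v) x) = dg B (R v) (S' x) := fun x =>
      congrArg (fun A : HB H B →L[ℂ] HB H B => A x) h1
    rw [mul_ap, mul_ap, YY_apply, YY_apply, ← hR.lx, ← dg_sg, h2, pr_dg, hR.lx]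
  · -- pair
    intro ξ
    rw [Finset.sum_product, Complex.re_sum]
    have e1 : ∀ b ∈ B, (∑ j ∈ B, ⟪YY Bs B S' (b, j) ξ, PP Bs U R z B α β Q (b, j) ξ⟫_ℂ).re =
        Bs.tA U R z (fun k g => β k b (b * g) * α k b (b * g)) (Bs.lx b⁻¹ ξ) := by
      intro b hb
      have e2 : ∑ j ∈ B, ⟪YY Bs B S' (b, j) ξ, PP Bs U R z B α β Q (b, j) ξ⟫_ℂ =
          ⟪S' (sg B b (Bs.lx b⁻¹ ξ)),
            Q (col Bs U R z B β (fun k g => α k b (b * g)) (Bs.lx b⁻¹ ξ))⟫_ℂ := by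
        rw [← sum_pr]
        refine Finset.sum_congr rfl fun j _ => ?_
        rw [YY_apply, PP_apply, Bs.inner_lx]
      have e3 : ∀ y, S' (Q y) = y := fun y =>
        congrArg (fun A : HB H B →L[ℂ] HB H B => A y) hSQ
      rw [e2, hS, e3, inner_sg_left, pr_col hb]
      rfl
    rw [Finset.sum_congr rfl e1, tA_sum_lx hR B (fun b => b)
      (G := fun b k g => β k b (b * g) * α k b (b * g)) (C := 1 * 2)
      (fun b k g => abs_mul_le' (hb1 k b _) (ha b k g))]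
    congr 1
    funext k g
    refine Finset.sum_congr rfl fun b _ => ?_
    rw [mul_inv_cancel_left, one_mul, mul_comm]

end level

section final

/-- Families at all levels. -/
theorem exists_fam [Countable Γ] (hR : TRep Bs t R) (V : Set D) {c : ℝ}
    (h : ∀ (S : Finset Γ) (ε : ℝ), 0 < ε → ∃ (B : Finset Γ) (α β : ℕ → Γ → Γ → ℝ),
      PData U S ε B α β ∧ ∀ v ∈ V, c ≤ ∑ i, Bs.tA U R z (fun k g => ∑ b ∈ B, α k b g * β k b g)
        (R v (Bs.ep i))) :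
    ∃ (B : ℕ → Finset Γ) (P Y : ℕ → Γ × Γ → (H →L[ℂ] H)) (W : Ultrafilter ℕ),
      TFam Bs R B B P ∧ TCov Bs W B B P ∧
      (∀ n (ξ : H), ∑ p ∈ B n ×ˢ B n, ‖Y n p ξ‖ ^ 2 ≤ 2 * ‖ξ‖ ^ 2) ∧
      (∀ v, (∀ k, z k * v = v * z k) → ∀ n p, Y n p * R v = R v * Y n p) ∧
      ∀ v ∈ V, TLowAt Bs R W B B Y P c v := by
  classical
  obtain ⟨f, hf⟩ := exists_surjective_nat Γ
  choose B α β hD hc using fun n : ℕ => h (Finset.image f (Finset.range n)) (1 / ((n : ℝ) + 1))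
    (by positivity)
  have hlev := fun n : ℕ => level (z := z) hR (hD n) (by positivity) (η := 1 / ((B n).card + 1 : ℝ))
    (by positivity) (by
      rw [div_mul_eq_mul_div, one_mul, div_le_one (by positivity)]
      linarith)
  choose P Y h1 h2 h3 h4 h5 h6 h7 h8 h9 using hlev
  obtain ⟨W, hW⟩ : ∃ W : Ultrafilter ℕ, (W : Filter ℕ) ≤ atTop :=
    ⟨hyperfilter ℕ, Nat.hyperfilter_le_atTop⟩
  refine ⟨B, P, Y, W, ⟨h1, h2, h3, h4, h5⟩, ?_, h7, fun v hv n p => h8 n v hv p, ?_⟩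
  · intro s ξ
    obtain ⟨n0, hn0⟩ := hf s
    have hlim : Tendsto (fun n : ℕ => 1 / ((n : ℝ) + 1) * ‖ξ‖ ^ 2) W (𝓝 0) := by
      have h10 := ((tendsto_one_div_add_atTop_nhds_zero_nat (𝕜 := ℝ)).mono_left hW).mul_const
        (‖ξ‖ ^ 2)
      rwa [zero_mul] at h10
    refine squeeze_zero' (Eventually.of_forall fun n =>
      Finset.sum_nonneg fun p _ => by positivity) ?_ hlim
    have h11 : ∀ᶠ n in (W : Filter ℕ), n0 < n := hW (eventually_gt_atTop n0)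
    filter_upwards [h11] with n hn
    exact h6 n s (Finset.mem_image.mpr ⟨n0, Finset.mem_range.mpr hn, hn0⟩) ξ
  · intro v hv
    refine Eventually.of_forall fun n => ?_
    refine (hc n v hv).trans (le_of_eq ?_)
    exact Finset.sum_congr rfl fun i _ => (h9 n _).symm

/-- **Pairing lemma, mean form.** -/
theorem pairing [Countable Γ] (hR : TRep Bs t R) {E : Set D → (H →L[ℂ] H)}
    (hE : EFamT Bs R E) (K : Subgroup D) (hz : ∀ k, ∀ v ∈ K, z k * v = v * z k) {c : ℝ}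
    (hc : 0 < c)
    (h : ∀ (S : Finset Γ) (ε : ℝ), 0 < ε → ∃ (B : Finset Γ) (α β : ℕ → Γ → Γ → ℝ),
      PData U S ε B α β ∧ ∀ v ∈ K, c ≤ ∑ i, Bs.tA U R z (fun k g => ∑ b ∈ B, α k b g * β k b g)
        (R v (Bs.ep i))) :
    ∃ m : Set D → ℝ, H200.IsInvMean K m := by
  obtain ⟨B, P, Y, W, h1, h2, h3, h4, h5⟩ := exists_fam hR (K : Set D) h
  exact t_mean hR hE K h1 h2 h3 (fun u hu => h4 u fun k => hz k u hu) hc h5

/-- **Pairing lemma, ping-pong form.** -/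
theorem pairF [Countable Γ] (hR : TRep Bs t R) {σ : Type} [Fintype σ] (v : σ → D)
    (hz : ∀ k l, z k * v l = v l * z k)
    (Ep Em : σ → (H →L[ℂ] H)) (hEp : ∀ l, 0 ≤ Ep l) (hEp1 : ∀ l, 0 ≤ R 1 - Ep l)
    (hEm : ∀ l, 0 ≤ Em l)
    (hEpsc : ∀ l, ∀ a ∈ Bs.sc, Ep l * a = a * Ep l) (hEmsc : ∀ l, ∀ a ∈ Bs.sc, Em l * a = a * Em l)
    (hEm1 : ∀ l ξ, (⟪ξ, Em l ξ⟫_ℂ).re ≤ ‖ξ‖ ^ 2)
    {q : ℝ} (hsp : ∀ ξ, ∑ l, (⟪ξ, Ep l ξ⟫_ℂ).re ≤ q * ‖ξ‖ ^ 2)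
    (hsm : ∀ ξ, ∑ l, (⟪ξ, Em l ξ⟫_ℂ).re ≤ q * ‖ξ‖ ^ 2)
    (hpp : ∀ l ξ, (⟪R (v l)⁻¹ ξ, (R 1 - Ep l) (R (v l)⁻¹ ξ)⟫_ℂ).re ≤ (⟪ξ, Em l ξ⟫_ℂ).re)
    {c : ℝ}
    (h : ∀ (S : Finset Γ) (ε : ℝ), 0 < ε → ∃ (B : Finset Γ) (α β : ℕ → Γ → Γ → ℝ),
      PData U S ε B α β ∧ ∀ l, c ≤ ∑ i, Bs.tA U R z (fun k g => ∑ b ∈ B, α k b g * β k b g)
        (R (v l) (Bs.ep i))) :
    Fintype.card σ * c ≤
      2 * Real.sqrt 2 * (∑ i, ‖Bs.ep i‖ ^ 2) * Real.sqrt (Fintype.card σ * q) := by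
  obtain ⟨B, P, Y, W, h1, h2, h3, h4, h5⟩ := exists_fam (U := U) (z := z) hR (Set.range v)
    (c := c) fun S ε hε => by
      obtain ⟨B, α, β, hD, hl⟩ := h S ε hε
      refine ⟨B, α, β, hD, ?_⟩
      rintro _ ⟨l, rfl⟩
      exact hl l
  exact t_pp hR v h1 h2 h3 (fun l => h4 (v l) fun k => hz k l) Ep Em hEp hEp1 hEm hEpsc hEmsc
    hEm1 hsp hsm hpp fun l => h5 (v l) ⟨l, rfl⟩

end final

end Vale.Agent.P092.H242
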