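import Vale.Agent.P092.H242.ThCK2
import Vale.Agent.P092.H734.SW

/-!
P092, Theorem C (#3269) step (3): approximate delta (helper242).
-/

set_option linter.all false

open MeasureTheory Filter Topology
open scoped InnerProductSpace ENNReal Pointwise

namespace Vale.Agent.P092.H242.ThC

section decay

/-- a square integrable function which is uniformly continuous for the right multiplication
vanishes at infinity -/
theorem tendsto_zero_of_memLp {G E : Type*} [NormedAddCommGroup E] [Group G] [TopologicalSpace G]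
    [IsTopologicalGroup G]
    [LocallyCompactSpace G] [SecondCountableTopology G] [T2Space G] [MeasurableSpace G]
    [BorelSpace G] {μ : Measure G} [μ.IsHaarMeasure] {f : G → E} (hf : MemLp f 2 μ)
    (hu : ∀ ε > 0, ∃ U ∈ 𝓝 (1 : G), ∀ t, ∀ s ∈ U, ‖f (t * s) - f t‖ ≤ ε) :
    Tendsto f (cocompact G) (𝓝 0) := by
  rw [Metric.tendsto_nhds]
  intro ε hε
  obtain ⟨U, hU, hUf⟩ := hu (ε / 2) (by positivity)
  obtain ⟨V, hV, hVU, hVc⟩ := local_compact_nhds hU
  have hVpos : 0 < μ V := Measure.measure_pos_of_mem_nhds μ hV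
  have hVfin : μ V < ∞ := hVc.measure_lt_top
  have hfin : ∫⁻ x, ‖f x‖ₑ ^ 2 ∂μ < ∞ := by
    have h1 := (eLpNorm_lt_top_iff_lintegral_rpow_enorm_lt_top (by norm_num) (by norm_num)).1 hf.2
    have : ∀ x, ‖f x‖ₑ ^ (2 : ℝ≥0∞).toReal = ‖f x‖ₑ ^ 2 := by
      intro x
      rw [ENNReal.toReal_ofNat, ← ENNReal.rpow_natCast]
      norm_num
    simpa only [this] using h1
  set ρ : Measure G := μ.withDensity fun x => ‖f x‖ₑ ^ 2 with hρ
  have hρfin : ρ Set.univ < ∞ := by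
    rw [hρ, withDensity_apply _ MeasurableSet.univ, Measure.restrict_univ]
    exact hfin
  have : IsFiniteMeasure ρ := ⟨hρfin⟩
  have htail : Tendsto (fun n => ρ (compactCovering G n)ᶜ) atTop (𝓝 0) := by
    have h1 := tendsto_measure_iInter_atTop (μ := ρ) (s := fun n => (compactCovering G n)ᶜ)
      (fun n => (isCompact_compactCovering G n).isClosed.measurableSet.compl.nullMeasurableSet)
      (fun m n hmn => Set.compl_subset_compl.2 (compactCovering_subset G hmn))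
      ⟨0, measure_ne_top _ _⟩
    rwa [← Set.compl_iUnion, iUnion_compactCovering, Set.compl_univ, measure_empty] at h1
  have hδ : 0 < ENNReal.ofReal ((ε / 2) ^ 2) * μ V :=
    ENNReal.mul_pos (by simpa using by positivity) hVpos.ne'
  obtain ⟨n, hn⟩ := ((tendsto_order.1 htail).2 _ hδ).exists
  have hQ := isCompact_compactCovering G n
  set Q := compactCovering G n with hQdef
  have hQV : IsCompact (Q * V⁻¹) := hQ.mul hVc.inv
  filter_upwards [hQV.compl_mem_cocompact] with t ht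
  rw [dist_zero_right]
  by_contra hcon
  rw [not_lt] at hcon
  have hsub : t • V ⊆ Qᶜ := by
    rintro _ ⟨v, hv, rfl⟩ hmem
    refine ht ⟨t * v, hmem, v⁻¹, Set.inv_mem_inv.2 hv, ?_⟩
    simp
  have hVm : MeasurableSet (t • V) := (hVc.smul t).isClosed.measurableSet
  have h1 : ENNReal.ofReal ((ε / 2) ^ 2) * μ V ≤ ρ Qᶜ := by
    calc ENNReal.ofReal ((ε / 2) ^ 2) * μ V = ENNReal.ofReal ((ε / 2) ^ 2) * μ (t • V) := by
          rw [measure_smul]
      _ = ∫⁻ x in t • V, ENNReal.ofReal ((ε / 2) ^ 2) ∂μ := by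
          rw [setLIntegral_const]
      _ ≤ ∫⁻ x in t • V, ‖f x‖ₑ ^ 2 ∂μ := by
          refine setLIntegral_mono' hVm fun x hx => ?_
          obtain ⟨v, hv, rfl⟩ := hx
          have h2 := hUf t v (hVU hv)
          have h3 : ε / 2 ≤ ‖f (t * v)‖ := by
            have := norm_sub_norm_le (f t) (f (t * v))
            rw [norm_sub_rev] at this
            linarith
          change _ ≤ ‖f (t * v)‖ₑ ^ 2
          rw [← ofReal_norm, ← ENNReal.ofReal_pow (norm_nonneg _)]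
          exact ENNReal.ofReal_le_ofReal (pow_le_pow_left₀ (by positivity) h3 2)
      _ = ρ (t • V) := by rw [hρ, withDensity_apply _ hVm]
      _ ≤ ρ Qᶜ := measure_mono hsub
  exact absurd hn (not_lt.2 h1)

/-- continuous and vanishing at infinity implies bounded -/
theorem bdd_of_c0 {G E : Type*} [NormedAddCommGroup E] [TopologicalSpace G] {f : G → E}
    (hc : Continuous f) (h0 : Tendsto f (cocompact G) (𝓝 0)) : ∃ C : ℝ, ∀ x, ‖f x‖ ≤ C := by
  have h1 : ∀ᶠ x in cocompact G, ‖f x‖ ≤ 1 := by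
    have h2 := h0.norm
    rw [norm_zero] at h2
    exact h2.eventually (ge_mem_nhds one_pos)
  obtain ⟨K, hK, hKu⟩ := mem_cocompact.mp h1
  obtain ⟨C, hC⟩ := hK.exists_bound_of_continuousOn hc.continuousOn
  refine ⟨max C 1, fun x => ?_⟩
  by_cases hx : x ∈ K
  · exact (hC x hx).trans (le_max_left _ _)
  · exact (hKu hx : ‖f x‖ ≤ 1).trans (le_max_right _ _)

end decay

section l2tools

variable {X L : Type*} [MeasurableSpace X] {μ : Measure X} [NormedAddCommGroup L]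
  [InnerProductSpace ℂ L]

theorem integrable_inner {f g : X → L} (hf : MemLp f 2 μ) (hg : MemLp g 2 μ) :
    Integrable (fun x => ⟪f x, g x⟫_ℂ) μ := by
  refine (L2.integrable_inner (𝕜 := ℂ) (hf.toLp f) (hg.toLp g)).congr ?_
  filter_upwards [hf.coeFn_toLp, hg.coeFn_toLp] with x h1 h2
  rw [h1, h2]

theorem inner_toLp {f g : X → L} (hf : MemLp f 2 μ) (hg : MemLp g 2 μ) :
    ⟪hf.toLp f, hg.toLp g⟫_ℂ = ∫ x, ⟪f x, g x⟫_ℂ ∂μ := by
  rw [L2.inner_def]
  refine integral_congr_ae ?_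
  filter_upwards [hf.coeFn_toLp, hg.coeFn_toLp] with x h1 h2
  rw [h1, h2]

theorem norm_sq_toLp {f : X → L} (hf : MemLp f 2 μ) :
    ‖hf.toLp f‖ ^ 2 = ∫ x, ‖f x‖ ^ 2 ∂μ := by
  have h := inner_toLp hf hf
  rw [inner_self_eq_norm_sq_to_K] at h
  have e : (fun x => ⟪f x, f x⟫_ℂ) = fun x => ((‖f x‖ ^ 2 : ℝ) : ℂ) := by
    funext x; rw [inner_self_eq_norm_sq_to_K]; push_cast; rfl
  rw [e, integral_complex_ofReal] at h
  have h2 : ((‖hf.toLp f‖ ^ 2 : ℝ) : ℂ) = ((∫ x, ‖f x‖ ^ 2 ∂μ : ℝ) : ℂ) := by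
    rw [← h]; push_cast; rfl
  exact_mod_cast h2

theorem integrable_sq {f : X → L} (hf : MemLp f 2 μ) : Integrable (fun x => ‖f x‖ ^ 2) μ :=
  (memLp_two_iff_integrable_sq_norm hf.1).1 hf

/-- difference of squares in `L¹` -/
theorem int_sq_sub {f g : X → L} (hf : MemLp f 2 μ) (hg : MemLp g 2 μ) :
    ∫ x, |‖f x‖ ^ 2 - ‖g x‖ ^ 2| ∂μ ≤ ‖hf.toLp f - hg.toLp g‖ ^ 2 +
      2 * (‖hf.toLp f - hg.toLp g‖ * ‖hg.toLp g‖) := by
  have hfg : MemLp (f - g) 2 μ := hf.sub hg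
  have e1 : hf.toLp f - hg.toLp g = hfg.toLp (f - g) := (MemLp.toLp_sub hf hg).symm
  have h1 : ∀ x, |‖f x‖ ^ 2 - ‖g x‖ ^ 2| ≤ ‖(f - g) x‖ ^ 2 + 2 * (‖(f - g) x‖ * ‖g x‖) := by
    intro x
    have a1 : |‖f x‖ - ‖g x‖| ≤ ‖(f - g) x‖ := abs_norm_sub_norm_le _ _
    have a2 : ‖f x‖ ≤ ‖(f - g) x‖ + ‖g x‖ := by
      have := norm_add_le (f x - g x) (g x)
      rwa [sub_add_cancel] at this
    have a3 : |‖f x‖ ^ 2 - ‖g x‖ ^ 2| = |‖f x‖ - ‖g x‖| * (‖f x‖ + ‖g x‖) := by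
      rw [← abs_of_nonneg (add_nonneg (norm_nonneg (f x)) (norm_nonneg (g x))), ← abs_mul]
      congr 1
      ring
    rw [a3]
    calc |‖f x‖ - ‖g x‖| * (‖f x‖ + ‖g x‖) ≤ ‖(f - g) x‖ * (‖(f - g) x‖ + ‖g x‖ + ‖g x‖) := by
          refine mul_le_mul a1 (by linarith) (by positivity) (norm_nonneg _)
      _ = ‖(f - g) x‖ ^ 2 + 2 * (‖(f - g) x‖ * ‖g x‖) := by ring
  have i1 := integrable_sq hf
  have i2 := integrable_sq hg
  have i3 := integrable_sq hfg
  have i4 : Integrable (fun x => ‖(f - g) x‖ * ‖g x‖) μ := hfg.norm.integrable_mul hg.norm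
  calc ∫ x, |‖f x‖ ^ 2 - ‖g x‖ ^ 2| ∂μ ≤ ∫ x, (‖(f - g) x‖ ^ 2 + 2 * (‖(f - g) x‖ * ‖g x‖)) ∂μ :=
        integral_mono (i1.sub i2).abs (i3.add (i4.const_mul 2)) h1
    _ = ∫ x, ‖(f - g) x‖ ^ 2 ∂μ + 2 * ∫ x, ‖(f - g) x‖ * ‖g x‖ ∂μ := by
        rw [integral_add i3 (i4.const_mul 2), integral_const_mul]
    _ ≤ ‖hf.toLp f - hg.toLp g‖ ^ 2 + 2 * (‖hf.toLp f - hg.toLp g‖ * ‖hg.toLp g‖) := by
        rw [e1, norm_sq_toLp]
        refine add_le_add le_rfl (mul_le_mul_of_nonneg_left ?_ (by norm_num))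
        have h2 := integral_mul_le_Lp_mul_Lq_of_nonneg (μ := μ) Real.HolderConjugate.two_two
          (f := fun x => ‖(f - g) x‖) (g := fun x => ‖g x‖)
          (Eventually.of_forall fun h => norm_nonneg _)
          (Eventually.of_forall fun h => norm_nonneg _) (by simpa using hfg.norm)
          (by simpa using hg.norm)
        refine h2.trans (le_of_eq ?_)
        simp only [Real.rpow_two]
        rw [← norm_sq_toLp hfg, ← norm_sq_toLp hg, ← Real.sqrt_eq_rpow, ← Real.sqrt_eq_rpow,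
          Real.sqrt_sq (norm_nonneg _), Real.sqrt_sq (norm_nonneg _)]

end l2tools

end Vale.Agent.P092.H242.ThC
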