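import Vale.Agent.P092.H242.ThCApp

/-!
P092, Theorem C (#3269) step (3): approximate delta, second part (helper242).
-/

set_option linter.all false

open MeasureTheory Filter Topology
open scoped InnerProductSpace ENNReal Pointwise

namespace Vale.Agent.P092.H242.ThC

variable {A L : Type*} [NonUnitalRing A] [StarRing A] [Module ℂ A] [SMulCommClass ℂ A A]
  [IsScalarTower ℂ A A]
  [NormedAddCommGroup L] [InnerProductSpace ℂ L] [CompleteSpace L] {j : A →ₗ[ℂ] L}

section coef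

variable {H : Type*} [Group H] [TopologicalSpace H] [IsTopologicalGroup H]
  [LocallyCompactSpace H] [T2Space H] [SecondCountableTopology H]
  [MeasurableSpace H] [BorelSpace H] {α : H → A → A}
  {U : H →* (L →L[ℂ] L)} {μ : Measure H} [μ.IsHaarMeasure]

theorem Act.coef_uc (hα : Act j α U) (η ξ : L) {ε : ℝ} (hε : 0 < ε) :
    ∃ V ∈ 𝓝 (1 : H), ∀ t, ∀ s ∈ V, ‖⟪η, U (t * s) ξ⟫_ℂ - ⟪η, U t ξ⟫_ℂ‖ ≤ ε := by
  have h1 := (Metric.continuousAt_iff'.1 ((hα.cont ξ).continuousAt (x := 1)))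
    (ε / (‖η‖ + 1)) (by positivity)
  refine ⟨_, h1, fun t s hs => ?_⟩
  have hs' : dist (U s ξ) (U 1 ξ) < ε / (‖η‖ + 1) := hs
  rw [← inner_sub_right, map_mul, ContinuousLinearMap.mul_apply, ← map_sub]
  refine (norm_inner_le_norm _ _).trans ?_
  rw [hα.iso]
  rw [map_one, ContinuousLinearMap.one_apply, dist_eq_norm] at hs'
  calc ‖η‖ * ‖U s ξ - ξ‖ ≤ (‖η‖ + 1) * (ε / (‖η‖ + 1)) :=
        mul_le_mul (by linarith) hs'.le (norm_nonneg _) (by positivity)
    _ = ε := by field_simp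

/-- all coefficients vanish at infinity -/
theorem tendsto_coef (hj : HA j) (hα : Act j α U) (hI : Itg j α μ) (η ξ : L) :
    Tendsto (fun t => ⟪η, U t ξ⟫_ℂ) (cocompact H) (𝓝 0) := by
  -- products
  have h1 : ∀ z₁ z₂, Tendsto (fun t => ⟪j (z₁ * z₂), U t ξ⟫_ℂ) (cocompact H) (𝓝 0) := fun z₁ z₂ =>
    tendsto_zero_of_memLp (memLp2 hj hα hI z₁ z₂ ξ) fun ε hε => hα.coef_uc _ _ hε
  -- the span
  have h2 : ∀ η ∈ Submodule.span ℂ {ζ : L | ∃ a b, ζ = j (a * b)},
      Tendsto (fun t => ⟪η, U t ξ⟫_ℂ) (cocompact H) (𝓝 0) := by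
    intro η hη
    induction hη using Submodule.span_induction with
    | mem x hx => obtain ⟨a, b, rfl⟩ := hx; exact h1 a b
    | zero =>
      simp only [inner_zero_left]
      exact tendsto_const_nhds
    | add x y _ _ hx hy =>
      have := hx.add hy
      simpa only [inner_add_left, add_zero] using this
    | smul c x _ hx =>
      have := hx.const_mul ((starRingEnd ℂ) c)
      simpa only [inner_smul_left, mul_zero] using this
  -- closure
  rw [Metric.tendsto_nhds]
  intro ε hε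
  obtain ⟨ζ, hζ, hd⟩ := (dense2 hj hα hI).exists_dist_lt η
    (show (0 : ℝ) < ε / (2 * (‖ξ‖ + 1)) by positivity)
  have h3 := (Metric.tendsto_nhds.1 (h2 ζ hζ)) (ε / 2) (by positivity)
  filter_upwards [h3] with t ht
  rw [dist_zero_right] at ht ⊢
  have e : ⟪η, U t ξ⟫_ℂ = ⟪η - ζ, U t ξ⟫_ℂ + ⟪ζ, U t ξ⟫_ℂ := by
    rw [← inner_add_left, sub_add_cancel]
  rw [e]
  have h4 : ‖⟪η - ζ, U t ξ⟫_ℂ‖ ≤ ε / 2 := by
    refine (norm_inner_le_norm _ _).trans ?_
    rw [hα.iso, ← dist_eq_norm]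
    calc dist η ζ * ‖ξ‖ ≤ (ε / (2 * (‖ξ‖ + 1))) * (‖ξ‖ + 1) :=
          mul_le_mul hd.le (by linarith) (norm_nonneg _) (by positivity)
      _ = ε / 2 := by field_simp
  refine (norm_add_le _ _).trans_lt ?_
  linarith

end coef

section mlt

variable {H Y : Type*} [Group H] [TopologicalSpace H] [IsTopologicalGroup H]
  [LocallyCompactSpace H] [T2Space H] [SecondCountableTopology H]
  [MeasurableSpace H] [BorelSpace H] [Group Y] [TopologicalSpace Y] [MeasurableSpace Y]
  [OpensMeasurableSpace Y] [SecondCountableTopology Y]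
  {α : H → A → A} {U : H →* (L →L[ℂ] L)} {μ : Measure H} [μ.IsHaarMeasure]
  {r : Y → A → A} {R : Y →* (L →L[ℂ] L)} {ν : Measure Y} [SFinite ν]

omit [SMulCommClass ℂ A A] [IsScalarTower ℂ A A] [CompleteSpace L] [IsTopologicalGroup H]
  [LocallyCompactSpace H] [T2Space H] [μ.IsHaarMeasure] in
theorem memLp_F (hj : HA j) (hα : Act j α U) (hI : Itg j α μ) (u v : A) :
    MemLp (fun h => j (u * α h v)) 2 μ :=
  (memLp_two_iff_integrable_sq_norm
    (hj.cont_mulL u (hα.contj v)).aestronglyMeasurable).2 (hI.intR hj hα v u)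

/-- multipliers of the orthogonal complement of `{h ↦ u α_h(v)}` -/
def Mlt (j : A →ₗ[ℂ] L) (α : H → A → A) (μ : Measure H) : Set (H → ℂ) :=
  {p | Continuous p ∧ Tendsto p (cocompact H) (𝓝 0) ∧ ∀ Z : H → L, MemLp Z 2 μ →
    (∀ u v, ∫ h, ⟪Z h, j (u * α h v)⟫_ℂ ∂μ = 0) →
      ∀ u v, ∫ h, p h * ⟪Z h, j (u * α h v)⟫_ℂ ∂μ = 0}

omit [SMulCommClass ℂ A A] [IsScalarTower ℂ A A] [CompleteSpace L] [IsTopologicalGroup H]
  [LocallyCompactSpace H] [T2Space H] [μ.IsHaarMeasure] in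
theorem int_mul_inner (hj : HA j) (hα : Act j α U) (hI : Itg j α μ) {p : H → ℂ}
    (hc : Continuous p) {C : ℝ} (hb : ∀ x, ‖p x‖ ≤ C) {Z : H → L} (hZ : MemLp Z 2 μ) (u v : A) :
    Integrable (fun h => p h * ⟪Z h, j (u * α h v)⟫_ℂ) μ :=
  (integrable_inner hZ (memLp_F hj hα hI u v)).bdd_mul hc.aestronglyMeasurable
    (Eventually.of_forall hb)

theorem Mlt.zero : (fun _ => 0) ∈ Mlt j α μ :=
  ⟨continuous_const, tendsto_const_nhds, fun Z _ _ u v => by simp⟩

omit [SMulCommClass ℂ A A] [IsScalarTower ℂ A A] [CompleteSpace L] [IsTopologicalGroup H]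
  [LocallyCompactSpace H] [T2Space H] [μ.IsHaarMeasure] in
theorem Mlt.add (hj : HA j) (hα : Act j α U) (hI : Itg j α μ) {p q : H → ℂ}
    (hp : p ∈ Mlt j α μ) (hq : q ∈ Mlt j α μ) : (fun x => p x + q x) ∈ Mlt j α μ := by
  obtain ⟨hp1, hp2, hp3⟩ := hp
  obtain ⟨hq1, hq2, hq3⟩ := hq
  obtain ⟨C, hC⟩ := bdd_of_c0 hp1 hp2
  obtain ⟨D, hD⟩ := bdd_of_c0 hq1 hq2
  refine ⟨hp1.add hq1, by simpa using hp2.add hq2, fun Z hZ hZ0 u v => ?_⟩
  simp only [add_mul]
  rw [integral_add (int_mul_inner hj hα hI hp1 hC hZ u v) (int_mul_inner hj hα hI hq1 hD hZ u v),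
    hp3 Z hZ hZ0, hq3 Z hZ hZ0, add_zero]

omit [SMulCommClass ℂ A A] [IsScalarTower ℂ A A] [CompleteSpace L] [IsTopologicalGroup H]
  [LocallyCompactSpace H] [T2Space H] [μ.IsHaarMeasure] [SecondCountableTopology H]
  [BorelSpace H] in
theorem Mlt.smul {p : H → ℂ} (c : ℂ) (hp : p ∈ Mlt j α μ) : (fun x => c * p x) ∈ Mlt j α μ := by
  obtain ⟨hp1, hp2, hp3⟩ := hp
  refine ⟨continuous_const.mul hp1, by simpa using hp2.const_mul c, fun Z hZ hZ0 u v => ?_⟩
  simp only [mul_assoc]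
  rw [integral_const_mul, hp3 Z hZ hZ0, mul_zero]

omit [SMulCommClass ℂ A A] [IsScalarTower ℂ A A] [CompleteSpace L] [IsTopologicalGroup H]
  [LocallyCompactSpace H] [T2Space H] [μ.IsHaarMeasure] in
theorem Mlt.mul {p q : H → ℂ} (hp : p ∈ Mlt j α μ) (hq : q ∈ Mlt j α μ) :
    (fun x => p x * q x) ∈ Mlt j α μ := by
  obtain ⟨hp1, hp2, hp3⟩ := hp
  obtain ⟨hq1, hq2, hq3⟩ := hq
  obtain ⟨C, hC⟩ := bdd_of_c0 hp1 hp2
  refine ⟨hp1.mul hq1, by simpa using hp2.mul hq2, fun Z hZ hZ0 u v => ?_⟩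
  have hZ' : MemLp (fun h => (starRingEnd ℂ) (p h) • Z h) 2 μ := by
    refine MemLp.of_le_mul (c := C) hZ ?_ (Eventually.of_forall fun x => ?_)
    · exact (Complex.continuous_conj.comp hp1).aestronglyMeasurable.smul hZ.1
    · rw [norm_smul, RCLike.norm_conj]
      exact mul_le_mul_of_nonneg_right (hC x) (norm_nonneg _)
  have e : ∀ u v h, ⟪(starRingEnd ℂ) (p h) • Z h, j (u * α h v)⟫_ℂ =
      p h * ⟪Z h, j (u * α h v)⟫_ℂ := by
    intro u v h
    rw [inner_smul_left, RCLike.conj_conj]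
  have h1 := hq3 _ hZ' (fun u v => by simp only [e]; exact hp3 Z hZ hZ0 u v) u v
  simp only [e] at h1
  rw [← h1]
  congr 1
  funext h
  ring

/-- the kernel identity (Ir) -/
theorem kernel_id (P : Pk j α U μ r R ν) (S w u v : A) (h : H)
    (hint : Integrable (fun y => j ((u * r y (star w)) * α h (r y S * v))) ν) :
    ∫ y, j ((u * r y (star w)) * α h (r y S * v)) ∂ν =
      ⟪j w, U h (j S)⟫_ℂ • j (u * α h v) := by
  have hj := P.ha
  have h1 : ∀ z : A, ⟪j z, ∫ y, j ((u * r y (star w)) * α h (r y S * v)) ∂ν⟫_ℂ =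
      ⟪j z, ⟪j w, U h (j S)⟫_ℂ • j (u * α h v)⟫_ℂ := by
    intro z
    rw [← integral_inner hint, inner_smul_right]
    have e : ∀ y, ⟪j z, j ((u * r y (star w)) * α h (r y S * v))⟫_ℂ =
        ⟪j (r y w * (star u * z)), j (r y (α h S) * α h v)⟫_ℂ := by
      intro y
      rw [mul_assoc u, hj.l', hj.l', P.actY.st, star_star, P.actH.mul, P.comm]
    simp only [e]
    rw [P.itgY.eq, P.actH.coe, hj.l' u]
  refine ext_inner_left ℂ fun z => ?_
  induction z using hj.dense.induction_on with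
  | hp =>
    exact isClosed_eq (Continuous.inner (𝕜 := ℂ) continuous_id continuous_const)
      (Continuous.inner (𝕜 := ℂ) continuous_id continuous_const)
  | ih a => exact h1 a

/-- coefficients are multipliers -/
theorem Mlt.coef (P : Pk j α U μ r R ν) (S w : A) :
    (fun h => ⟪j w, U h (j S)⟫_ℂ) ∈ Mlt j α μ := by
  have hj := P.ha
  refine ⟨continuous_const.inner (P.actH.cont _), tendsto_coef hj P.actH P.itgH _ _,
    fun Z hZ hZ0 u v => ?_⟩
  -- the two variable function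
  set Fy : H → Y → L := fun h y => j ((u * r y (star w)) * α h (r y S * v)) with hFy
  obtain ⟨C1, hC10, hC1⟩ := hj.bdd0 u
  obtain ⟨C2, hC20, hC2⟩ := hj.bdd0 (star w)
  have hcont : Continuous fun p : H × Y => Fy p.1 p.2 := by
    refine hj.cont_mul (f := fun p : H × Y => u * r p.2 (star w)) (C := C1 * C2)
      (hj.cont_mulL u ((P.actY.contj _).comp continuous_snd)) ?_ fun p b => ?_
    · simp only [← P.actH.coe]
      exact P.actH.cont_joint continuous_fst
        (hj.cont_mulR v ((P.actY.contj _).comp continuous_snd))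
    · rw [mul_assoc, mul_assoc]
      exact (hC1 _).trans (mul_le_mul_of_nonneg_left (P.actY.bound hC2 _ _) hC10)
  have hFL : ∀ y, MemLp (fun h => Fy h y) 2 μ := fun y => memLp_F hj P.actH P.itgH _ _
  have hFn : ∀ y, ‖(hFL y).toLp _‖ ^ 2 = ‖j (r y S * v)‖ ^ 2 * ‖j (u * r y (star w))‖ ^ 2 := by
    intro y
    rw [norm_sq_toLp, P.itgH.normR_eq hj P.actH]
  -- integrability of `‖Z h‖ ‖Fy h y‖` on the product
  have hG : Integrable (fun p : H × Y => ‖Z p.1‖ * ‖Fy p.1 p.2‖) (μ.prod ν) := by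
    have hm : AEStronglyMeasurable (fun p : H × Y => ‖Z p.1‖ * ‖Fy p.1 p.2‖) (μ.prod ν) :=
      hZ.1.norm.comp_fst.mul hcont.norm.aestronglyMeasurable
    rw [integrable_prod_iff' hm]
    refine ⟨Eventually.of_forall fun y => hZ.norm.integrable_mul (hFL y).norm, ?_⟩
    have hb : ∀ y, ∫ h, ‖‖Z h‖ * ‖Fy h y‖‖ ∂μ ≤
        ‖hZ.toLp Z‖ * (‖j (r y S * v)‖ * ‖j (u * r y (star w))‖) := by
      intro y
      have e1 : ∀ h, ‖‖Z h‖ * ‖Fy h y‖‖ = ‖Z h‖ * ‖Fy h y‖ := fun h =>
        Real.norm_of_nonneg (by positivity)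
      simp only [e1]
      have h2 := integral_mul_le_Lp_mul_Lq_of_nonneg (μ := μ) Real.HolderConjugate.two_two
        (f := fun x => ‖Z x‖) (g := fun x => ‖Fy x y‖)
        (Eventually.of_forall fun h => norm_nonneg _)
        (Eventually.of_forall fun h => norm_nonneg _) (by simpa using hZ.norm)
        (by simpa using (hFL y).norm)
      refine h2.trans (le_of_eq ?_)
      simp only [Real.rpow_two]
      rw [← norm_sq_toLp hZ, ← norm_sq_toLp (hFL y), ← Real.sqrt_eq_rpow, ← Real.sqrt_eq_rpow,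
        Real.sqrt_sq (norm_nonneg _), hFn, ← mul_pow, Real.sqrt_sq (by positivity)]
    have hM1 : MemLp (fun y => ‖j (r y S * v)‖) 2 ν :=
      (memLp_two_iff_integrable_sq
        (hj.cont_mulR v (P.actY.contj S)).norm.aestronglyMeasurable).2 (P.itgY.int _ _)
    have hM2 : MemLp (fun y => ‖j (u * r y (star w))‖) 2 ν :=
      (memLp_two_iff_integrable_sq
        (hj.cont_mulL u (P.actY.contj (star w))).norm.aestronglyMeasurable).2
          (P.itgY.intR hj P.actY _ _)
    have hMM : Integrable (fun y => ‖j (r y S * v)‖ * ‖j (u * r y (star w))‖) ν :=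
      hM1.integrable_mul hM2
    refine (hMM.const_mul ‖hZ.toLp Z‖).mono' ?_ (Eventually.of_forall fun y => ?_)
    · exact hm.norm.prod_swap.integral_prod_right'
    · rw [Real.norm_of_nonneg (integral_nonneg fun _ => norm_nonneg _)]
      exact hb y
  have hGi : Integrable (Function.uncurry fun h y => ⟪Z h, Fy h y⟫_ℂ) (μ.prod ν) := by
    refine hG.mono' ?_ (Eventually.of_forall fun p => norm_inner_le_norm _ _)
    exact hZ.1.comp_fst.inner hcont.aestronglyMeasurable
  -- the a.e. identity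
  have hae : ∀ᵐ h ∂μ, ⟪j w, U h (j S)⟫_ℂ * ⟪Z h, j (u * α h v)⟫_ℂ =
      ∫ y, ⟪Z h, Fy h y⟫_ℂ ∂ν := by
    filter_upwards [hG.prod_right_ae] with h hh
    by_cases hz : Z h = 0
    · simp [hz]
    · have hn : ‖Z h‖ ≠ 0 := norm_ne_zero_iff.2 hz
      have hint : Integrable (fun y => Fy h y) ν := by
        have h3 : Integrable (fun y => ‖Fy h y‖) ν := by
          have := hh.const_mul (‖Z h‖)⁻¹
          refine this.congr (Eventually.of_forall fun y => ?_)
          simp only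
          rw [← mul_assoc, inv_mul_cancel₀ hn, one_mul]
        refine (integrable_norm_iff ?_).1 h3
        exact (hcont.comp (continuous_const.prodMk continuous_id)).aestronglyMeasurable
      rw [integral_inner hint, kernel_id P S w u v h hint, inner_smul_right]
  rw [integral_congr_ae hae, integral_integral_swap hGi]
  have h0 : ∀ y, ∫ h, ⟪Z h, Fy h y⟫_ℂ ∂μ = 0 := fun y => hZ0 _ _
  simp only [h0, integral_zero]

theorem Mlt.coef_conj (P : Pk j α U μ r R ν) (S w : A) :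
    (fun h => (starRingEnd ℂ) ⟪j w, U h (j S)⟫_ℂ) ∈ Mlt j α μ := by
  have h := Mlt.coef P (star S) (star w)
  have e : (fun h => (starRingEnd ℂ) ⟪j w, U h (j S)⟫_ℂ) =
      fun h => ⟪j (star w), U h (j (star S))⟫_ℂ := by
    funext h
    rw [inner_conj_symm, P.actH.coe, P.actH.coe, P.actH.st, P.ha.tr]
  rw [e]
  exact h

/-- the real multipliers exhaust `C_0` -/
theorem real_mem (P : Pk j α U μ r R ν) (faith : ∀ h : H, (∀ a, j (α h a) = j a) → h = 1)
    (hne : ∃ a, j a ≠ 0) {g : H → ℝ} (hg : Continuous g) (hg0 : Tendsto g (cocompact H) (𝓝 0)) :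
    ∀ Z : H → L, MemLp Z 2 μ →
    (∀ u v, ∫ h, ⟪Z h, j (u * α h v)⟫_ℂ ∂μ = 0) →
      ∀ u v, ∫ h, (g h : ℂ) * ⟪Z h, j (u * α h v)⟫_ℂ ∂μ = 0 := by
  intro Z hZ hZ0 u v
  have hj := P.ha
  set S : Set (H → ℝ) := {f | (fun x => (f x : ℂ)) ∈ Mlt j α μ} with hS
  have hre : ∀ p : H → ℂ, p ∈ Mlt j α μ → (fun h => (starRingEnd ℂ) (p h)) ∈ Mlt j α μ →
      (fun h => (p h).re) ∈ S ∧ (fun h => (p h).im) ∈ S := by
    intro p hp hpc
    constructor
    · have h1 := Mlt.smul (1 / 2) (Mlt.add hj P.actH P.itgH hp hpc)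
      have e : (fun x => (((p x).re : ℝ) : ℂ)) =
          fun x => (1 / 2) * (p x + (starRingEnd ℂ) (p x)) := by
        funext x
        rw [Complex.add_conj]
        push_cast
        ring
      rw [hS, Set.mem_setOf_eq, e]
      exact h1
    · have h1 := Mlt.smul (1 / (2 * Complex.I)) (Mlt.add hj P.actH P.itgH hp (Mlt.smul (-1) hpc))
      have e : (fun x => (((p x).im : ℝ) : ℂ)) =
          fun x => (1 / (2 * Complex.I)) * (p x + -1 * (starRingEnd ℂ) (p x)) := by
        funext x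
        have : p x + -1 * (starRingEnd ℂ) (p x) = p x - (starRingEnd ℂ) (p x) := by ring
        rw [this, Complex.sub_conj]
        have hI : Complex.I ≠ 0 := Complex.I_ne_zero
        push_cast
        field_simp
      rw [hS, Set.mem_setOf_eq, e]
      exact h1
  have happ : ∀ ε > 0, ∃ f ∈ S, ∀ x, |f x - g x| < ε := by
    intro ε hε
    refine H734.swC0 S ?_ ?_ ?_ ?_ ?_ ?_ ?_ ?_ g hg hg0 hε
    · intro f hf
      have := Complex.continuous_re.comp hf.1
      exact this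
    · intro f hf
      have := (Complex.continuous_re.tendsto 0).comp hf.2.1
      exact this
    · have := Mlt.zero (j := j) (α := α) (μ := μ)
      rw [hS, Set.mem_setOf_eq]
      simpa using this
    · intro f hf g hg
      have := Mlt.add hj P.actH P.itgH hf hg
      rw [hS, Set.mem_setOf_eq]
      simpa using this
    · intro f hf g hg
      have := Mlt.mul hf hg
      rw [hS, Set.mem_setOf_eq]
      simpa using this
    · intro c f hf
      have := Mlt.smul (c : ℂ) hf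
      rw [hS, Set.mem_setOf_eq]
      simpa using this
    · intro x y hxy
      by_contra hcon
      push Not at hcon
      -- all coefficients agree at `x` and `y`
      have h1 : ∀ b c : A, ⟪j c, U x (j b)⟫_ℂ = ⟪j c, U y (j b)⟫_ℂ := by
        intro b c
        obtain ⟨h2, h3⟩ := hre _ (Mlt.coef P b c) (Mlt.coef_conj P b c)
        exact Complex.ext (hcon _ h2) (hcon _ h3)
      have h2 : ∀ b, U x (j b) = U y (j b) := by
        intro b
        refine ext_inner_left ℂ fun z => ?_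
        induction z using hj.dense.induction_on with
        | hp =>
          exact isClosed_eq (Continuous.inner (𝕜 := ℂ) continuous_id continuous_const)
            (Continuous.inner (𝕜 := ℂ) continuous_id continuous_const)
        | ih a => exact h1 b a
      have h3 : x⁻¹ * y = 1 := by
        refine faith _ fun a => ?_
        rw [← P.actH.coe, map_mul, ContinuousLinearMap.mul_apply, ← h2, P.actH.inv_app]
      exact hxy (by rw [← mul_one x, ← h3, mul_inv_cancel_left])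
    · intro x
      obtain ⟨a, ha⟩ := hne
      by_contra hcon
      push Not at hcon
      have h1 := (hre _ (Mlt.coef P a (α x a)) (Mlt.coef_conj P a (α x a))).1
      have h2 := hcon _ h1
      rw [P.actH.coe, inner_self_eq_norm_sq_to_K, P.actH.norm] at h2
      have h3 : ‖j a‖ ^ 2 = 0 := by exact_mod_cast h2
      exact ha (norm_eq_zero.1 (pow_eq_zero_iff (two_ne_zero) |>.1 h3))
  -- conclusion
  have hi := integrable_inner hZ (memLp_F hj P.actH P.itgH u v)
  set I := ∫ h, ‖⟪Z h, j (u * α h v)⟫_ℂ‖ ∂μ with hI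
  have hI0 : 0 ≤ I := integral_nonneg fun _ => norm_nonneg _
  by_contra hcon
  set N := ‖∫ h, (g h : ℂ) * ⟪Z h, j (u * α h v)⟫_ℂ ∂μ‖ with hN
  have hNpos : 0 < N := norm_pos_iff.2 hcon
  obtain ⟨f, hf, hfg⟩ := happ (N / (2 * (I + 1))) (by positivity)
  obtain ⟨Cf, hCf⟩ := bdd_of_c0 hf.1 hf.2.1
  obtain ⟨Cg, hCg⟩ := bdd_of_c0 hg hg0
  have hif := int_mul_inner hj P.actH P.itgH hf.1 hCf hZ u v
  have hgc : Continuous fun h => (g h : ℂ) := Complex.continuous_ofReal.comp hg
  have hig := int_mul_inner hj P.actH P.itgH hgc (C := Cg)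
    (fun x => by rw [Complex.norm_real]; exact hCg x) hZ u v
  have h1 : ‖∫ h, (g h : ℂ) * ⟪Z h, j (u * α h v)⟫_ℂ ∂μ -
      ∫ h, (f h : ℂ) * ⟪Z h, j (u * α h v)⟫_ℂ ∂μ‖ ≤ (N / (2 * (I + 1))) * I := by
    rw [← integral_sub hig hif, hI, ← integral_const_mul]
    refine norm_integral_le_of_norm_le (hi.norm.const_mul _) (Eventually.of_forall fun h => ?_)
    rw [← sub_mul, norm_mul, ← Complex.ofReal_sub, Complex.norm_real, Real.norm_eq_abs,
      abs_sub_comm]
    exact mul_le_mul_of_nonneg_right (hfg h).le (norm_nonneg _)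
  rw [hf.2.2 Z hZ hZ0 u v, sub_zero, ← hN] at h1
  have h2 : (N / (2 * (I + 1))) * I ≤ N / 2 := by
    rw [div_mul_eq_mul_div, div_le_div_iff₀ (by positivity) (by norm_num)]
    nlinarith
  linarith

end mlt

end Vale.Agent.P092.H242.ThC
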