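import Vale.Agent.P092.H242.ThCApp2

/-!
P092, Theorem C (#3269) step (3): approximate delta, final form (helper242).
-/

set_option linter.all false

open MeasureTheory Filter Topology
open scoped InnerProductSpace ENNReal Pointwise

namespace Vale.Agent.P092.H242.ThC

variable {A L : Type*} [NonUnitalRing A] [StarRing A] [Module ℂ A] [SMulCommClass ℂ A A]
  [IsScalarTower ℂ A A]
  [NormedAddCommGroup L] [InnerProductSpace ℂ L] [CompleteSpace L] {j : A →ₗ[ℂ] L}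

variable {H Y : Type*} [Group H] [TopologicalSpace H] [IsTopologicalGroup H]
  [LocallyCompactSpace H] [T2Space H] [SecondCountableTopology H]
  [MeasurableSpace H] [BorelSpace H] [Group Y] [TopologicalSpace Y] [MeasurableSpace Y]
  [OpensMeasurableSpace Y] [SecondCountableTopology Y]
  {α : H → A → A} {U : H →* (L →L[ℂ] L)} {μ : Measure H} [μ.IsHaarMeasure]
  {r : Y → A → A} {R : Y →* (L →L[ℂ] L)} {ν : Measure Y} [SFinite ν]

/-- finite sums `∑ x_i α_h(y_i)` -/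
noncomputable def Gs (j : A →ₗ[ℂ] L) (α : H → A → A) {ι : Type} [Fintype ι] (x y : ι → A)
    (h : H) : L := ∑ i, j (x i * α h (y i))

omit [SMulCommClass ℂ A A] [IsScalarTower ℂ A A] [CompleteSpace L] [IsTopologicalGroup H]
  [LocallyCompactSpace H] [T2Space H] [μ.IsHaarMeasure] in
theorem memLp_Gs (hj : HA j) (hα : Act j α U) (hI : Itg j α μ) {ι : Type} [Fintype ι]
    (x y : ι → A) : MemLp (Gs j α x y) 2 μ := by
  have := memLp_finset_sum (μ := μ) (p := 2) Finset.univ (f := fun i h => j (x i * α h (y i)))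
    fun i _ => memLp_F hj hα hI (x i) (y i)
  exact this

omit [SMulCommClass ℂ A A] [IsScalarTower ℂ A A] [CompleteSpace L] [IsTopologicalGroup H]
  [LocallyCompactSpace H] [T2Space H] [μ.IsHaarMeasure] [SecondCountableTopology H]
  [BorelSpace H] in
theorem cont_Gs (hj : HA j) (hα : Act j α U) {ι : Type} [Fintype ι]
    (x y : ι → A) : Continuous (Gs j α x y) :=
  continuous_finset_sum _ fun i _ => hj.cont_mulL (x i) (hα.contj (y i))

/-- elements of the span are finite sums -/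
theorem span_form (hj : HA j) (hα : Act j α U) (hI : Itg j α μ) {ζ : Lp L 2 μ}
    (hζ : ζ ∈ Submodule.span ℂ {ξ : Lp L 2 μ | ∃ u v, ξ = (memLp_F hj hα hI u v).toLp _}) :
    ∃ (ι : Type) (_ : Fintype ι) (x y : ι → A), ζ = (memLp_Gs hj hα hI x y).toLp _ := by
  induction hζ using Submodule.span_induction with
  | mem ζ hζ =>
    obtain ⟨u, v, rfl⟩ := hζ
    refine ⟨Unit, inferInstance, fun _ => u, fun _ => v, ?_⟩
    congr 1
    funext h
    simp [Gs]
  | zero =>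
    refine ⟨Empty, inferInstance, fun _ => 0, fun _ => 0, ?_⟩
    refine (Lp.ext ?_)
    filter_upwards [Lp.coeFn_zero L 2 μ, (memLp_Gs hj hα hI (fun _ : Empty => 0)
      (fun _ => 0)).coeFn_toLp] with h h1 h2
    rw [h1, h2]
    simp [Gs]
  | add ζ₁ ζ₂ _ _ h1 h2 =>
    obtain ⟨ι, hι, x, y, rfl⟩ := h1
    obtain ⟨ι', hι', x', y', rfl⟩ := h2
    refine ⟨ι ⊕ ι', inferInstance, Sum.elim x x', Sum.elim y y', ?_⟩
    rw [← MemLp.toLp_add]
    congr 1
    funext h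
    simp [Gs, Fintype.sum_sum_type]
  | smul c ζ _ h1 =>
    obtain ⟨ι, hι, x, y, rfl⟩ := h1
    refine ⟨ι, hι, fun i => c • x i, y, ?_⟩
    rw [← MemLp.toLp_const_smul]
    congr 1
    funext h
    simp only [Gs, Pi.smul_apply, Finset.smul_sum]
    refine Finset.sum_congr rfl fun i _ => ?_
    rw [smul_mul_assoc, map_smul]

/-- multiplication by `ψ ∈ C_c(H)` stays in the closed span -/
theorem mem_closure_span (P : Pk j α U μ r R ν)
    (faith : ∀ h : H, (∀ a, j (α h a) = j a) → h = 1) (hne : ∃ a, j a ≠ 0) {g : H → ℝ}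
    (hg : Continuous g) (hgc : HasCompactSupport g) (u v : A)
    (hgm : MemLp (fun h => (g h : ℂ) • j (u * α h v)) 2 μ) :
    hgm.toLp _ ∈ (Submodule.span ℂ {ξ : Lp L 2 μ | ∃ u v,
      ξ = (memLp_F P.ha P.actH P.itgH u v).toLp _}).topologicalClosure := by
  set S := Submodule.span ℂ {ξ : Lp L 2 μ | ∃ u v, ξ = (memLp_F P.ha P.actH P.itgH u v).toLp _}
    with hS
  rw [← Submodule.orthogonal_orthogonal_eq_closure, Submodule.mem_orthogonal]
  intro Z hZ
  have hZL : MemLp Z 2 μ := Lp.memLp Z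
  have hZ0 : ∀ u v, ∫ h, ⟪Z h, j (u * α h v)⟫_ℂ ∂μ = 0 := by
    intro u v
    have h1 := (Submodule.mem_orthogonal' _ _).1 hZ _
      (Submodule.subset_span ⟨u, v, rfl⟩)
    have h2 := inner_toLp hZL (memLp_F P.ha P.actH P.itgH u v)
    rw [Lp.toLp_coeFn] at h2
    rw [← h2, h1]
  have hg0 : Tendsto g (cocompact H) (𝓝 0) := hgc.is_zero_at_infty
  have h3 := real_mem P faith hne hg hg0 Z hZL hZ0 u v
  have h4 := inner_toLp hZL hgm
  rw [Lp.toLp_coeFn] at h4
  rw [h4]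
  simp only [inner_smul_right]
  exact h3

theorem exists_approx (P : Pk j α U μ r R ν)
    (faith : ∀ h : H, (∀ a, j (α h a) = j a) → h = 1) (hne : ∃ a, j a ≠ 0) {g : H → ℝ}
    (hg : Continuous g) (hgc : HasCompactSupport g) (u v : A)
    (hgm : MemLp (fun h => (g h : ℂ) • j (u * α h v)) 2 μ) {ε : ℝ} (hε : 0 < ε) :
    ∃ (ι : Type) (_ : Fintype ι) (x y : ι → A),
      ‖(memLp_Gs P.ha P.actH P.itgH x y).toLp _ - hgm.toLp _‖ < ε := by
  have h1 := mem_closure_span P faith hne hg hgc u v hgm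
  rw [← SetLike.mem_coe, Submodule.topologicalClosure_coe, Metric.mem_closure_iff] at h1
  obtain ⟨ζ, hζ, hd⟩ := h1 ε hε
  obtain ⟨ι, hι, x, y, rfl⟩ := span_form P.ha P.actH P.itgH hζ
  refine ⟨ι, hι, x, y, ?_⟩
  rw [← dist_eq_norm, dist_comm]
  exact hd

/-- **approximate delta**: `‖∑ x_i α_h(y_i)‖² dh → δ_1` -/
theorem exists_delta (P : Pk j α U μ r R ν)
    (faith : ∀ h : H, (∀ a, j (α h a) = j a) → h = 1) (hne : ∃ a, j a ≠ 0) :
    ∃ (ι : ℕ → Type) (_ : ∀ n, Fintype (ι n)) (x y : ∀ n, ι n → A),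
      ∀ F : H → ℂ, Continuous F → (∃ M : ℝ, ∀ h, ‖F h‖ ≤ M) →
        Tendsto (fun n => ∫ h, ((‖Gs j α (x n) (y n) h‖ ^ 2 : ℝ) : ℂ) * F h ∂μ) atTop
          (𝓝 (F 1)) := by
  have hj := P.ha
  -- a product with nonzero image
  obtain ⟨u, v, huv⟩ : ∃ u v, j (u * v) ≠ 0 := by
    by_contra hcon
    push Not at hcon
    obtain ⟨a, ha⟩ := hne
    exact ha (eq_zero_of_orth hj P.actH P.itgH fun x y => by rw [hcon, inner_zero_left])
  obtain ⟨V, hV⟩ := (𝓝 (1 : H)).exists_antitone_basis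
  -- bump functions
  have hstep : ∀ n : ℕ, ∃ g : H → ℝ, Continuous g ∧ HasCompactSupport g ∧
      (∀ h, h ∉ V n → g h = 0) ∧ ∫ h, ‖(g h : ℂ) • j (u * α h v)‖ ^ 2 ∂μ = 1 := by
    intro n
    have hVn : V n ∈ 𝓝 (1 : H) := hV.1.mem_of_mem trivial
    obtain ⟨ψ, hψ1, hψ0, hψc, hψI⟩ := exists_continuous_one_zero_of_isCompact
      (isCompact_singleton (x := (1 : H))) (isClosed_compl_iff.2 isOpen_interior :
        IsClosed (interior (V n))ᶜ)
      (Set.disjoint_singleton_left.2 fun h => h (mem_interior_iff_mem_nhds.2 hVn))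
    have hψ1' : ψ 1 = 1 := hψ1 (Set.mem_singleton _)
    set q : H → ℝ := fun h => ‖(ψ h : ℂ) • j (u * α h v)‖ ^ 2 with hq
    have hqc : Continuous q :=
      (((Complex.continuous_ofReal.comp ψ.continuous).smul
        (hj.cont_mulL u (P.actH.contj v))).norm.pow 2)
    have hqs : HasCompactSupport q := by
      refine hψc.mono fun h hh => ?_
      rw [Function.mem_support] at hh ⊢
      intro h0
      exact hh (by simp [hq, h0])
    have hq1 : q 1 ≠ 0 := by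
      simp only [hq, hψ1', P.actH.one]
      simpa using huv
    have hqpos : 0 < ∫ h, q h ∂μ :=
      hqc.integral_pos_of_hasCompactSupport_nonneg_nonzero hqs (fun h => by positivity) hq1
    set s : ℝ := (Real.sqrt (∫ h, q h ∂μ))⁻¹ with hs
    have hs2 : s ^ 2 * ∫ h, q h ∂μ = 1 := by
      rw [hs, inv_pow, Real.sq_sqrt hqpos.le, inv_mul_cancel₀ hqpos.ne']
    refine ⟨fun h => s * ψ h, continuous_const.mul ψ.continuous, hψc.mul_left, ?_, ?_⟩
    · intro h hh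
      have : h ∈ (interior (V n))ᶜ := fun h' => hh (interior_subset h')
      have h0 : ψ h = 0 := hψ0 this
      simp [h0]
    · rw [← hs2, ← integral_const_mul]
      congr 1
      funext h
      simp only [hq]
      rw [norm_smul, norm_smul, mul_pow, mul_pow, Complex.norm_real, Complex.norm_real, norm_mul,
        mul_pow, Real.norm_eq_abs, sq_abs]
      ring
  choose g hgc hgs hg0 hg1 using hstep
  have hgm : ∀ n, MemLp (fun h => (g n h : ℂ) • j (u * α h v)) 2 μ := by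
    intro n
    obtain ⟨C, hC⟩ := bdd_of_c0 (hgc n) (hgs n).is_zero_at_infty
    refine MemLp.of_le_mul (c := C) (memLp_F hj P.actH P.itgH u v) ?_
      (Eventually.of_forall fun x => ?_)
    · exact ((Complex.continuous_ofReal.comp (hgc n)).smul
        (hj.cont_mulL u (P.actH.contj v))).aestronglyMeasurable
    · rw [norm_smul, Complex.norm_real]
      exact mul_le_mul_of_nonneg_right (hC x) (norm_nonneg _)
  have hδ : ∀ n : ℕ, (0 : ℝ) < 1 / ((n : ℝ) + 1) := fun n => by positivity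
  choose ι hι x y hxy using fun n => exists_approx P faith hne (hgc n) (hgs n) u v (hgm n) (hδ n)
  refine ⟨ι, hι, x, y, fun F hF hFb => ?_⟩
  obtain ⟨M, hM⟩ := hFb
  have hM0 : 0 ≤ M := (norm_nonneg _).trans (hM 1)
  -- estimates
  have hn1 : ∀ n, ‖(hgm n).toLp _‖ = 1 := by
    intro n
    have h1 := norm_sq_toLp (hgm n)
    rw [hg1 n] at h1
    have h2 := norm_nonneg ((hgm n).toLp _)
    nlinarith [sq_nonneg (‖(hgm n).toLp _‖ - 1), sq_nonneg (‖(hgm n).toLp _‖ + 1)]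
  have hG : ∀ n, MemLp (Gs j α (x n) (y n)) 2 μ := fun n => memLp_Gs hj P.actH P.itgH _ _
  have hint1 : ∀ n, Integrable (fun h => ((‖Gs j α (x n) (y n) h‖ ^ 2 : ℝ) : ℂ) * F h) μ := by
    intro n
    exact ((integrable_sq (hG n)).ofReal).mul_bdd (c := M) hF.aestronglyMeasurable
      (Eventually.of_forall hM)
  have hint2 : ∀ n, Integrable (fun h => ((‖(g n h : ℂ) • j (u * α h v)‖ ^ 2 : ℝ) : ℂ) * F h)
      μ := by
    intro n
    exact ((integrable_sq (hgm n)).ofReal).mul_bdd (c := M) hF.aestronglyMeasurable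
      (Eventually.of_forall hM)
  have hA : ∀ n, ‖∫ h, ((‖Gs j α (x n) (y n) h‖ ^ 2 : ℝ) : ℂ) * F h ∂μ -
      ∫ h, ((‖(g n h : ℂ) • j (u * α h v)‖ ^ 2 : ℝ) : ℂ) * F h ∂μ‖ ≤
        (1 / ((n : ℝ) + 1)) * (3 * M) := by
    intro n
    rw [← integral_sub (hint1 n) (hint2 n)]
    have h1 : ‖∫ h, (((‖Gs j α (x n) (y n) h‖ ^ 2 : ℝ) : ℂ) * F h -
        ((‖(g n h : ℂ) • j (u * α h v)‖ ^ 2 : ℝ) : ℂ) * F h) ∂μ‖ ≤
        ∫ h, M * |‖Gs j α (x n) (y n) h‖ ^ 2 - ‖(g n h : ℂ) • j (u * α h v)‖ ^ 2| ∂μ := by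
      refine norm_integral_le_of_norm_le
        (((integrable_sq (hG n)).sub (integrable_sq (hgm n))).abs.const_mul M)
        (Eventually.of_forall fun h => ?_)
      rw [← sub_mul, norm_mul, ← Complex.ofReal_sub, Complex.norm_real, Real.norm_eq_abs, mul_comm]
      exact mul_le_mul_of_nonneg_right (hM h) (abs_nonneg _)
    refine h1.trans ?_
    rw [integral_const_mul]
    have h2 := int_sq_sub (hG n) (hgm n)
    rw [hn1] at h2
    have h3 := hxy n
    set d := ‖(hG n).toLp _ - (hgm n).toLp _‖ with hd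
    have hd0 : 0 ≤ d := norm_nonneg _
    have h4 : d ≤ 1 / ((n : ℝ) + 1) := h3.le
    have h5 : (1 : ℝ) / ((n : ℝ) + 1) ≤ 1 := by
      rw [div_le_one (by positivity)]
      linarith [Nat.cast_nonneg (α := ℝ) n]
    have h6 : d ^ 2 + 2 * (d * 1) ≤ (1 / ((n : ℝ) + 1)) * 3 := by nlinarith
    calc M * ∫ h, |‖Gs j α (x n) (y n) h‖ ^ 2 - ‖(g n h : ℂ) • j (u * α h v)‖ ^ 2| ∂μ ≤
        M * ((1 / ((n : ℝ) + 1)) * 3) := mul_le_mul_of_nonneg_left (h2.trans h6) hM0
      _ = (1 / ((n : ℝ) + 1)) * (3 * M) := by ring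
  rw [Metric.tendsto_atTop]
  intro ε hε
  -- near the identity
  have hnear : ∀ᶠ h in 𝓝 (1 : H), ‖F h - F 1‖ ≤ ε / 4 := by
    have := (Metric.continuousAt_iff'.1 (hF.continuousAt (x := (1 : H)))) (ε / 4) (by positivity)
    filter_upwards [this] with h hh
    rw [dist_eq_norm] at hh
    exact hh.le
  obtain ⟨n₀, hn₀⟩ := hV.mem_iff.1 hnear
  obtain ⟨n₁, hn₁⟩ := exists_nat_gt (12 * M / ε)
  refine ⟨max n₀ n₁, fun n hn => ?_⟩
  have hB : ‖∫ h, ((‖(g n h : ℂ) • j (u * α h v)‖ ^ 2 : ℝ) : ℂ) * F h ∂μ - F 1‖ ≤ ε / 4 := by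
    have e1 : F 1 = ∫ h, ((‖(g n h : ℂ) • j (u * α h v)‖ ^ 2 : ℝ) : ℂ) * F 1 ∂μ := by
      rw [integral_mul_const, integral_complex_ofReal, hg1 n]
      simp
    have hint3 : Integrable (fun h => ((‖(g n h : ℂ) • j (u * α h v)‖ ^ 2 : ℝ) : ℂ) * F 1) μ :=
      ((integrable_sq (hgm n)).ofReal).mul_const _
    rw [e1, ← integral_sub (hint2 n) hint3]
    have h1 : ‖∫ h, (((‖(g n h : ℂ) • j (u * α h v)‖ ^ 2 : ℝ) : ℂ) * F h -
        ((‖(g n h : ℂ) • j (u * α h v)‖ ^ 2 : ℝ) : ℂ) * F 1) ∂μ‖ ≤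
        ∫ h, ‖(g n h : ℂ) • j (u * α h v)‖ ^ 2 * (ε / 4) ∂μ := by
      refine norm_integral_le_of_norm_le ((integrable_sq (hgm n)).mul_const _)
        (Eventually.of_forall fun h => ?_)
      rw [← mul_sub, norm_mul, Complex.norm_real, Real.norm_of_nonneg (by positivity)]
      by_cases hh : h ∈ V n
      · exact mul_le_mul_of_nonneg_left (hn₀ (hV.2 (le_of_max_le_left hn) hh)) (by positivity)
      · simp [hg0 n h hh]
    refine h1.trans (le_of_eq ?_)
    rw [integral_mul_const, hg1 n, one_mul]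
  rw [dist_eq_norm]
  have h7 : (1 / ((n : ℝ) + 1)) * (3 * M) < ε / 4 := by
    have h8 : (n₁ : ℝ) ≤ n := by exact_mod_cast le_of_max_le_right hn
    have h9 : 12 * M / ε < (n : ℝ) + 1 := by linarith
    rw [div_lt_iff₀ hε] at h9
    rw [one_div, inv_mul_lt_iff₀ (by positivity)]
    linarith
  have h10 : ∫ h, ((‖Gs j α (x n) (y n) h‖ ^ 2 : ℝ) : ℂ) * F h ∂μ - F 1 =
      (∫ h, ((‖Gs j α (x n) (y n) h‖ ^ 2 : ℝ) : ℂ) * F h ∂μ -
      ∫ h, ((‖(g n h : ℂ) • j (u * α h v)‖ ^ 2 : ℝ) : ℂ) * F h ∂μ) +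
      (∫ h, ((‖(g n h : ℂ) • j (u * α h v)‖ ^ 2 : ℝ) : ℂ) * F h ∂μ - F 1) := by ring
  rw [h10]
  refine (norm_add_le _ _).trans_lt ?_
  have := hA n
  linarith

end Vale.Agent.P092.H242.ThC
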