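import Vale.Agent.P092.H242.ThCDefs

/-!
P092, Theorem C (#3269) step (1): Schur orthogonality (K), for arbitrary vectors (helper242).
-/

set_option linter.all false

open MeasureTheory Filter Topology
open scoped InnerProductSpace ENNReal

namespace Vale.Agent.P092.H242.ThC

section fatou

variable {A L : Type*} [NonUnitalRing A] [StarRing A] [Module ℂ A]
  [NormedAddCommGroup L] [InnerProductSpace ℂ L] {j : A →ₗ[ℂ] L}
  {E : Type*} [NormedAddCommGroup E] [NormedSpace ℂ E]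
  {X : Type*} [MeasurableSpace X] {μ : Measure X}

/-- an `L²` bound passes from the dense range to all vectors -/
theorem fatou_bound (hd : DenseRange j) (F : X → L →L[ℂ] E)
    (hm : ∀ ξ, AEMeasurable (fun x => ‖F x ξ‖ₑ) μ) {C : ℝ}
    (hb : ∀ a, ∫⁻ x, ‖F x (j a)‖ₑ ^ 2 ∂μ ≤ ENNReal.ofReal (C * ‖j a‖ ^ 2)) (ξ : L) :
    ∫⁻ x, ‖F x ξ‖ₑ ^ 2 ∂μ ≤ ENNReal.ofReal (C * ‖ξ‖ ^ 2) := by
  obtain ⟨s, hs1, hs2⟩ := mem_closure_iff_seq_limit.1 (hd ξ)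
  choose a ha using hs1
  have h1 : ∀ x, ‖F x ξ‖ₑ ^ 2 = liminf (fun n => ‖F x (j (a n))‖ₑ ^ 2) atTop := by
    intro x
    have : Tendsto (fun n => ‖F x (j (a n))‖ₑ ^ 2) atTop (𝓝 (‖F x ξ‖ₑ ^ 2)) := by
      have e : Tendsto (fun n => F x (j (a n))) atTop (𝓝 (F x ξ)) := by
        simp only [ha]
        exact ((F x).continuous.tendsto ξ).comp hs2
      exact ((ENNReal.continuous_pow 2).tendsto _).comp e.enorm
    exact this.liminf_eq.symm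
  have h2 : Tendsto (fun n => ENNReal.ofReal (C * ‖j (a n)‖ ^ 2)) atTop
      (𝓝 (ENNReal.ofReal (C * ‖ξ‖ ^ 2))) := by
    refine (ENNReal.continuous_ofReal.tendsto _).comp ?_
    simp only [ha]
    exact (hs2.norm.pow 2).const_mul C
  calc ∫⁻ x, ‖F x ξ‖ₑ ^ 2 ∂μ = ∫⁻ x, liminf (fun n => ‖F x (j (a n))‖ₑ ^ 2) atTop ∂μ := by
        simp only [← h1]
    _ ≤ liminf (fun n => ∫⁻ x, ‖F x (j (a n))‖ₑ ^ 2 ∂μ) atTop :=
        lintegral_liminf_le' fun n => (hm _).pow_const 2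
    _ ≤ liminf (fun n => ENNReal.ofReal (C * ‖j (a n)‖ ^ 2)) atTop :=
        liminf_le_liminf (Eventually.of_forall fun n => hb (a n))
    _ = ENNReal.ofReal (C * ‖ξ‖ ^ 2) := h2.liminf_eq

theorem memLp_of_bound (F : X → L →L[ℂ] E) (hm : ∀ ξ, AEStronglyMeasurable (fun x => F x ξ) μ)
    {C : ℝ} (hb : ∀ ξ, ∫⁻ x, ‖F x ξ‖ₑ ^ 2 ∂μ ≤ ENNReal.ofReal (C * ‖ξ‖ ^ 2)) (ξ : L) :
    MemLp (fun x => F x ξ) 2 μ := by
  refine ⟨hm ξ, ?_⟩
  rw [eLpNorm_lt_top_iff_lintegral_rpow_enorm_lt_top (by norm_num) (by norm_num)]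
  have : ∀ x, ‖F x ξ‖ₑ ^ (2 : ℝ≥0∞).toReal = ‖F x ξ‖ₑ ^ 2 := by
    intro x
    rw [ENNReal.toReal_ofNat, ← ENNReal.rpow_natCast]
    norm_num
  simp only [this]
  exact (hb ξ).trans_lt ENNReal.ofReal_lt_top

theorem exists_T (F : X → L →L[ℂ] E) (hm : ∀ ξ, AEStronglyMeasurable (fun x => F x ξ) μ)
    {C : ℝ} (hC : 0 ≤ C)
    (hb : ∀ ξ, ∫⁻ x, ‖F x ξ‖ₑ ^ 2 ∂μ ≤ ENNReal.ofReal (C * ‖ξ‖ ^ 2)) :
    ∃ T : L →L[ℂ] Lp E 2 μ, ∀ ξ, T ξ =ᵐ[μ] fun x => F x ξ := by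
  have hL := memLp_of_bound F hm hb
  let T0 : L →ₗ[ℂ] Lp E 2 μ :=
    { toFun := fun ξ => (hL ξ).toLp _
      map_add' := by
        intro ξ η
        rw [← MemLp.toLp_add]
        congr 1
        funext x
        simp
      map_smul' := by
        intro c ξ
        rw [RingHom.id_apply, ← MemLp.toLp_const_smul]
        congr 1
        funext x
        simp }
  refine ⟨T0.mkContinuous (Real.sqrt C) fun ξ => ?_, fun ξ => ?_⟩
  · change ‖(hL ξ).toLp _‖ ≤ _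
    rw [Lp.norm_toLp]
    have h1 : eLpNorm (fun x => F x ξ) 2 μ ^ 2 ≤ ENNReal.ofReal (C * ‖ξ‖ ^ 2) := by
      refine le_trans (le_of_eq ?_) (hb ξ)
      have h2 := eLpNorm_nnreal_pow_eq_lintegral (f := fun x => F x ξ) (μ := μ) (p := 2)
        (by norm_num)
      have e2 : ((2 : NNReal) : ℝ) = ((2 : ℕ) : ℝ) := by norm_num
      rw [e2] at h2
      simp only [ENNReal.rpow_natCast] at h2
      exact h2
    have h3 : eLpNorm (fun x => F x ξ) 2 μ ≤ ENNReal.ofReal (Real.sqrt C * ‖ξ‖) := by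
      have h4 : ENNReal.ofReal (C * ‖ξ‖ ^ 2) = ENNReal.ofReal (Real.sqrt C * ‖ξ‖) ^ 2 := by
        rw [← ENNReal.ofReal_pow (by positivity), mul_pow, Real.sq_sqrt hC]
      rw [h4] at h1
      exact (ENNReal.pow_le_pow_left_iff (by norm_num)).1 h1
    refine (ENNReal.toReal_mono ENNReal.ofReal_ne_top h3).trans (le_of_eq ?_)
    rw [ENNReal.toReal_ofReal (by positivity)]
  · exact (hL ξ).coeFn_toLp

/-- pairing with an `L²` function is a continuous functional -/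
theorem exists_pair (F : X → L →L[ℂ] ℂ) (hm : ∀ ξ, AEStronglyMeasurable (fun x => F x ξ) μ)
    {C : ℝ} (hC : 0 ≤ C) (hb : ∀ ξ, ∫⁻ x, ‖F x ξ‖ₑ ^ 2 ∂μ ≤ ENNReal.ofReal (C * ‖ξ‖ ^ 2))
    {f : X → ℂ} (hf : MemLp f 2 μ) :
    ∃ φ : L →L[ℂ] ℂ, ∀ ξ, φ ξ = ∫ x, f x * F x ξ ∂μ := by
  obtain ⟨T, hT⟩ := exists_T F hm hC hb
  refine ⟨(innerSL ℂ (hf.star.toLp _)).comp T, fun ξ => ?_⟩
  rw [ContinuousLinearMap.comp_apply, innerSL_apply_apply, L2.inner_def]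
  refine integral_congr_ae ?_
  filter_upwards [hT ξ, hf.star.coeFn_toLp] with x h1 h2
  rw [h1, h2]
  simp [RCLike.inner_apply, mul_comm]

end fatou

section K

variable {A L : Type*} [NonUnitalRing A] [StarRing A] [Module ℂ A]
  [NormedAddCommGroup L] [InnerProductSpace ℂ L] {j : A →ₗ[ℂ] L}

theorem HA.l' (hj : HA j) (p q z : A) : ⟪j z, j (p * q)⟫_ℂ = ⟪j (star p * z), j q⟫_ℂ := by
  rw [hj.left (star p) z q, star_star]

theorem HA.r' (hj : HA j) (p q z : A) : ⟪j z, j (p * q)⟫_ℂ = ⟪j (z * star q), j p⟫_ℂ := by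
  rw [hj.right z (star q) p, star_star]

section one

variable {H : Type*} [Group H] [TopologicalSpace H] [MeasurableSpace H] {α : H → A → A}
  {U : H →* (L →L[ℂ] L)} {μ : Measure H}

theorem Act.cont_joint (hα : Act j α U) {X : Type*} [TopologicalSpace X] {f : X → H} {g : X → L}
    (hf : Continuous f) (hg : Continuous g) : Continuous fun x => U (f x) (g x) := by
  rw [continuous_iff_continuousAt]
  intro x₀
  rw [ContinuousAt, tendsto_iff_norm_sub_tendsto_zero]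
  have e1 : Tendsto (fun x => ‖g x - g x₀‖) (𝓝 x₀) (𝓝 0) := by
    rw [← tendsto_iff_norm_sub_tendsto_zero]
    exact hg.continuousAt
  have e2 : Tendsto (fun x => ‖U (f x) (g x₀) - U (f x₀) (g x₀)‖) (𝓝 x₀) (𝓝 0) := by
    rw [← tendsto_iff_norm_sub_tendsto_zero]
    exact ((hα.cont (g x₀)).comp hf).continuousAt
  have e3 := e1.add e2
  rw [add_zero] at e3
  refine squeeze_zero (fun _ => norm_nonneg _) (fun x => ?_) e3
  have e : U (f x) (g x) - U (f x₀) (g x₀) = U (f x) (g x - g x₀) +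
      (U (f x) (g x₀) - U (f x₀) (g x₀)) := by
    rw [map_sub]; abel
  rw [e]
  refine (norm_add_le _ _).trans (le_of_eq ?_)
  rw [hα.iso]

theorem Itg.intR (hI : Itg j α μ) (hj : HA j) (hα : Act j α U) (a x : A) :
    Integrable (fun h => ‖j (x * α h a)‖ ^ 2) μ := by
  have := hI.int (star a) (star x)
  refine this.congr (Eventually.of_forall fun h => ?_)
  simp only
  rw [hj.norm_star_mul x, hα.st]

theorem Itg.eqR (hI : Itg j α μ) (hj : HA j) (hα : Act j α U) (a b x y : A) :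
    ∫ h, ⟪j (x * α h a), j (y * α h b)⟫_ℂ ∂μ = ⟪j a, j b⟫_ℂ * ⟪j x, j y⟫_ℂ := by
  have := hI.eq (star b) (star a) (star y) (star x)
  rw [hj.tr, hj.tr] at this
  rw [← this]
  congr 1
  funext h
  rw [← hj.tr, star_mul, star_mul, hα.st, hα.st]

theorem Itg.norm_eq (hI : Itg j α μ) (a x : A) :
    ∫ h, ‖j (α h a * x)‖ ^ 2 ∂μ = ‖j a‖ ^ 2 * ‖j x‖ ^ 2 := by
  have h := hI.eq a a x x
  simp only [inner_self_eq_norm_sq_to_K] at h
  have e : (fun h => ((‖j (α h a * x)‖ : ℂ)) ^ 2) = fun h => ((‖j (α h a * x)‖ ^ 2 : ℝ) : ℂ) := by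
    funext h; push_cast; rfl
  simp only [Complex.coe_algebraMap] at h
  rw [e, integral_complex_ofReal] at h
  exact_mod_cast h

theorem Itg.normR_eq (hI : Itg j α μ) (hj : HA j) (hα : Act j α U) (a x : A) :
    ∫ h, ‖j (x * α h a)‖ ^ 2 ∂μ = ‖j a‖ ^ 2 * ‖j x‖ ^ 2 := by
  have h := hI.norm_eq (star a) (star x)
  rw [hj.norm_star, hj.norm_star] at h
  rw [← h]
  congr 1
  funext h
  rw [hj.norm_star_mul x, hα.st]

theorem lint_sq {X : Type*} [MeasurableSpace X] {μ : Measure X} {f : X → L}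
    (hf : Integrable (fun x => ‖f x‖ ^ 2) μ) :
    ∫⁻ x, ‖f x‖ₑ ^ 2 ∂μ = ENNReal.ofReal (∫ x, ‖f x‖ ^ 2 ∂μ) := by
  rw [ofReal_integral_eq_lintegral_ofReal hf (Eventually.of_forall fun x => by positivity)]
  congr 1
  funext x
  rw [ENNReal.ofReal_pow (norm_nonneg _), ofReal_norm]

/-- `y ↦ ⟪U_h (c₁ c₂), ξ⟫` is square integrable -/
theorem sq1 (hj : HA j) (hα : Act j α U) (hI : Itg j α μ) [OpensMeasurableSpace H]
    (c₁ c₂ : A) (ξ : L) :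
    ∫⁻ h, ‖⟪U h (j (c₁ * c₂)), ξ⟫_ℂ‖ₑ ^ 2 ∂μ ≤
      ENNReal.ofReal ((‖j c₁‖ ^ 2 * ‖j c₂‖ ^ 2) * ‖ξ‖ ^ 2) := by
  have hm : ∀ ξ : L, Continuous fun h => innerSL ℂ (U h (j (c₁ * c₂))) ξ := by
    intro ξ
    have : Continuous fun h => ⟪U h (j (c₁ * c₂)), ξ⟫_ℂ := (hα.cont _).inner continuous_const
    exact this
  refine fatou_bound hj.dense (fun h => innerSL ℂ (U h (j (c₁ * c₂)))) (μ := μ)
    (fun ξ => (hm ξ).enorm.measurable.aemeasurable) (fun a => ?_) ξ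
  have h1 : ∀ h, ‖innerSL ℂ (U h (j (c₁ * c₂))) (j a)‖ₑ ^ 2 ≤
      ENNReal.ofReal (‖j c₂‖ ^ 2) * ‖j (α h (star c₁) * a)‖ₑ ^ 2 := by
    intro h
    have e : innerSL ℂ (U h (j (c₁ * c₂))) (j a) = ⟪j (α h c₂), j (α h (star c₁) * a)⟫_ℂ := by
      rw [innerSL_apply_apply, hα.coe, hα.mul, hj.left, hα.st]
    rw [e, ← ofReal_norm, ← ofReal_norm, ← ENNReal.ofReal_pow (norm_nonneg _),
      ← ENNReal.ofReal_pow (norm_nonneg _), ← ENNReal.ofReal_mul (by positivity), ← mul_pow]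
    refine ENNReal.ofReal_le_ofReal (pow_le_pow_left₀ (norm_nonneg _) ?_ 2)
    refine (norm_inner_le_norm _ _).trans (le_of_eq ?_)
    rw [hα.norm]
  refine (lintegral_mono h1).trans (le_of_eq ?_)
  rw [lintegral_const_mul' _ _ ENNReal.ofReal_ne_top, lint_sq (hI.int _ _), hI.norm_eq,
    ← ENNReal.ofReal_mul (by positivity), hj.norm_star]
  congr 1
  ring

/-- `h ↦ ⟪z₁ z₂, U_h ξ⟫` is square integrable -/
theorem sq2 (hj : HA j) (hα : Act j α U) (hI : Itg j α μ) [OpensMeasurableSpace H]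
    (z₁ z₂ : A) (ξ : L) :
    ∫⁻ h, ‖⟪j (z₁ * z₂), U h ξ⟫_ℂ‖ₑ ^ 2 ∂μ ≤
      ENNReal.ofReal ((‖j z₁‖ ^ 2 * ‖j z₂‖ ^ 2) * ‖ξ‖ ^ 2) := by
  have hm : ∀ ξ : L, Continuous fun h => ((innerSL ℂ (j (z₁ * z₂))).comp (U h)) ξ := by
    intro ξ
    have : Continuous fun h => ⟪j (z₁ * z₂), U h ξ⟫_ℂ := continuous_const.inner (hα.cont ξ)
    exact this
  refine fatou_bound hj.dense (fun h => (innerSL ℂ (j (z₁ * z₂))).comp (U h)) (μ := μ)
    (fun ξ => (hm ξ).enorm.measurable.aemeasurable) (fun a => ?_) ξ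
  have h1 : ∀ h, ‖((innerSL ℂ (j (z₁ * z₂))).comp (U h)) (j a)‖ₑ ^ 2 ≤
      ENNReal.ofReal (‖j z₂‖ ^ 2) * ‖j (star z₁ * α h a)‖ₑ ^ 2 := by
    intro h
    have e : ((innerSL ℂ (j (z₁ * z₂))).comp (U h)) (j a) = ⟪j z₂, j (star z₁ * α h a)⟫_ℂ := by
      rw [ContinuousLinearMap.comp_apply, innerSL_apply_apply, hα.coe, hj.left]
    rw [e, ← ofReal_norm, ← ofReal_norm, ← ENNReal.ofReal_pow (norm_nonneg _),
      ← ENNReal.ofReal_pow (norm_nonneg _), ← ENNReal.ofReal_mul (by positivity), ← mul_pow]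
    exact ENNReal.ofReal_le_ofReal (pow_le_pow_left₀ (norm_nonneg _) (norm_inner_le_norm _ _) 2)
  refine (lintegral_mono h1).trans (le_of_eq ?_)
  rw [lintegral_const_mul' _ _ ENNReal.ofReal_ne_top, lint_sq (hI.intR hj hα _ _),
    hI.normR_eq hj hα, ← ENNReal.ofReal_mul (by positivity), hj.norm_star]
  congr 1
  ring

variable [SecondCountableTopology H] [OpensMeasurableSpace H]

theorem memLp1 (hj : HA j) (hα : Act j α U) (hI : Itg j α μ) (c₁ c₂ : A) (ξ : L) :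
    MemLp (fun h => ⟪U h (j (c₁ * c₂)), ξ⟫_ℂ) 2 μ :=
  memLp_of_bound (fun h => innerSL ℂ (U h (j (c₁ * c₂))))
    (fun ξ => by
      have : Continuous fun h => ⟪U h (j (c₁ * c₂)), ξ⟫_ℂ := (hα.cont _).inner continuous_const
      exact this.aestronglyMeasurable)
    (C := ‖j c₁‖ ^ 2 * ‖j c₂‖ ^ 2) (fun ξ => sq1 hj hα hI c₁ c₂ ξ) ξ

theorem memLp2 (hj : HA j) (hα : Act j α U) (hI : Itg j α μ) (z₁ z₂ : A) (ξ : L) :
    MemLp (fun h => ⟪j (z₁ * z₂), U h ξ⟫_ℂ) 2 μ :=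
  memLp_of_bound (fun h => (innerSL ℂ (j (z₁ * z₂))).comp (U h))
    (fun ξ => by
      have : Continuous fun h => ⟪j (z₁ * z₂), U h ξ⟫_ℂ := continuous_const.inner (hα.cont ξ)
      exact this.aestronglyMeasurable)
    (C := ‖j z₁‖ ^ 2 * ‖j z₂‖ ^ 2) (fun ξ => sq2 hj hα hI z₁ z₂ ξ) ξ

/-- functional `ξ ↦ ∫ f(h) ⟪U_h(c₁c₂), ξ⟫ dh` -/
theorem pair1 (hj : HA j) (hα : Act j α U) (hI : Itg j α μ) (c₁ c₂ : A) {f : H → ℂ}
    (hf : MemLp f 2 μ) :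
    ∃ φ : L →L[ℂ] ℂ, ∀ ξ, φ ξ = ∫ h, f h * ⟪U h (j (c₁ * c₂)), ξ⟫_ℂ ∂μ :=
  exists_pair (fun h => innerSL ℂ (U h (j (c₁ * c₂))))
    (fun ξ => by
      have : Continuous fun h => ⟪U h (j (c₁ * c₂)), ξ⟫_ℂ := (hα.cont _).inner continuous_const
      exact this.aestronglyMeasurable)
    (C := ‖j c₁‖ ^ 2 * ‖j c₂‖ ^ 2) (by positivity) (fun ξ => sq1 hj hα hI c₁ c₂ ξ) hf

/-- functional `ξ ↦ ∫ f(h) ⟪z₁z₂, U_h ξ⟫ dh` -/
theorem pair2 (hj : HA j) (hα : Act j α U) (hI : Itg j α μ) (z₁ z₂ : A) {f : H → ℂ}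
    (hf : MemLp f 2 μ) :
    ∃ φ : L →L[ℂ] ℂ, ∀ ξ, φ ξ = ∫ h, f h * ⟪j (z₁ * z₂), U h ξ⟫_ℂ ∂μ :=
  exists_pair (fun h => (innerSL ℂ (j (z₁ * z₂))).comp (U h))
    (fun ξ => by
      have : Continuous fun h => ⟪j (z₁ * z₂), U h ξ⟫_ℂ := continuous_const.inner (hα.cont ξ)
      exact this.aestronglyMeasurable)
    (C := ‖j z₁‖ ^ 2 * ‖j z₂‖ ^ 2) (by positivity) (fun ξ => sq2 hj hα hI z₁ z₂ ξ) hf

end one

end K

end Vale.Agent.P092.H242.ThC
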