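import Vale.Agent.P092.H242.ThCSup
import Vale.Agent.P092.H565.Theta

/-!
P092, Theorem C (#3269): positivity of `Ψ_x = Θ_{x*, x*}` and the sup bound for helper565's
operators `Th` (helper242).
-/

set_option linter.all false

open MeasureTheory Filter Topology
open scoped InnerProductSpace ENNReal Pointwise

namespace Vale.Agent.P092.H242.ThC

variable {A L : Type*} [NonUnitalRing A] [StarRing A] [Module ℂ A] [SMulCommClass ℂ A A]
  [IsScalarTower ℂ A A]
  [NormedAddCommGroup L] [InnerProductSpace ℂ L] [CompleteSpace L] {j : A →ₗ[ℂ] L}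

variable {H Y : Type*} [Group H] [TopologicalSpace H] [IsTopologicalGroup H]
  [LocallyCompactSpace H] [T2Space H] [SecondCountableTopology H]
  [MeasurableSpace H] [BorelSpace H] [Group Y] [TopologicalSpace Y] [MeasurableSpace Y]
  {α : H → A → A} {U : H →* (L →L[ℂ] L)} {μ : Measure H} [μ.IsHaarMeasure]
  {r : Y → A → A} {R : Y →* (L →L[ℂ] L)} {ν : Measure Y} [SFinite ν]

omit [SMulCommClass ℂ A A] [IsScalarTower ℂ A A] [CompleteSpace L] [IsTopologicalGroup H]
  [LocallyCompactSpace H] [T2Space H] [μ.IsHaarMeasure] in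
theorem int_Gs (hj : HA j) (hα : Act j α U) (hI : Itg j α μ) {ι : Type} [Fintype ι]
    (x y : ι → A) :
    ((∫ h, ‖Gs j α x y h‖ ^ 2 ∂μ : ℝ) : ℂ) =
      ∑ i, ∑ k, ⟪j (y i), j (y k)⟫_ℂ * ⟪j (x i), j (x k)⟫_ℂ := by
  have e : ∀ h, ((‖Gs j α x y h‖ ^ 2 : ℝ) : ℂ) =
      ∑ i, ∑ k, ⟪j (x i * α h (y i)), j (x k * α h (y k))⟫_ℂ := by
    intro h
    have e : ((‖Gs j α x y h‖ ^ 2 : ℝ) : ℂ) = ⟪Gs j α x y h, Gs j α x y h⟫_ℂ := by
      rw [inner_self_eq_norm_sq_to_K]; push_cast; rfl
    rw [e]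
    simp only [Gs, sum_inner, inner_sum]
    rw [Finset.sum_comm]
  have hi : ∀ i k, Integrable (fun h => ⟪j (x i * α h (y i)), j (x k * α h (y k))⟫_ℂ) μ :=
    fun i k => integrable_inner (memLp_F hj hα hI _ _) (memLp_F hj hα hI _ _)
  rw [← integral_complex_ofReal]
  simp only [e]
  rw [integral_finset_sum _ fun i _ => integrable_finset_sum _ fun k _ => hi i k]
  refine Finset.sum_congr rfl fun i _ => ?_
  rw [integral_finset_sum _ fun k _ => hi i k]
  exact Finset.sum_congr rfl fun k _ => hI.eqR hj hα _ _ _ _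

theorem posOp_Th [IsTopologicalGroup Y] [SecondCountableTopology Y] [BorelSpace Y]
    (P : Pk j α U μ r R ν) (a : A) :
    PosOp j α μ (H565.Th P.ha P.actY P.itgY (star a) (star a)) (‖j a‖ ^ 2) := by
  intro ι _ x y
  have hj := P.ha
  -- the two variable function
  set w : H → Y → L := fun h s => Gs j α (fun i => x i * r s a) y h with hw
  have hwc : Continuous fun p : H × Y => w p.1 p.2 := by
    refine continuous_finset_sum _ fun i _ => ?_
    obtain ⟨C1, hC10, hC1⟩ := hj.bdd0 (x i)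
    obtain ⟨C2, hC20, hC2⟩ := hj.bdd0 a
    refine hj.cont_mul (f := fun p : H × Y => x i * r p.2 a) (C := C1 * C2)
      (hj.cont_mulL (x i) ((P.actY.contj a).comp continuous_snd))
      ((P.actH.contj (y i)).comp continuous_fst) fun p b => ?_
    rw [mul_assoc, mul_assoc]
    exact (hC1 _).trans (mul_le_mul_of_nonneg_left (P.actY.bound hC2 _ _) hC10)
  have hwL : ∀ s, MemLp (fun h => w h s) 2 μ := fun s => memLp_Gs hj P.actH P.itgH _ _
  have hws : ∀ s, ((∫ h, ‖w h s‖ ^ 2 ∂μ : ℝ) : ℂ) =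
      ∑ i, ∑ k, ⟪j (y i), j (y k)⟫_ℂ * ⟪j (x i * r s a), j (x k * r s a)⟫_ℂ := fun s =>
    int_Gs hj P.actH P.itgH _ _
  have hik : ∀ i k, Integrable (fun s => ⟪j (x i * r s a), j (x k * r s a)⟫_ℂ) ν := fun i k =>
    integrable_inner (memLp_F hj P.actY P.itgY _ _) (memLp_F hj P.actY P.itgY _ _)
  have hsum : Integrable (fun s => ∑ i, ∑ k, ⟪j (y i), j (y k)⟫_ℂ *
      ⟪j (x i * r s a), j (x k * r s a)⟫_ℂ) ν :=
    integrable_finset_sum _ fun i _ => integrable_finset_sum _ fun k _ => (hik i k).const_mul _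
  have hprod : Integrable (fun p : H × Y => ‖w p.1 p.2‖ ^ 2) (μ.prod ν) := by
    have hm : AEStronglyMeasurable (fun p : H × Y => ‖w p.1 p.2‖ ^ 2) (μ.prod ν) :=
      (hwc.norm.pow 2).aestronglyMeasurable
    rw [integrable_prod_iff' hm]
    refine ⟨Eventually.of_forall fun s => integrable_sq (hwL s), ?_⟩
    have e : (fun s => ∫ h, ‖‖w h s‖ ^ 2‖ ∂μ) = fun s => (∑ i, ∑ k, ⟪j (y i), j (y k)⟫_ℂ *
      ⟪j (x i * r s a), j (x k * r s a)⟫_ℂ).re := by
      funext s
      rw [← hws s, Complex.ofReal_re]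
      congr 1
      funext h
      rw [Real.norm_of_nonneg (by positivity)]
    simp only
    rw [e]
    exact hsum.re
  refine ⟨fun h => ∫ s, ‖w h s‖ ^ 2 ∂ν, hprod.integral_prod_left,
    fun h => integral_nonneg fun s => by positivity, ?_, ?_⟩
  · filter_upwards [hprod.prod_right_ae] with h hh
    rw [← integral_complex_ofReal]
    have e : ∀ s, ((‖w h s‖ ^ 2 : ℝ) : ℂ) = ∑ i, ∑ k,
        ⟪j (α h (y i * star (y k)) * r s (star a)), j (r s (star a) * (star (x i) * x k))⟫_ℂ := by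
      intro s
      have e : ((‖w h s‖ ^ 2 : ℝ) : ℂ) = ⟪w h s, w h s⟫_ℂ := by
        rw [inner_self_eq_norm_sq_to_K]; push_cast; rfl
      rw [e]
      simp only [hw, Gs, sum_inner, inner_sum]
      rw [Finset.sum_comm]
      refine Finset.sum_congr rfl fun i _ => Finset.sum_congr rfl fun k _ => ?_
      rw [hj.left, P.actH.mul, P.actH.st, P.actY.st]
      have e2 : star (x i * r s a) * (x k * r s a * α h (y k)) =
          (star (r s a) * (star (x i) * x k)) * (r s a * α h (y k)) := by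
        rw [star_mul]
        simp only [mul_assoc]
      rw [e2, hj.r', star_mul]
      simp only [mul_assoc]
    simp only [e]
    have hi : ∀ i k, Integrable (fun s => ⟪j (α h (y i * star (y k)) * r s (star a)),
        j (r s (star a) * (star (x i) * x k))⟫_ℂ) ν := by
      intro i k
      refine integrable_inner (memLp_F hj P.actY P.itgY _ _) ?_
      exact (memLp_two_iff_integrable_sq_norm
        (hj.cont_mulR _ (P.actY.contj _)).aestronglyMeasurable).2 (P.itgY.int _ _)
    rw [integral_finset_sum _ fun i _ => integrable_finset_sum _ fun k _ => hi i k]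
    refine Finset.sum_congr rfl fun i _ => ?_
    rw [integral_finset_sum _ fun k _ => hi i k]
    refine Finset.sum_congr rfl fun k _ => ?_
    rw [H565.inner_Th_j]
  · refine le_of_eq ?_
    rw [integral_integral_swap hprod]
    have h1 : ((∫ s, ∫ h, ‖w h s‖ ^ 2 ∂μ ∂ν : ℝ) : ℂ) =
        ((‖j a‖ ^ 2 * ∫ h, ‖Gs j α x y h‖ ^ 2 ∂μ : ℝ) : ℂ) := by
      rw [← integral_complex_ofReal]
      simp only [hws]
      rw [integral_finset_sum _ fun i _ => integrable_finset_sum _ fun k _ =>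
        (hik i k).const_mul _]
      rw [Complex.ofReal_mul, int_Gs hj P.actH P.itgH x y, Finset.mul_sum]
      refine Finset.sum_congr rfl fun i _ => ?_
      rw [integral_finset_sum _ fun k _ => (hik i k).const_mul _, Finset.mul_sum]
      refine Finset.sum_congr rfl fun k _ => ?_
      rw [integral_const_mul, P.itgY.eqR hj P.actY, inner_self_eq_norm_sq_to_K]
      simp only [Complex.coe_algebraMap]
      push_cast
      ring
    exact_mod_cast h1

/-- the hypothesis `hsup` of helper978's `single_comm` for helper565's `Th`. -/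
theorem hsup_Th [IsTopologicalGroup Y] [SecondCountableTopology Y] [BorelSpace Y]
    [ν.IsMulLeftInvariant] [ν.IsInvInvariant]
    (P : Pk j α U μ r R ν) (faith : ∀ h : H, (∀ a, j (α h a) = j a) → h = 1)
    (x : A) (n : ℕ) (b c : Fin n → A) (K : ℝ)
    (hK : ∀ t, ‖∑ k, ⟪j (c k), j (α t (b k))⟫_ℂ‖ ≤ K) :
    ‖∑ k, ⟪j x, H565.Th P.ha P.actY P.itgY (b k) (c k) (j x)⟫_ℂ‖ ≤ ‖j x‖ ^ 2 * K := by
  by_cases hne : ∃ a, j a ≠ 0
  · have h1 : ∀ k, ⟪j x, H565.Th P.ha P.actY P.itgY (b k) (c k) (j x)⟫_ℂ =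
        ⟪j (c k), H565.Th P.ha P.actY P.itgY (star x) (star x) (j (b k))⟫_ℂ := fun k =>
      H565.Th_exch P.ha P.actY P.itgY _ _ _ _
    simp only [h1]
    refine sup_bound P faith hne (fun y ξ => H565.Th_R P.ha P.actY P.itgY _ _ y ξ)
      (posOp_Th P x) (fun k => j (b k)) (fun k => j (c k)) fun t => ?_
    simp only [P.actH.coe]
    exact hK t
  · push Not at hne
    simp [hne x]

end Vale.Agent.P092.H242.ThC
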