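import Vale.Agent.P092.H242.ThCDelta

/-!
P092, Theorem C (#3269) step (4): the sup bound for positive operators commuting with `r`
(helper242).
-/

set_option linter.all false

open MeasureTheory Filter Topology
open scoped InnerProductSpace ENNReal Pointwise

namespace Vale.Agent.P092.H242.ThC

variable {A L : Type*} [NonUnitalRing A] [StarRing A] [Module ℂ A] [SMulCommClass ℂ A A]
  [IsScalarTower ℂ A A]
  [NormedAddCommGroup L] [InnerProductSpace ℂ L] [CompleteSpace L] {j : A →ₗ[ℂ] L}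

variable {H Y : Type*} [Group H] [TopologicalSpace H] [IsTopologicalGroup H]
  [LocallyCompactSpace H] [T2Space H] [SecondCountableTopology H]
  [MeasurableSpace H] [BorelSpace H] [Group Y] [TopologicalSpace Y] [MeasurableSpace Y]
  [OpensMeasurableSpace Y] [SecondCountableTopology Y]
  {α : H → A → A} {U : H →* (L →L[ℂ] L)} {μ : Measure H} [μ.IsHaarMeasure]
  {r : Y → A → A} {R : Y →* (L →L[ℂ] L)} {ν : Measure Y} [SFinite ν]

/-- the positivity condition on `Ψ` with total mass `C` -/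
def PosOp (j : A →ₗ[ℂ] L) (α : H → A → A) (μ : Measure H) (Ψ : L →L[ℂ] L) (C : ℝ) : Prop :=
  ∀ (ι : Type) [Fintype ι] (x y : ι → A), ∃ f : H → ℝ, Integrable f μ ∧ (∀ h, 0 ≤ f h) ∧
    (∀ᵐ h ∂μ, ∑ i, ∑ k, ⟪j (α h (y i * star (y k))), Ψ (j (star (x i) * x k))⟫_ℂ = (f h : ℂ)) ∧
    ∫ h, f h ∂μ ≤ C * ∫ h, ‖Gs j α x y h‖ ^ 2 ∂μ

omit [SMulCommClass ℂ A A] [IsScalarTower ℂ A A] [CompleteSpace L] [IsTopologicalGroup H]
  [LocallyCompactSpace H] [T2Space H] [μ.IsHaarMeasure] [SecondCountableTopology H]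
  [BorelSpace H] in
theorem Gs_sq (hj : HA j) (hα : Act j α U) {ι : Type} [Fintype ι] (x y : ι → A) (h : H) :
    ∑ i, ∑ k, ⟪j (α h (y i * star (y k))), j (star (x i) * x k)⟫_ℂ =
      ((‖Gs j α x y h‖ ^ 2 : ℝ) : ℂ) := by
  have e : ((‖Gs j α x y h‖ ^ 2 : ℝ) : ℂ) = ⟪Gs j α x y h, Gs j α x y h⟫_ℂ := by
    rw [inner_self_eq_norm_sq_to_K]; push_cast; rfl
  rw [e]
  simp only [Gs, sum_inner, inner_sum]
  rw [Finset.sum_comm]
  refine Finset.sum_congr rfl fun k _ => Finset.sum_congr rfl fun i _ => ?_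
  rw [hα.mul, hα.st, hj.right, star_star, mul_assoc, hj.left]

theorem ofR {X : Type*} [MeasurableSpace X] {μ : Measure X} {f : X → ℝ} (hf : Integrable f μ) :
    Integrable (fun h => (f h : ℂ)) μ := hf.ofReal

section l1

omit [IsScalarTower ℂ A A] [SMulCommClass ℂ A A] [CompleteSpace L] [IsTopologicalGroup H]
  [LocallyCompactSpace H] [T2Space H] [μ.IsHaarMeasure] in
theorem l1_int (hα : Act j α U) {f : H → ℂ} (hf : Integrable f μ) (z x : L) :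
    Integrable (fun h => f h * ⟪z, U h x⟫_ℂ) μ := by
  have hc : Continuous fun h => ⟪z, U h x⟫_ℂ := continuous_const.inner (hα.cont x)
  refine hf.mul_bdd (c := ‖z‖ * ‖x‖) hc.aestronglyMeasurable (Eventually.of_forall fun h => ?_)
  refine (norm_inner_le_norm _ _).trans (le_of_eq ?_)
  rw [hα.iso]

omit [IsScalarTower ℂ A A] [SMulCommClass ℂ A A] [CompleteSpace L] [IsTopologicalGroup H]
  [LocallyCompactSpace H] [T2Space H] [μ.IsHaarMeasure] in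
theorem l1_bound (hα : Act j α U) {f : H → ℂ} (hf : Integrable f μ) (z x : L) :
    ‖∫ h, f h * ⟪z, U h x⟫_ℂ ∂μ‖ ≤ (∫ h, ‖f h‖ ∂μ) * ‖z‖ * ‖x‖ := by
  rw [mul_assoc, ← integral_mul_const]
  refine norm_integral_le_of_norm_le (hf.norm.mul_const _) (Eventually.of_forall fun h => ?_)
  rw [norm_mul]
  refine mul_le_mul_of_nonneg_left ?_ (norm_nonneg _)
  refine (norm_inner_le_norm _ _).trans (le_of_eq ?_)
  rw [hα.iso]

omit [IsScalarTower ℂ A A] [SMulCommClass ℂ A A] [CompleteSpace L] [IsTopologicalGroup H]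
  [LocallyCompactSpace H] [T2Space H] [μ.IsHaarMeasure] in
/-- functional in the second vector -/
theorem l1_right (hα : Act j α U) {f : H → ℂ} (hf : Integrable f μ) (z : L) :
    ∃ φ : L →L[ℂ] ℂ, ∀ x, φ x = ∫ h, f h * ⟪z, U h x⟫_ℂ ∂μ := by
  let φ0 : L →ₗ[ℂ] ℂ :=
    { toFun := fun x => ∫ h, f h * ⟪z, U h x⟫_ℂ ∂μ
      map_add' := by
        intro x y
        rw [← integral_add (l1_int hα hf z x) (l1_int hα hf z y)]
        congr 1
        funext h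
        rw [map_add, inner_add_right, mul_add]
      map_smul' := by
        intro c x
        rw [RingHom.id_apply, smul_eq_mul, ← integral_const_mul]
        congr 1
        funext h
        rw [map_smul, inner_smul_right]
        ring }
  exact ⟨φ0.mkContinuous ((∫ h, ‖f h‖ ∂μ) * ‖z‖) fun x => l1_bound hα hf z x, fun x => rfl⟩

omit [IsScalarTower ℂ A A] [SMulCommClass ℂ A A] [CompleteSpace L] [IsTopologicalGroup H]
  [LocallyCompactSpace H] [T2Space H] [μ.IsHaarMeasure] in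
/-- conjugate functional in the first vector -/
theorem l1_left (hα : Act j α U) {f : H → ℂ} (hf : Integrable f μ) (x : L) :
    ∃ φ : L →L[ℂ] ℂ, ∀ z, φ z = (starRingEnd ℂ) (∫ h, f h * ⟪z, U h x⟫_ℂ ∂μ) := by
  let φ0 : L →ₗ[ℂ] ℂ :=
    { toFun := fun z => (starRingEnd ℂ) (∫ h, f h * ⟪z, U h x⟫_ℂ ∂μ)
      map_add' := by
        intro y z
        rw [← map_add, ← integral_add (l1_int hα hf y x) (l1_int hα hf z x)]
        congr 2
        funext h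
        rw [inner_add_left, mul_add]
      map_smul' := by
        intro c z
        rw [RingHom.id_apply, smul_eq_mul]
        have : ∫ h, f h * ⟪c • z, U h x⟫_ℂ ∂μ =
            (starRingEnd ℂ) c * ∫ h, f h * ⟪z, U h x⟫_ℂ ∂μ := by
          rw [← integral_const_mul]
          congr 1
          funext h
          rw [inner_smul_left]
          ring
        rw [this, map_mul, RCLike.conj_conj] }
  refine ⟨φ0.mkContinuous ((∫ h, ‖f h‖ ∂μ) * ‖x‖) fun z => ?_, fun x => rfl⟩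
  change ‖(starRingEnd ℂ) (∫ h, f h * ⟪z, U h x⟫_ℂ ∂μ)‖ ≤ _
  rw [RCLike.norm_conj]
  refine (l1_bound hα hf z x).trans (le_of_eq ?_)
  ring

end l1

/-- the exchange identity for elementary vectors -/
theorem exch_base (P : Pk j α U μ r R ν) {Ψ : L →L[ℂ] L} (hr : ∀ y ξ, Ψ (R y ξ) = R y (Ψ ξ))
    (b₁ b₂ c₁ c₂ x₁ x₂ z₁ z₂ : A) :
    ∫ h, ⟪U h (j (c₁ * c₂)), Ψ (j (b₁ * b₂))⟫_ℂ * ⟪j (z₁ * z₂), U h (j (x₁ * x₂))⟫_ℂ ∂μ =
      ∫ h, ⟪U h (j (c₁ * c₂)), j (b₁ * b₂)⟫_ℂ * ⟪j (z₁ * z₂), Ψ (U h (j (x₁ * x₂)))⟫_ℂ ∂μ := by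
  rw [← K1 P (Ψ (j (b₁ * b₂))) (j (x₁ * x₂)) c₁ c₂ z₁ z₂]
  have e : ∀ ξ : L, ⟪j (z₁ * z₂), Ψ ξ⟫_ℂ = ⟪ContinuousLinearMap.adjoint Ψ (j (z₁ * z₂)), ξ⟫_ℂ := by
    intro ξ
    rw [ContinuousLinearMap.adjoint_inner_left]
  simp only [← hr, e]
  exact K2 P _ b₁ b₂ x₁ x₂ c₁ c₂

/-- the exchange identity (dagger) -/
theorem exch_all (P : Pk j α U μ r R ν) {Ψ : L →L[ℂ] L} (hr : ∀ y ξ, Ψ (R y ξ) = R y (Ψ ξ))
    {ι : Type} [Fintype ι] (x y : ι → A) {f : H → ℝ} (hf : Integrable f μ)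
    (hfe : ∀ᵐ h ∂μ, ∑ i, ∑ k, ⟪j (α h (y i * star (y k))), Ψ (j (star (x i) * x k))⟫_ℂ = (f h : ℂ))
    (ξ ζ : L) :
    ∫ h, (f h : ℂ) * ⟪ζ, U h ξ⟫_ℂ ∂μ =
      ∫ h, ((‖Gs j α x y h‖ ^ 2 : ℝ) : ℂ) * ⟪ζ, Ψ (U h ξ)⟫_ℂ ∂μ := by
  have hj := P.ha
  have hG := ofR (integrable_sq (memLp_Gs hj P.actH P.itgH x y))
  have e : ∀ (η ξ : L), ⟪η, Ψ ξ⟫_ℂ = ⟪ContinuousLinearMap.adjoint Ψ η, ξ⟫_ℂ := by
    intro η ξ
    rw [ContinuousLinearMap.adjoint_inner_left]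
  -- elementary vectors
  have base : ∀ x₁ x₂ z₁ z₂ : A, ∫ h, (f h : ℂ) * ⟪j (z₁ * z₂), U h (j (x₁ * x₂))⟫_ℂ ∂μ =
      ∫ h, ((‖Gs j α x y h‖ ^ 2 : ℝ) : ℂ) * ⟪j (z₁ * z₂), Ψ (U h (j (x₁ * x₂)))⟫_ℂ ∂μ := by
    intro x₁ x₂ z₁ z₂
    have l1 : ∫ h, (f h : ℂ) * ⟪j (z₁ * z₂), U h (j (x₁ * x₂))⟫_ℂ ∂μ =
        ∫ h, ∑ i, ∑ k, ⟪U h (j (y i * star (y k))), Ψ (j (star (x i) * x k))⟫_ℂ *
          ⟪j (z₁ * z₂), U h (j (x₁ * x₂))⟫_ℂ ∂μ := by
      refine integral_congr_ae ?_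
      filter_upwards [hfe] with h hh
      rw [← hh, Finset.sum_mul]
      refine Finset.sum_congr rfl fun i _ => ?_
      rw [Finset.sum_mul]
      refine Finset.sum_congr rfl fun k _ => ?_
      rw [P.actH.coe h (y i * star (y k))]
    have l2 : ∫ h, ((‖Gs j α x y h‖ ^ 2 : ℝ) : ℂ) * ⟪j (z₁ * z₂), Ψ (U h (j (x₁ * x₂)))⟫_ℂ ∂μ =
        ∫ h, ∑ i, ∑ k, ⟪U h (j (y i * star (y k))), j (star (x i) * x k)⟫_ℂ *
          ⟪j (z₁ * z₂), Ψ (U h (j (x₁ * x₂)))⟫_ℂ ∂μ := by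
      congr 1
      funext h
      rw [← Gs_sq hj P.actH, Finset.sum_mul]
      refine Finset.sum_congr rfl fun i _ => ?_
      rw [Finset.sum_mul]
      refine Finset.sum_congr rfl fun k _ => ?_
      rw [P.actH.coe h (y i * star (y k))]
    have i1 : ∀ i k, Integrable (fun h => ⟪U h (j (y i * star (y k))),
        Ψ (j (star (x i) * x k))⟫_ℂ * ⟪j (z₁ * z₂), U h (j (x₁ * x₂))⟫_ℂ) μ := fun i k =>
      (memLp1 hj P.actH P.itgH _ _ _).integrable_mul (memLp2 hj P.actH P.itgH z₁ z₂ (j (x₁ * x₂)))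
    have i2 : ∀ i k, Integrable (fun h => ⟪U h (j (y i * star (y k))),
        j (star (x i) * x k)⟫_ℂ * ⟪j (z₁ * z₂), Ψ (U h (j (x₁ * x₂)))⟫_ℂ) μ := by
      intro i k
      have hm := memLp1 hj P.actH P.itgH x₁ x₂ (ContinuousLinearMap.adjoint Ψ (j (z₁ * z₂)))
      have hm' := hm.star
      refine ((memLp1 hj P.actH P.itgH (y i) (star (y k)) (j (star (x i) * x k))).integrable_mul
        hm').congr (Eventually.of_forall fun h => ?_)
      simp only [Pi.mul_apply, Pi.star_apply]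
      rw [e (j (z₁ * z₂))]
      congr 1
      exact inner_conj_symm _ _
    rw [l1, l2, integral_finset_sum _ fun i _ => integrable_finset_sum _ fun k _ => i1 i k,
      integral_finset_sum _ fun i _ => integrable_finset_sum _ fun k _ => i2 i k]
    refine Finset.sum_congr rfl fun i _ => ?_
    rw [integral_finset_sum _ fun k _ => i1 i k, integral_finset_sum _ fun k _ => i2 i k]
    exact Finset.sum_congr rfl fun k _ => exch_base P hr _ _ _ _ _ _ _ _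
  simp only [e] at base ⊢
  -- first extension
  have step : ∀ (z₁ z₂ : A) (ξ : L), ∫ h, (f h : ℂ) * ⟪j (z₁ * z₂), U h ξ⟫_ℂ ∂μ =
      ∫ h, ((‖Gs j α x y h‖ ^ 2 : ℝ) : ℂ) *
        ⟪ContinuousLinearMap.adjoint Ψ (j (z₁ * z₂)), U h ξ⟫_ℂ ∂μ := by
    intro z₁ z₂ ξ
    obtain ⟨φ, hφ⟩ := l1_right P.actH (ofR hf) (j (z₁ * z₂))
    obtain ⟨ψ, hψ⟩ := l1_right P.actH hG (ContinuousLinearMap.adjoint Ψ (j (z₁ * z₂)))
    have h1 := ext2 hj P.actH P.itgH (φ := φ) (ψ := ψ) (fun a b => by rw [hφ, hψ]; exact base _ _ _ _) ξ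
    rw [hφ, hψ] at h1
    exact h1
  obtain ⟨φ, hφ⟩ := l1_left P.actH (ofR hf) ξ
  obtain ⟨ψ, hψ⟩ := l1_left P.actH hG ξ
  have h1 := ext2 hj P.actH P.itgH (φ := φ) (ψ := ψ.comp (ContinuousLinearMap.adjoint Ψ))
    (fun a b => by
      rw [ContinuousLinearMap.comp_apply, hφ, hψ]
      congr 1
      exact step _ _ _) ζ
  rw [ContinuousLinearMap.comp_apply, hφ, hψ] at h1
  exact (starRingEnd ℂ).injective h1

/-- **weak approximation of `Ψ` by positive averages of `U`** -/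
theorem weak_approx (P : Pk j α U μ r R ν)
    (faith : ∀ h : H, (∀ a, j (α h a) = j a) → h = 1) (hne : ∃ a, j a ≠ 0)
    {Ψ : L →L[ℂ] L} (hr : ∀ y ξ, Ψ (R y ξ) = R y (Ψ ξ)) {C : ℝ} (hP : PosOp j α μ Ψ C) :
    ∃ (f : ℕ → H → ℝ) (m : ℕ → ℝ), (∀ n, Integrable (f n) μ) ∧ (∀ n h, 0 ≤ f n h) ∧
      (∀ n, ∫ h, f n h ∂μ ≤ C * m n) ∧ Tendsto m atTop (𝓝 1) ∧
      ∀ ξ ζ : L, Tendsto (fun n => ∫ h, (f n h : ℂ) * ⟪ζ, U h ξ⟫_ℂ ∂μ) atTop (𝓝 ⟪ζ, Ψ ξ⟫_ℂ) := by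
  obtain ⟨ι, hι, x, y, hxy⟩ := exists_delta P faith hne
  choose f hf1 hf2 hf3 hf4 using fun n => hP (ι n) (x n) (y n)
  refine ⟨f, fun n => ∫ h, ‖Gs j α (x n) (y n) h‖ ^ 2 ∂μ, hf1, hf2, hf4, ?_, fun ξ ζ => ?_⟩
  · have h1 := hxy (fun _ => 1) continuous_const ⟨1, fun _ => by simp⟩
    have h2 := (Complex.continuous_re.tendsto _).comp h1
    rw [Complex.one_re] at h2
    refine h2.congr fun n => ?_
    simp only [Function.comp_apply, mul_one]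
    rw [integral_complex_ofReal, Complex.ofReal_re]
  · have hc : Continuous fun h => ⟪ζ, Ψ (U h ξ)⟫_ℂ :=
      continuous_const.inner (Ψ.continuous.comp (P.actH.cont ξ))
    have h1 := hxy (fun h => ⟪ζ, Ψ (U h ξ)⟫_ℂ) hc ⟨‖ζ‖ * (‖Ψ‖ * ‖ξ‖), fun h => by
      refine (norm_inner_le_norm _ _).trans (mul_le_mul_of_nonneg_left ?_ (norm_nonneg _))
      refine (Ψ.le_opNorm _).trans (le_of_eq ?_)
      rw [P.actH.iso]⟩
    rw [map_one, ContinuousLinearMap.one_apply] at h1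
    refine h1.congr fun n => ?_
    exact (exch_all P hr (x n) (y n) (hf1 n) (hf3 n) ξ ζ).symm

/-- **Theorem C, step (4): the sup bound** -/
theorem sup_bound (P : Pk j α U μ r R ν)
    (faith : ∀ h : H, (∀ a, j (α h a) = j a) → h = 1) (hne : ∃ a, j a ≠ 0)
    {Ψ : L →L[ℂ] L} (hr : ∀ y ξ, Ψ (R y ξ) = R y (Ψ ξ)) {C : ℝ} (hP : PosOp j α μ Ψ C)
    {κ : Type*} [Fintype κ] (b c : κ → L) {K : ℝ} (hK : ∀ t, ‖∑ k, ⟪c k, U t (b k)⟫_ℂ‖ ≤ K) :
    ‖∑ k, ⟪c k, Ψ (b k)⟫_ℂ‖ ≤ C * K := by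
  obtain ⟨f, m, hf1, hf2, hf3, hm, hlim⟩ := weak_approx P faith hne hr hP
  have hK0 : 0 ≤ K := (norm_nonneg _).trans (hK 1)
  have h1 : Tendsto (fun n => ∑ k, ∫ h, (f n h : ℂ) * ⟪c k, U h (b k)⟫_ℂ ∂μ) atTop
      (𝓝 (∑ k, ⟪c k, Ψ (b k)⟫_ℂ)) := tendsto_finset_sum _ fun k _ => hlim _ _
  have h2 : Tendsto (fun n => (C * m n) * K) atTop (𝓝 ((C * 1) * K)) :=
    (hm.const_mul C).mul_const K
  rw [mul_one] at h2
  refine le_of_tendsto_of_tendsto h1.norm h2 (Eventually.of_forall fun n => ?_)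
  simp only
  rw [← integral_finset_sum _ fun k _ => l1_int P.actH (ofR (hf1 n)) (c k) (b k)]
  have h3 : ‖∫ h, ∑ k, (f n h : ℂ) * ⟪c k, U h (b k)⟫_ℂ ∂μ‖ ≤ ∫ h, f n h * K ∂μ := by
    refine norm_integral_le_of_norm_le ((hf1 n).mul_const K) (Eventually.of_forall fun h => ?_)
    rw [← Finset.mul_sum, norm_mul, Complex.norm_real, Real.norm_of_nonneg (hf2 n h)]
    exact mul_le_mul_of_nonneg_left (hK h) (hf2 n h)
  refine h3.trans ?_
  rw [integral_mul_const]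
  exact mul_le_mul_of_nonneg_right (hf3 n) hK0

/-- positivity version -/
theorem pos_bound (P : Pk j α U μ r R ν)
    (faith : ∀ h : H, (∀ a, j (α h a) = j a) → h = 1) (hne : ∃ a, j a ≠ 0)
    {Ψ : L →L[ℂ] L} (hr : ∀ y ξ, Ψ (R y ξ) = R y (Ψ ξ)) {C : ℝ} (hP : PosOp j α μ Ψ C)
    {κ : Type*} [Fintype κ] (b c : κ → L) (hK : ∀ t, 0 ≤ (∑ k, ⟪c k, U t (b k)⟫_ℂ).re) :
    0 ≤ (∑ k, ⟪c k, Ψ (b k)⟫_ℂ).re := by
  obtain ⟨f, m, hf1, hf2, hf3, hm, hlim⟩ := weak_approx P faith hne hr hP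
  have h1 : Tendsto (fun n => ∑ k, ∫ h, (f n h : ℂ) * ⟪c k, U h (b k)⟫_ℂ ∂μ) atTop
      (𝓝 (∑ k, ⟪c k, Ψ (b k)⟫_ℂ)) := tendsto_finset_sum _ fun k _ => hlim _ _
  have h2 := (Complex.continuous_re.tendsto _).comp h1
  refine ge_of_tendsto h2 (Eventually.of_forall fun n => ?_)
  simp only [Function.comp_apply]
  rw [← integral_finset_sum _ fun k _ => l1_int P.actH (ofR (hf1 n)) (c k) (b k)]
  have hint : Integrable (fun h => ∑ k, (f n h : ℂ) * ⟪c k, U h (b k)⟫_ℂ) μ :=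
    integrable_finset_sum _ fun k _ => l1_int P.actH (ofR (hf1 n)) (c k) (b k)
  have h3 := integral_re hint
  simp only [RCLike.re_to_complex] at h3
  rw [← h3]
  refine integral_nonneg fun h => ?_
  simp only [Pi.zero_apply]
  rw [← Finset.mul_sum, Complex.re_ofReal_mul]
  exact mul_nonneg (hf2 n h) (hK h)

end Vale.Agent.P092.H242.ThC
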